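import Vale.Agent.P204.Inv.Defs

/-! Pointwise algebra of linear complex structures on `ℝ⁴` (P204). -/

namespace Vale.Agent.P204.Inv

open scoped Matrix

variable {J : M4}

def n2 (v : Fin 4 → ℝ) : ℝ := ∑ i, v i ^ 2

lemma wed_comm (a b : V6) : wed a b = wed b a := by
  simp only [wed, dot, star', Fin.sum_univ_six]; simp; ring

lemma star_star {R : Type*} [InvolutiveNeg R] (b : Fin 6 → R) : star' (star' b) = b := by
  funext k; fin_cases k <;> simp [star']

lemma dot_eq_wed (a b : V6) : dot a b = wed (star' a) b := by rw [wed, star_star]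

lemma dot_biv (w : V6) (v u : Fin 4 → ℝ) : dot w (biv v u) = v ⬝ᵥ mat w *ᵥ u := by
  simp [dot, biv, mat, dotProduct, Matrix.mulVec, Fin.sum_univ_six, Fin.sum_univ_four]; ring

lemma crd_mat (w : V6) : crd (mat w) = w := by
  funext k; fin_cases k <;> simp [crd, mat]

lemma mat_crd {W : M4} (h : ∀ a b, W b a = -W a b) : mat (crd W) = W := by
  have d : ∀ a, W a a = 0 := fun a => by linarith [h a a]
  ext a b; fin_cases a <;> fin_cases b <;> simp [crd, mat, d]
  all_goals first
    | exact (h _ _).symm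
    | rw [← h]

lemma crd_transpose_mul (M : M4) (w : V6) :
    crd (Mᵀ * mat w * M) = ![dot w (biv (M.col 0) (M.col 1)), dot w (biv (M.col 2) (M.col 3)),
      dot w (biv (M.col 0) (M.col 2)), dot w (biv (M.col 1) (M.col 3)),
      dot w (biv (M.col 0) (M.col 3)), dot w (biv (M.col 1) (M.col 2))] := by
  funext k
  fin_cases k <;>
    simp [crd, dot_biv, dotProduct, Matrix.mulVec, Matrix.mul_apply, Fin.sum_univ_four] <;> ring

/-- Pulling two forms back by four vectors multiplies their wedge by the volume. -/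
lemma wed_pull (a b c d : Fin 4 → ℝ) (w z : V6) :
    dot w (biv a b) * dot z (biv c d) + dot z (biv a b) * dot w (biv c d)
      - dot w (biv a c) * dot z (biv b d) - dot z (biv a c) * dot w (biv b d)
      + dot w (biv a d) * dot z (biv b c) + dot z (biv a d) * dot w (biv b c)
    = wed (biv a b) (biv c d) * wed w z := by
  simp only [wed, dot, biv, star', Fin.sum_univ_six]
  simp
  ring

lemma biv_norm_le (v w : Fin 4 → ℝ) : ∑ k, biv v w k ^ 2 ≤ n2 v * n2 w := by
  have e : ∑ k, biv v w k ^ 2 = n2 v * n2 w - (∑ i, v i * w i) ^ 2 := by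
    simp [biv, n2, Fin.sum_univ_six, Fin.sum_univ_four]; ring
  rw [e]; nlinarith [sq_nonneg (∑ i, v i * w i)]

lemma wed_biv_sq_le (a b c d : Fin 4 → ℝ) :
    wed (biv a b) (biv c d) ^ 2 ≤ n2 a * n2 b * (n2 c * n2 d) := by
  have h := Finset.sum_mul_sq_le_sq_mul_sq Finset.univ (star' (biv a b)) (biv c d)
  have e : ∑ k, star' (biv a b) k ^ 2 = ∑ k, biv a b k ^ 2 := by
    simp [star', Fin.sum_univ_six]; ring
  rw [e] at h
  refine h.trans ?_
  exact mul_le_mul (biv_norm_le a b) (biv_norm_le c d) (Finset.sum_nonneg fun k _ => sq_nonneg _)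
    (mul_nonneg (Finset.sum_nonneg fun i _ => sq_nonneg _) (Finset.sum_nonneg fun i _ => sq_nonneg _))

lemma n2_nonneg (v : Fin 4 → ℝ) : 0 ≤ n2 v := Finset.sum_nonneg fun _ _ => sq_nonneg _

lemma n2_pos {v : Fin 4 → ℝ} (hv : v ≠ 0) : 0 < n2 v := by
  obtain ⟨i, hi⟩ := Function.ne_iff.1 hv
  refine lt_of_lt_of_le (by have : v i ≠ 0 := hi; positivity) (Finset.single_le_sum
    (f := fun i => v i ^ 2) (fun j _ => sq_nonneg _) (Finset.mem_univ i))

lemma n2_mulVec_le (D : M4) (w : Fin 4 → ℝ) : n2 (D *ᵥ w) ≤ sqn D * n2 w := by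
  simp only [n2, sqn, Matrix.mulVec, dotProduct, Finset.sum_mul]
  exact Finset.sum_le_sum fun a _ => (Finset.sum_mul_sq_le_sq_mul_sq _ _ _).trans_eq
    (Finset.sum_mul _ _ _)

/-- The metric of the reference form. -/
def gm (J : M4) (v : Fin 4 → ℝ) : ℝ := n2 v + n2 (J *ᵥ v)

lemma gm_ge (J : M4) (v : Fin 4 → ℝ) : n2 v ≤ gm J v ∧ n2 (J *ᵥ v) ≤ gm J v :=
  ⟨le_add_of_nonneg_right (n2_nonneg _), le_add_of_nonneg_left (n2_nonneg _)⟩

lemma ref_skew (hJ : J * J = -1) (a b : Fin 4) :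
    (-((1 + Jᵀ * J) * J)) b a = -(-((1 + Jᵀ * J) * J)) a b := by
  have e : (1 + Jᵀ * J) * J = J - Jᵀ := by rw [add_mul, one_mul, Matrix.mul_assoc, hJ]; simp [sub_eq_add_neg]
  rw [e]; simp [Matrix.sub_apply]

lemma mat_ref (hJ : J * J = -1) : mat (refForm J) = Jᵀ - J := by
  rw [refForm, mat_crd (ref_skew hJ), add_mul, one_mul, Matrix.mul_assoc, hJ]
  simp [sub_eq_add_neg, add_comm]

lemma J_mulVec (hJ : J * J = -1) (v : Fin 4 → ℝ) : J *ᵥ (J *ᵥ v) = -v := by
  rw [Matrix.mulVec_mulVec, hJ, Matrix.neg_mulVec, Matrix.one_mulVec]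

/-- The value of the reference form on two vectors. -/
lemma ref_biv (hJ : J * J = -1) (v u : Fin 4 → ℝ) :
    dot (refForm J) (biv v u) = (J *ᵥ v) ⬝ᵥ u - v ⬝ᵥ (J *ᵥ u) := by
  rw [dot_biv, mat_ref hJ, Matrix.sub_mulVec, dotProduct_sub, Matrix.dotProduct_mulVec,
    Matrix.vecMul_transpose]

lemma ref_line (hJ : J * J = -1) (v : Fin 4 → ℝ) :
    dot (refForm J) (biv v (J *ᵥ v)) = gm J v := by
  rw [ref_biv hJ, J_mulVec hJ, dotProduct_neg, sub_neg_eq_add]
  simp [gm, n2, dotProduct, sq, add_comm]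

lemma ref_inv (hJ : J * J = -1) (v u : Fin 4 → ℝ) :
    dot (refForm J) (biv (J *ᵥ v) (J *ᵥ u)) = dot (refForm J) (biv v u) := by
  simp only [ref_biv hJ, J_mulVec hJ, neg_dotProduct, dotProduct_neg]; ring

lemma biv_self (v : Fin 4 → ℝ) : biv v v = 0 := by funext k; fin_cases k <;> simp [biv] <;> ring

lemma biv_swap (v w : Fin 4 → ℝ) : biv w v = -biv v w := by
  funext k; fin_cases k <;> simp [biv] <;> ring

lemma dot_neg (w b : V6) : dot w (-b) = -dot w b := by simp [dot, Finset.sum_neg_distrib]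

lemma biv_neg (v w : Fin 4 → ℝ) : biv v (-w) = -biv v w ∧ biv (-v) w = -biv v w := by
  constructor <;> funext k <;> fin_cases k <;> simp [biv] <;> ring

/-- A form whose value on `J a, J b` is `s` times that on `a, b`. -/
def Typ (J : M4) (s : ℝ) (w : V6) : Prop :=
  ∀ a b, dot w (biv (J *ᵥ a) (J *ᵥ b)) = s * dot w (biv a b)

lemma Typ.swap (hJ : J * J = -1) {s : ℝ} {w : V6} (h : Typ J s w) (a b : Fin 4 → ℝ) :
    dot w (biv (J *ᵥ a) b) = -(s * dot w (biv a (J *ᵥ b))) := by
  have := h a (J *ᵥ b)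
  rw [J_mulVec hJ, (biv_neg _ _).1, dot_neg] at this
  linarith

lemma anti_eq (w : V6) :
    anti J w = (1 / 2 : ℝ) • (w - crd (Jᵀ * mat w * J)) := by
  funext k
  fin_cases k <;> simp [anti, crd, mat, Matrix.vecHead, Matrix.vecTail]

lemma dot_pull (w : V6) (a b : Fin 4 → ℝ) :
    dot (crd (Jᵀ * mat w * J)) (biv a b) = dot w (biv (J *ᵥ a) (J *ᵥ b)) := by
  have hs : ∀ i j, (Jᵀ * mat w * J) j i = -(Jᵀ * mat w * J) i j := fun i j => by
    have e : (Jᵀ * mat w * J)ᵀ = -(Jᵀ * mat w * J) := by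
      have hm : (mat w)ᵀ = -mat w := by ext p q; fin_cases p <;> fin_cases q <;> simp [mat]
      simp [Matrix.transpose_mul, hm, Matrix.mul_assoc]
    exact congrFun (congrFun e i) j
  rw [dot_biv, dot_biv, mat_crd hs, Matrix.mul_assoc, ← Matrix.mulVec_mulVec, ← Matrix.mulVec_mulVec,
    Matrix.dotProduct_mulVec, Matrix.vecMul_transpose]

lemma dot_anti (w : V6) (a b : Fin 4 → ℝ) :
    dot (anti J w) (biv a b) = (dot w (biv a b) - dot w (biv (J *ᵥ a) (J *ᵥ b))) / 2 := by
  rw [anti_eq, ← dot_pull w a b]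
  simp [dot, Fin.sum_univ_six]; ring

lemma ext_biv {w z : V6} (h : ∀ a b, dot w (biv a b) = dot z (biv a b)) : w = z := by
  funext k
  fin_cases k
  · simpa [dot, biv, Fin.sum_univ_six] using h (Pi.single 0 1) (Pi.single 1 1)
  · simpa [dot, biv, Fin.sum_univ_six] using h (Pi.single 2 1) (Pi.single 3 1)
  · simpa [dot, biv, Fin.sum_univ_six] using h (Pi.single 0 1) (Pi.single 2 1)
  · simpa [dot, biv, Fin.sum_univ_six] using h (Pi.single 1 1) (Pi.single 3 1)
  · simpa [dot, biv, Fin.sum_univ_six] using h (Pi.single 0 1) (Pi.single 3 1)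
  · simpa [dot, biv, Fin.sum_univ_six] using h (Pi.single 1 1) (Pi.single 2 1)

lemma anti_typ (hJ : J * J = -1) (w : V6) : Typ J (-1) (anti J w) := fun a b => by
  simp only [dot_anti, J_mulVec hJ, (biv_neg _ _).1, (biv_neg _ _).2, dot_neg]
  ring

lemma typ_one_iff {w : V6} : anti J w = 0 ↔ Typ J 1 w := by
  constructor
  · intro h a b
    have := dot_anti (J := J) w a b
    rw [h] at this
    simp [dot] at this ⊢
    linarith
  · intro h
    refine ext_biv fun a b => ?_
    rw [dot_anti, h a b]; simp [dot]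

lemma typ_neg_iff (hJ : J * J = -1) {w : V6} : anti J w = w ↔ Typ J (-1) w := by
  constructor
  · intro h; rw [← h]; exact anti_typ hJ w
  · intro h
    exact ext_biv fun a b => by rw [dot_anti, h a b]; ring

lemma anti_anti (hJ : J * J = -1) (w : V6) : anti J (anti J w) = anti J w :=
  (typ_neg_iff hJ).2 (anti_typ hJ w)

lemma anti_ref (hJ : J * J = -1) : anti J (refForm J) = 0 :=
  typ_one_iff.2 fun a b => by rw [ref_inv hJ, one_mul]

/-- An anti-invariant form kills complex lines. -/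
lemma anti_line (hJ : J * J = -1) {w : V6} (h : Typ J (-1) w) (v : Fin 4 → ℝ) :
    dot w (biv v (J *ᵥ v)) = 0 := by
  have h1 := h.swap hJ v v
  rw [biv_swap, dot_neg] at h1
  linarith

lemma line_anti (hJ : J * J = -1) (w : V6) (v : Fin 4 → ℝ) :
    dot (anti J w) (biv v (J *ᵥ v)) = 0 := anti_line hJ (anti_typ hJ w) v

/-- A basis adapted to the structure. -/
lemma exists_adapted (hJ : J * J = -1) {v : Fin 4 → ℝ} (hv : v ≠ 0) (w : Fin 4 → ℝ) :
    ∃ α β : ℝ, dot (refForm J) (biv v (w - α • v - β • (J *ᵥ v))) = 0 ∧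
      dot (refForm J) (biv v (J *ᵥ (w - α • v - β • (J *ᵥ v)))) = 0 ∧
      gm J v * gm J (w - α • v - β • (J *ᵥ v)) =
        gm J v * gm J w - dot (refForm J) (biv v w) ^ 2
          - dot (refForm J) (biv v (J *ᵥ w)) ^ 2 := by
  have hg : gm J v ≠ 0 := ((n2_pos hv).trans_le (gm_ge J v).1).ne'
  refine ⟨dot (refForm J) (biv v (J *ᵥ w)) / gm J v, dot (refForm J) (biv v w) / gm J v, ?_⟩
  set α := dot (refForm J) (biv v (J *ᵥ w)) / gm J v with hα
  set β := dot (refForm J) (biv v w) / gm J v with hβ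
  set w' := w - α • v - β • (J *ᵥ v) with hw'
  have lin : ∀ p a b c (x y : ℝ), dot (refForm J) (biv p (a - x • b - y • c)) =
      dot (refForm J) (biv p a) - x * dot (refForm J) (biv p b) - y * dot (refForm J) (biv p c) := by
    intros; simp [dot, biv, Fin.sum_univ_six]; ring
  have eJ : J *ᵥ w' = J *ᵥ w - α • (J *ᵥ v) - β • (-v) := by
    rw [hw', Matrix.mulVec_sub, Matrix.mulVec_sub, Matrix.mulVec_smul, Matrix.mulVec_smul,
      J_mulVec hJ]
  have z : ∀ a, dot (refForm J) (biv a a) = 0 := fun a => by simp [biv_self, dot]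
  have h1 : dot (refForm J) (biv v w') = 0 := by
    rw [hw', lin, z, ref_line hJ, hβ, div_mul_cancel₀ _ hg]; ring
  have h2 : dot (refForm J) (biv v (J *ᵥ w')) = 0 := by
    rw [eJ, lin, ref_line hJ, (biv_neg v v).1, dot_neg, z, hα, div_mul_cancel₀ _ hg]; ring
  refine ⟨h1, h2, ?_⟩
  have tr : Typ J 1 (refForm J) := typ_one_iff.1 (anti_ref hJ)
  have h3 : dot (refForm J) (biv w' (J *ᵥ v)) = 0 := by
    rw [biv_swap, dot_neg, tr.swap hJ, h2]; simp
  have h4 : dot (refForm J) (biv w' v) = 0 := by rw [biv_swap, dot_neg, h1, neg_zero]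
  have e1 : gm J w' = dot (refForm J) (biv w' (J *ᵥ w)) := by
    rw [← ref_line hJ w', eJ, lin, h3, (biv_neg w' v).1, dot_neg, h4]; ring
  have e2 : dot (refForm J) (biv w' (J *ᵥ w)) = gm J w - α * dot (refForm J) (biv v (J *ᵥ w))
      - β * dot (refForm J) (biv (J *ᵥ v) (J *ᵥ w)) := by
    rw [← neg_neg (dot (refForm J) (biv w' (J *ᵥ w))), ← dot_neg, ← biv_swap, hw', lin,
      biv_swap w, biv_swap v, biv_swap (J *ᵥ v), dot_neg, dot_neg, dot_neg, ref_line hJ]
    ring
  rw [e1, e2, ref_inv hJ, hα, hβ]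
  field_simp
  ring

lemma vol_identity (hJ : J * J = -1) (v w : Fin 4 → ℝ) :
    wed (biv v (J *ᵥ v)) (biv w (J *ᵥ w)) * wed (refForm J) (refForm J) =
      2 * (gm J v * gm J w - dot (refForm J) (biv v w) ^ 2
        - dot (refForm J) (biv v (J *ᵥ w)) ^ 2) := by
  rw [← wed_pull]
  have tr : Typ J 1 (refForm J) := typ_one_iff.1 (anti_ref hJ)
  rw [ref_line hJ, ref_line hJ, tr v w, tr.swap hJ v w]
  ring

/-- Two vectors spanning `ℝ⁴` with their images. -/
lemma exists_frame (hJ : J * J = -1) :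
    ∃ v w : Fin 4 → ℝ, 0 < gm J v ∧ 0 < gm J w ∧ dot (refForm J) (biv v w) = 0 ∧
      dot (refForm J) (biv v (J *ᵥ w)) = 0 ∧
      wed (biv v (J *ᵥ v)) (biv w (J *ᵥ w)) * wed (refForm J) (refForm J) =
        2 * (gm J v * gm J w) := by
  set v : Fin 4 → ℝ := Pi.single 0 1
  have hv : v ≠ 0 := by simp [v]
  obtain ⟨u, hu⟩ : ∃ u, ∀ α β : ℝ, u - α • v - β • (J *ᵥ v) ≠ 0 := by
    by_contra hcon
    push Not at hcon
    obtain ⟨a, b, h1⟩ := hcon (Pi.single 1 1)
    obtain ⟨c, d, h2⟩ := hcon (Pi.single 2 1)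
    have p := congrFun h1 1
    have q := congrFun h2 1
    have r := congrFun h2 2
    simp [v] at p q r
    rcases eq_or_ne d 0 with rfl | hd
    · simp at r
    · rcases q with q | q
      · exact hd q
      · rw [q] at p; simp at p
  obtain ⟨α, β, h1, h2, -⟩ := exists_adapted hJ hv u
  refine ⟨v, _, (n2_pos hv).trans_le (gm_ge J v).1, (n2_pos (hu α β)).trans_le (gm_ge J _).1,
    h1, h2, ?_⟩
  rw [vol_identity hJ, h1, h2]; ring

lemma wed_ref_ne (hJ : J * J = -1) : wed (refForm J) (refForm J) ≠ 0 := by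
  obtain ⟨v, w, hv, hw, -, -, e⟩ := exists_frame hJ
  intro h
  rw [h, mul_zero] at e
  nlinarith [mul_pos hv hw]

lemma orient_mul (hJ : J * J = -1) :
    orient J * wed (refForm J) (refForm J) = |wed (refForm J) (refForm J)| ∧
      orient J ^ 2 = 1 := by
  unfold orient
  split_ifs with h
  · exact ⟨by rw [abs_of_pos h, one_mul], one_pow 2⟩
  · exact ⟨by rw [abs_of_nonpos (not_lt.1 h)]; ring, by ring⟩

/-- Nearby complex lines meet nonnegatively up to the square of the distance. -/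
lemma pair_lower (hJ : J * J = -1) (J' : M4) (v w : Fin 4 → ℝ) :
    -(|wed (refForm J) (refForm J)| / 8) * sqn (J' - J) * gm J v * n2 w ≤
      orient J * wed (biv v (J *ᵥ v)) (biv w (J' *ᵥ w)) := by
  by_cases hv : v = 0
  · subst hv; simp [gm, n2, wed, dot, biv, star', Fin.sum_univ_six]
  obtain ⟨α, β, -, -, hG⟩ := exists_adapted hJ hv w
  set w' := w - α • v - β • (J *ᵥ v)
  have split : wed (biv v (J *ᵥ v)) (biv w (J' *ᵥ w)) = wed (biv v (J *ᵥ v)) (biv w (J *ᵥ w))
      + wed (biv v (J *ᵥ v)) (biv w' ((J' - J) *ᵥ w)) := by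
    rw [Matrix.sub_mulVec]
    simp [w', wed, dot, biv, star', Fin.sum_univ_six]; ring
  have hI := vol_identity hJ v w
  rw [← hG] at hI
  have hc := wed_biv_sq_le v (J *ᵥ v) w' ((J' - J) *ᵥ w)
  obtain ⟨ho, ho2⟩ := orient_mul hJ
  have hP : 0 < |wed (refForm J) (refForm J)| := abs_pos.2 (wed_ref_ne hJ)
  rw [split, mul_add]
  set P := |wed (refForm J) (refForm J)|
  set X := gm J v * gm J w'
  set K := gm J v * sqn (J' - J) * n2 w
  set c := orient J * wed (biv v (J *ᵥ v)) (biv w' ((J' - J) *ᵥ w))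
  set d := orient J * wed (biv v (J *ᵥ v)) (biv w (J *ᵥ w))
  have hd : d * P = 2 * X := by
    rw [← ho, show d * (orient J * wed (refForm J) (refForm J)) = orient J ^ 2 *
      (wed (biv v (J *ᵥ v)) (biv w (J *ᵥ w)) * wed (refForm J) (refForm J)) by ring, ho2, hI,
      one_mul]
  have hg := gm_ge J v
  have hX : 0 ≤ X := mul_nonneg ((n2_nonneg v).trans hg.1) ((n2_nonneg w').trans (gm_ge J w').1)
  have hK : 0 ≤ K := mul_nonneg (mul_nonneg ((n2_nonneg v).trans hg.1)
    (Finset.sum_nonneg fun _ _ => Finset.sum_nonneg fun _ _ => sq_nonneg _)) (n2_nonneg w)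
  have hc2 : c ^ 2 ≤ X * K := by
    have e : c ^ 2 = wed (biv v (J *ᵥ v)) (biv w' ((J' - J) *ᵥ w)) ^ 2 := by
      simp only [c, mul_pow, ho2, one_mul]
    rw [e]
    refine hc.trans ?_
    refine (mul_le_mul (mul_le_mul hg.1 hg.2 (n2_nonneg _) ((n2_nonneg v).trans hg.1))
      (mul_le_mul (gm_ge J w').1 (n2_mulVec_le _ w) (n2_nonneg _)
        ((n2_nonneg w').trans (gm_ge J w').1))
      (mul_nonneg (n2_nonneg _) (n2_nonneg _))
      (mul_nonneg ((n2_nonneg v).trans hg.1) ((n2_nonneg v).trans hg.1))).trans_eq ?_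
    simp only [X, K]; ring
  have : -(P / 8) * K ≤ d + c := by
    by_contra hcon
    push Not at hcon
    have hd' : d = 2 * X / P := by rw [← hd]; field_simp
    rw [hd'] at hcon
    have h5 : 2 * X / P + P / 8 * K < -c := by linarith
    have h6 : 0 ≤ 2 * X / P + P / 8 * K := by positivity
    have h7 : (2 * X / P + P / 8 * K) ^ 2 < c ^ 2 := by nlinarith
    have h8 : (2 * X / P + P / 8 * K) ^ 2 = (2 * X / P - P / 8 * K) ^ 2 + X * K := by
      field_simp; ring
    nlinarith [sq_nonneg (2 * X / P - P / 8 * K)]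
  calc _ = -(P / 8) * K := by simp only [K]; ring
    _ ≤ _ := this

lemma eq_zero_of_frame {v w : Fin 4 → ℝ} {z : V6}
    (hvol : wed (biv v (J *ᵥ v)) (biv w (J *ᵥ w)) ≠ 0)
    (h : dot z (biv v (J *ᵥ v)) = 0 ∧ dot z (biv w (J *ᵥ w)) = 0 ∧ dot z (biv v w) = 0 ∧
      dot z (biv (J *ᵥ v) (J *ᵥ w)) = 0 ∧ dot z (biv v (J *ᵥ w)) = 0 ∧
      dot z (biv (J *ᵥ v) w) = 0) : z = 0 := by
  obtain ⟨h1, h2, h3, h4, h5, h6⟩ := h
  have key : ∀ y, wed z y = 0 := fun y => by
    have := wed_pull v (J *ᵥ v) w (J *ᵥ w) z y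
    rw [h1, h2, h3, h4, h5, h6] at this
    simp at this
    tauto
  funext k
  have := key (star' (Pi.single k 1))
  fin_cases k <;> simpa [wed, dot, star', Fin.sum_univ_six] using this

/-- Anti-invariant forms have positive square. -/
lemma anti_pos (hJ : J * J = -1) {z : V6} (h : anti J z = z) (hz : z ≠ 0) :
    0 < orient J * wed z z := by
  obtain ⟨v, w, hv, hw, -, -, e⟩ := exists_frame hJ
  have t := (typ_neg_iff hJ).1 h
  set d := wed (biv v (J *ᵥ v)) (biv w (J *ᵥ w))
  set A := dot z (biv v w)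
  set B := dot z (biv v (J *ᵥ w))
  have hd : d ≠ 0 := fun h0 => by rw [h0, zero_mul] at e; nlinarith [mul_pos hv hw]
  have key : d * wed z z = 2 * (A ^ 2 + B ^ 2) := by
    rw [← wed_pull, anti_line hJ t, anti_line hJ t, t v w, t.swap hJ v w]; ring
  have hAB : 0 < A ^ 2 + B ^ 2 := by
    by_contra hcon
    have hA : A = 0 := by nlinarith [sq_nonneg A, sq_nonneg B]
    have hB : B = 0 := by nlinarith [sq_nonneg A, sq_nonneg B]
    refine hz (eq_zero_of_frame hd ⟨anti_line hJ t v, anti_line hJ t w, hA, ?_, hB, ?_⟩)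
    · rw [t v w]; exact mul_eq_zero_of_right _ hA
    · rw [t.swap hJ v w, show dot z (biv v (J *ᵥ w)) = 0 from hB]; ring
  have hsd : 0 < orient J * d := by
    have := (orient_mul hJ).1
    nlinarith [mul_pos hv hw, abs_pos.2 (wed_ref_ne hJ), (orient_mul hJ).2]
  have : 0 < (orient J * d) * (orient J * wed z z) := by
    rw [show (orient J * d) * (orient J * wed z z) = orient J ^ 2 * (d * wed z z) by ring,
      (orient_mul hJ).2, key]; linarith
  exact (pos_iff_pos_of_mul_pos this).1 hsd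

/-- Primitive invariant forms have negative square. -/
lemma prim_neg (hJ : J * J = -1) {z : V6} (h : anti J z = 0) (hp : wed z (refForm J) = 0)
    (hz : z ≠ 0) : orient J * wed z z < 0 := by
  obtain ⟨v, w, hv, hw, rvw, rvJ, e⟩ := exists_frame hJ
  have t := typ_one_iff.1 h
  have tr : Typ J 1 (refForm J) := typ_one_iff.1 (anti_ref hJ)
  set d := wed (biv v (J *ᵥ v)) (biv w (J *ᵥ w))
  set A := dot z (biv v w)
  set B := dot z (biv v (J *ᵥ w))
  set x := dot z (biv v (J *ᵥ v))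
  set y := dot z (biv w (J *ᵥ w))
  have hd : d ≠ 0 := fun h0 => by rw [h0, zero_mul] at e; nlinarith [mul_pos hv hw]
  have hxy : x * gm J w + gm J v * y = 0 := by
    have := wed_pull v (J *ᵥ v) w (J *ᵥ w) z (refForm J)
    rw [hp, mul_zero, ref_line hJ, ref_line hJ, tr v w, tr.swap hJ v w, rvw, rvJ] at this
    simp at this
    linarith
  have key : d * wed z z = 2 * (x * y - A ^ 2 - B ^ 2) := by
    rw [← wed_pull, t v w, t.swap hJ v w]; ring
  have hneg : x * y - A ^ 2 - B ^ 2 < 0 := by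
    have hy : y = -(x * gm J w) / gm J v := by field_simp; linarith
    by_contra hcon
    have hxy2 : x * y ≤ 0 := by
      rw [hy, mul_div_assoc']
      exact div_nonpos_of_nonpos_of_nonneg (by nlinarith [mul_self_nonneg x]) hv.le
    have hA : A = 0 := by nlinarith [sq_nonneg A, sq_nonneg B]
    have hB : B = 0 := by nlinarith [sq_nonneg A, sq_nonneg B]
    have hx : x = 0 := by
      by_contra hx
      have : x * y < 0 := by
        rw [hy, mul_div_assoc']
        exact div_neg_of_neg_of_pos (by nlinarith [mul_self_pos.2 hx]) hv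
      nlinarith
    refine hz (eq_zero_of_frame hd ⟨hx, ?_, hA, ?_, hB, ?_⟩)
    · show y = 0
      rw [hy, hx]; simp
    · rw [t v w]; exact mul_eq_zero_of_right _ hA
    · rw [t.swap hJ v w, show dot z (biv v (J *ᵥ w)) = 0 from hB]; ring
  have hsd : 0 < orient J * d := by
    have := (orient_mul hJ).1
    nlinarith [mul_pos hv hw, abs_pos.2 (wed_ref_ne hJ), (orient_mul hJ).2]
  have : (orient J * d) * (orient J * wed z z) < 0 := by
    rw [show (orient J * d) * (orient J * wed z z) = orient J ^ 2 * (d * wed z z) by ring,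
      (orient_mul hJ).2, key]; linarith
  exact neg_of_mul_neg_right this hsd.le

lemma wed_pullJ (hJ : J * J = -1) (a b : V6) :
    wed (crd (Jᵀ * mat a * J)) (crd (Jᵀ * mat b * J)) = wed a b := by
  set δ := wed (biv (J.col 0) (J.col 1)) (biv (J.col 2) (J.col 3))
  have key : ∀ a b, wed (crd (Jᵀ * mat a * J)) (crd (Jᵀ * mat b * J)) = δ * wed a b := fun a b => by
    rw [← wed_pull, crd_transpose_mul, crd_transpose_mul]
    simp [wed, dot, star', Fin.sum_univ_six]; ring
  have hr : crd (Jᵀ * mat (refForm J) * J) = refForm J := by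
    have h := anti_ref hJ
    rw [anti_eq, smul_eq_zero] at h
    rcases h with h | h
    · norm_num at h
    · exact (sub_eq_zero.1 h).symm
  have := key (refForm J) (refForm J)
  rw [hr] at this
  have h1 : δ = 1 := mul_right_cancel₀ (wed_ref_ne hJ)
    (show δ * wed (refForm J) (refForm J) = 1 * wed (refForm J) (refForm J) by linarith)
  rw [key, h1, one_mul]

lemma anti_linear (J : M4) : (∀ a b : V6, anti J (a + b) = anti J a + anti J b) ∧
    ∀ (c : ℝ) (a : V6), anti J (c • a) = c • anti J a := by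
  constructor <;> intros <;> funext k <;> fin_cases k <;>
    simp [anti, crd, mat, Matrix.mul_apply, Fin.sum_univ_four] <;> ring

lemma wed_anti_comm (hJ : J * J = -1) (a b : V6) : wed (anti J a) b = wed a (anti J b) := by
  have hpp : crd (Jᵀ * mat (crd (Jᵀ * mat a * J)) * J) = a := ext_biv fun p q => by
    rw [dot_pull, dot_pull, J_mulVec hJ, J_mulVec hJ, (biv_neg _ _).2, (biv_neg _ _).1, neg_neg]
  have h := wed_pullJ hJ (crd (Jᵀ * mat a * J)) b
  rw [hpp] at h
  rw [anti_eq, anti_eq]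
  simp only [wed, dot, Fin.sum_univ_six, star'] at h ⊢
  simp at h ⊢
  linarith

lemma anti_sum (J : M4) (w : V6) : anti J w = fun k => ∑ l, antiC J k l * w l := by
  obtain ⟨ha, hs⟩ := anti_linear J
  have hw : w = ∑ l, w l • (Pi.single l 1 : V6) := by
    funext k; simp [Pi.single_apply]
  let L : V6 →ₗ[ℝ] V6 := ⟨⟨anti J, ha⟩, hs⟩
  funext k
  have : anti J w = L w := rfl
  rw [this]
  conv_lhs => rw [hw, map_sum]
  simp only [map_smul, Finset.sum_apply, Pi.smul_apply, smul_eq_mul]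
  exact Finset.sum_congr rfl fun l _ => mul_comm _ _

lemma dot_antiT (J : M4) (a b : V6) : dot a (antiT J b) = dot (anti J a) b := by
  rw [anti_sum]
  simp only [dot, antiT, Finset.mul_sum, Finset.sum_mul]
  rw [Finset.sum_comm]
  exact Finset.sum_congr rfl fun _ _ => Finset.sum_congr rfl fun _ _ => by ring

lemma star_antiT (hJ : J * J = -1) (b : V6) : star' (antiT J b) = anti J (star' b) := by
  have e : ∀ a c : V6, wed a (star' c) = dot a c := fun a c => by
    rw [wed_comm, wed, star_star]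
    simp [dot, mul_comm]
  have key : ∀ a, wed a (star' (antiT J b)) = wed a (anti J (star' b)) := fun a => by
    rw [← wed_anti_comm hJ, e, e, dot_antiT]
  funext k
  have := key (star' (Pi.single k 1))
  fin_cases k <;> simpa [wed, dot, star', Fin.sum_univ_six] using this

end Vale.Agent.P204.Inv
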