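import Vale.Agent.P204.Inv.Defs

/-! The average of a closed taming form over the last two circles of the four-torus is a closed
taming field of the two remaining coordinates (P204). -/

namespace Vale.Agent.P204.Inv

open Vale.Agent.P229 (P2)
open Vale.Agent.P205 (Periodic2)
open scoped ContDiff Matrix
open MeasureTheory Set

namespace Average

/-- Points of the covering space. -/
abbrev Pt : Type := Fin 4 → ℝ

/-- Coordinate vector. -/
noncomputable def bv (k : Fin 4) : Pt := Pi.single k 1

/-- The average along the circle in the coordinate `k`. -/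
noncomputable def avk {E : Type} [NormedAddCommGroup E] [NormedSpace ℝ E] (k : Fin 4) (f : Pt → E)
    (x : Pt) : E :=
  ∫ t in (0 : ℝ)..1, f (x + t • bv k)

theorem cont_line {E : Type} [NormedAddCommGroup E] [NormedSpace ℝ E] {f : Pt → E}
    (hf : Continuous f) (k : Fin 4) (x : Pt) : Continuous fun t : ℝ => f (x + t • bv k) :=
  hf.comp (continuous_const.add (continuous_id.smul continuous_const))

theorem avk_hasFDerivAt {E : Type} [NormedAddCommGroup E] [NormedSpace ℝ E] [CompleteSpace E]
    {f : Pt → E} (hd : Differentiable ℝ f) (hc : Continuous (fderiv ℝ f)) (k : Fin 4) (x : Pt) :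
    HasFDerivAt (avk k f) (avk k (fderiv ℝ f) x) x := by
  have hF : Continuous fun p : Pt × ℝ => fderiv ℝ f (p.1 + p.2 • bv k) :=
    hc.comp (continuous_fst.add (continuous_snd.smul continuous_const))
  obtain ⟨C, hC⟩ := ((isCompact_closedBall x 1).prod (isCompact_Icc (a := (0 : ℝ)) (b := 1))
    ).exists_bound_of_continuousOn hF.continuousOn
  refine intervalIntegral.hasFDerivAt_integral_of_dominated_of_fderiv_le
    (F := fun y t => f (y + t • bv k)) (F' := fun y t => fderiv ℝ f (y + t • bv k))
    (bound := fun _ => C) (Metric.closedBall_mem_nhds x one_pos) (.of_forall fun y => ?_) ?_ ?_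
    ?_ ?_ ?_
  · exact (cont_line hd.continuous k y).aestronglyMeasurable
  · exact (cont_line hd.continuous k x).intervalIntegrable _ _
  · exact (cont_line hc k x).aestronglyMeasurable
  · refine .of_forall fun t ht y hy => hC (y, t) ⟨hy, ?_⟩
    rw [uIoc_of_le zero_le_one] at ht
    exact ⟨ht.1.le, ht.2⟩
  · exact intervalIntegrable_const
  · exact .of_forall fun t _ y _ => by
      simpa [Function.comp_def] using
        (hd (y + t • bv k)).hasFDerivAt.comp y ((hasFDerivAt_id y).add_const (t • bv k))

theorem avk_contDiff_nat (k : Fin 4) : ∀ (n : ℕ) {E : Type} [NormedAddCommGroup E]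
    [NormedSpace ℝ E] [CompleteSpace E] {f : Pt → E}, ContDiff ℝ ∞ f →
    ContDiff ℝ n (avk k f) := by
  intro n
  induction n with
  | zero =>
    intro E _ _ _ f hf
    rw [Nat.cast_zero, contDiff_zero]
    refine intervalIntegral.continuous_parametric_intervalIntegral_of_continuous'
      (f := fun (x : Pt) (t : ℝ) => f (x + t • bv k)) ?_ 0 1
    exact hf.continuous.comp (by fun_prop : Continuous fun p : Pt × ℝ => p.1 + p.2 • bv k)
  | succ n ih =>
    intro E _ _ _ f hf
    have hd := hf.differentiable (by simp)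
    have hf' : ContDiff ℝ ∞ (fderiv ℝ f) := hf.fderiv_right (m := ∞) (by simp)
    have h := fun x => avk_hasFDerivAt hd hf'.continuous k x
    rw [Nat.cast_succ, contDiff_succ_iff_fderiv]
    refine ⟨fun x => (h x).differentiableAt, fun hn => absurd hn (by simp), ?_⟩
    rw [show fderiv ℝ (avk k f) = avk k (fderiv ℝ f) from funext fun x => (h x).fderiv]
    exact ih hf'

/-- The double average over the fibre. -/
noncomputable def fib (f : Pt → ℝ) : Pt → ℝ := avk 2 (avk 3 f)

theorem avk_smooth {f : Pt → ℝ} (hf : ContDiff ℝ ∞ f) (k : Fin 4) : ContDiff ℝ ∞ (avk k f) :=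
  contDiff_infty.2 fun n => avk_contDiff_nat k n hf

theorem fib_smooth {f : Pt → ℝ} (hf : ContDiff ℝ ∞ f) : ContDiff ℝ ∞ (fib f) :=
  avk_smooth (avk_smooth hf 3) 2

/-- Partial derivative. -/
noncomputable def pd (j : Fin 4) (f : Pt → ℝ) (x : Pt) : ℝ := fderiv ℝ f x (bv j)

theorem pd_smooth {f : Pt → ℝ} (hf : ContDiff ℝ ∞ f) (j : Fin 4) : ContDiff ℝ ∞ (pd j f) :=
  (hf.fderiv_right (m := ∞) (by simp)).clm_apply contDiff_const

theorem avk_pd {f : Pt → ℝ} (hf : ContDiff ℝ ∞ f) (k j : Fin 4) (x : Pt) :
    pd j (avk k f) x = avk k (pd j f) x := by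
  have hf' : ContDiff ℝ ∞ (fderiv ℝ f) := hf.fderiv_right (m := ∞) (by simp)
  unfold pd
  rw [(avk_hasFDerivAt (hf.differentiable (by simp)) hf'.continuous k x).fderiv, avk, avk,
    ContinuousLinearMap.intervalIntegral_apply
      ((cont_line hf'.continuous k x).intervalIntegrable _ _)]

theorem fib_pd {f : Pt → ℝ} (hf : ContDiff ℝ ∞ f) (j : Fin 4) (x : Pt) :
    pd j (fib f) x = fib (pd j f) x := by
  rw [fib, avk_pd (avk_smooth hf 3) 2 j, fib, funext fun y => avk_pd hf 3 j y]

theorem avk_pd_self {f : Pt → ℝ} (hf : ContDiff ℝ ∞ f) (k : Fin 4)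
    (hp : ∀ x, f (x + bv k) = f x) (x : Pt) : avk k (pd k f) x = 0 := by
  have hd : ∀ t ∈ Set.uIcc (0 : ℝ) 1,
      HasDerivAt (fun t : ℝ => f (x + t • bv k)) (pd k f (x + t • bv k)) t := by
    intro t _
    have h1 : HasDerivAt (fun t : ℝ => x + t • bv k) (bv k) t := by
      simpa using ((hasDerivAt_id t).smul_const (bv k)).const_add x
    exact ((hf.differentiable (by simp)) _).hasFDerivAt.comp_hasDerivAt t h1
  rw [avk, intervalIntegral.integral_eq_sub_of_hasDerivAt hd
    ((cont_line (pd_smooth hf k).continuous k x).intervalIntegrable _ _)]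
  simp [hp]

theorem avk_per {f : Pt → ℝ} (hp : ∀ x j, f (x + bv j) = f x) (k : Fin 4) (x : Pt) (j : Fin 4) :
    avk k f (x + bv j) = avk k f x := by
  simp only [avk, add_right_comm x (bv j), hp _ j]

theorem avk_congr {f g : Pt → ℝ} (h : ∀ y, f y = g y) (k : Fin 4) (x : Pt) :
    avk k f x = avk k g x := by
  simp only [avk, h]

theorem fib_per {f : Pt → ℝ} (hp : ∀ x j, f (x + bv j) = f x) (x : Pt) (j : Fin 4) :
    fib f (x + bv j) = fib f x :=
  avk_per (avk_per hp 3) 2 x j

theorem fib_add {f g : Pt → ℝ} (hf : ContDiff ℝ ∞ f) (hg : ContDiff ℝ ∞ g) (x : Pt) :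
    fib (fun y => f y + g y) x = fib f x + fib g x := by
  have h3 : avk 3 (fun y => f y + g y) = fun y => avk 3 f y + avk 3 g y := funext fun y =>
    intervalIntegral.integral_add ((cont_line hf.continuous 3 y).intervalIntegrable _ _)
      ((cont_line hg.continuous 3 y).intervalIntegrable _ _)
  rw [fib, h3]
  exact intervalIntegral.integral_add
    ((cont_line (avk_smooth hf 3).continuous 2 x).intervalIntegrable _ _)
    ((cont_line (avk_smooth hg 3).continuous 2 x).intervalIntegrable _ _)

theorem fib_const_mul (c : ℝ) (f : Pt → ℝ) (x : Pt) : fib (fun y => c * f y) x = c * fib f x := by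
  have h3 : avk 3 (fun y => c * f y) = fun y => c * avk 3 f y := funext fun y =>
    intervalIntegral.integral_const_mul c _
  rw [fib, h3]
  exact intervalIntegral.integral_const_mul c _

theorem fib_neg (f : Pt → ℝ) (x : Pt) : fib (fun y => -f y) x = -fib f x := by
  simpa using fib_const_mul (-1) f x

theorem fib_zero (x : Pt) : fib (fun _ => 0) x = 0 := by
  simp [fib, avk]

theorem fib_sum {ι : Type*} (T : Finset ι) {f : ι → Pt → ℝ} (hf : ∀ i, ContDiff ℝ ∞ (f i))
    (x : Pt) : fib (fun y => ∑ i ∈ T, f i y) x = ∑ i ∈ T, fib (f i) x := by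
  classical
  induction T using Finset.induction_on with
  | empty => simpa using fib_zero x
  | insert a T ha ih =>
    simp only [Finset.sum_insert ha]
    rw [fib_add (hf a) (ContDiff.sum fun i _ => hf i), ih]

theorem fib_pd_two {f : Pt → ℝ} (hf : ContDiff ℝ ∞ f) (hp : ∀ x, f (x + bv 2) = f x) (x : Pt) :
    fib (pd 2 f) x = 0 := by
  rw [fib, ← funext fun y => avk_pd hf 3 2 y]
  exact avk_pd_self (avk_smooth hf 3) 2
    (fun y => by simp only [avk, add_right_comm y (bv 2), hp]) x

theorem fib_pd_three {f : Pt → ℝ} (hf : ContDiff ℝ ∞ f) (hp : ∀ x, f (x + bv 3) = f x) (x : Pt) :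
    fib (pd 3 f) x = 0 := by
  rw [fib, funext fun y => avk_pd_self hf 3 hp y]
  simp [avk]

theorem fib_pos {f : Pt → ℝ} (hf : ContDiff ℝ ∞ f) (x : Pt)
    (h : ∀ t s : ℝ, 0 < f (x + t • bv 2 + s • bv 3)) : 0 < fib f x := by
  refine intervalIntegral.intervalIntegral_pos_of_pos
    ((cont_line (avk_smooth hf 3).continuous 2 x).intervalIntegrable _ _) (fun t => ?_) one_pos
  exact intervalIntegral.intervalIntegral_pos_of_pos
    ((cont_line hf.continuous 3 _).intervalIntegrable _ _) (fun s => h t s) one_pos

/-- The base, as the first two coordinates. -/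
noncomputable def iota : P2 →L[ℝ] Pt :=
  (ContinuousLinearMap.fst ℝ ℝ ℝ).smulRight (bv 0) +
    (ContinuousLinearMap.snd ℝ ℝ ℝ).smulRight (bv 1)

theorem iota_apply (u : P2) : iota u = u.1 • bv 0 + u.2 • bv 1 := rfl

theorem iota_e0 : iota (1, 0) = bv 0 := by simp [iota_apply]

theorem iota_e1 : iota (0, 1) = bv 1 := by simp [iota_apply]

theorem fderiv_fib_iota {f : Pt → ℝ} (hf : ContDiff ℝ ∞ f) (u v : P2) :
    fderiv ℝ (fun z => fib f (iota z)) u v = fderiv ℝ (fib f) (iota u) (iota v) := by
  have h : HasFDerivAt (fun z => fib f (iota z)) ((fderiv ℝ (fib f) (iota u)).comp iota) u :=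
    ((fib_smooth hf).differentiable (by simp) (iota u)).hasFDerivAt.comp u iota.hasFDerivAt
  rw [h.fderiv]
  rfl

end Average

open Average in
/-- The fibre average of a taming form is closed and taming. -/
theorem averageSpec : AverageSpec := by
  intro S W hW htame
  obtain ⟨hsm, hsk, hper, hcl⟩ := hW
  have hp : ∀ a b x j, W (x + bv j) a b = W x a b := fun a b x j => by rw [bv, hper]
  let M : P2 → M4 := fun u => Matrix.of fun a b => fib (fun x => W x a b) (iota u)
  have hskM : ∀ u a b, M u b a = -M u a b := by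
    intro u a b
    simp only [M, Matrix.of_apply]
    rw [show (fun x => W x b a) = fun x => -W x a b from funext fun x => hsk x a b, fib_neg]
  have hMs : ∀ a b, ContDiff ℝ ∞ fun u => M u a b := fun a b =>
    (fib_smooth (hsm a b)).comp iota.contDiff
  have hMp : ∀ a b u, M (u + (1, 0)) a b = M u a b ∧ M (u + (0, 1)) a b = M u a b := by
    intro a b u
    simp only [M, Matrix.of_apply, map_add, iota_e0, iota_e1]
    exact ⟨fib_per (hp a b) _ 0, fib_per (hp a b) _ 1⟩
  have hcyc : ∀ a b c x, pd a (fib fun y => W y b c) x + pd b (fib fun y => W y c a) x +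
      pd c (fib fun y => W y a b) x = 0 := by
    intro a b c x
    rw [fib_pd (hsm b c), fib_pd (hsm c a), fib_pd (hsm a b),
      ← fib_add (pd_smooth (hsm b c) a) (pd_smooth (hsm c a) b),
      ← fib_add ((pd_smooth (hsm b c) a).add (pd_smooth (hsm c a) b)) (pd_smooth (hsm a b) c),
      ← fib_zero x]
    exact congrArg (fun g => fib g x) (funext fun y => hcl y a b c)
  have hz : ∀ a b x, pd 2 (fib fun y => W y a b) x = 0 ∧ pd 3 (fib fun y => W y a b) x = 0 :=
    fun a b x => ⟨(fib_pd (hsm a b) 2 x).trans (fib_pd_two (hsm a b) (fun y => hp a b y 2) x),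
      (fib_pd (hsm a b) 3 x).trans (fib_pd_three (hsm a b) (fun y => hp a b y 3) x)⟩
  have hneg : ∀ j a b x, pd j (fib fun y => W y b a) x = -pd j (fib fun y => W y a b) x := by
    intro j a b x
    have e : (fib fun y => W y b a) = fun z => -fib (fun y => W y a b) z := by
      funext z
      rw [show (fun y => W y b a) = fun y => -W y a b from funext fun y => hsk y a b, fib_neg]
    simp only [pd, e, fderiv_fun_neg, neg_apply]
  refine ⟨fun u => crd (M u), ⟨⟨fun k => ?_, fun u => ?_⟩, ?_, fun u => ?_, fun u => ?_⟩,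
    fun u v hv => ?_⟩
  · fin_cases k <;> simpa [crd] using hMs _ _
  · constructor <;> funext k <;> fin_cases k <;> simp [crd, (hMp _ _ u).1, (hMp _ _ u).2]
  · intro u u'
    have hd : ∀ x j, pd j (fib fun y => W y 2 3) x = 0 := by
      intro x j
      have := hcyc j 2 3 x
      rw [(hz 3 j x).1, (hz j 2 x).2] at this
      linarith
    have h := is_const_of_fderiv_eq_zero (𝕜 := ℝ)
      ((fib_smooth (hsm 2 3)).differentiable (by simp))
      (fun x => by
        refine ContinuousLinearMap.ext fun v => ?_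
        have hv : v = ∑ i, v i • bv i := by
          simp only [bv]
          rw [← Finset.univ_sum_single v]
          simp [← Pi.single_smul]
        rw [hv]
        simp only [map_sum, map_smul, zero_apply]
        exact Finset.sum_congr rfl fun i _ => by
          rw [show (fderiv ℝ (fib fun y => W y 2 3) x) (bv i) = 0 from hd x i])
      (iota u) (iota u')
    simpa [crd, M] using h
  · have e : ∀ a b, fderiv ℝ (fun z => M z a b) u = fderiv ℝ (fun z =>
        fib (fun y => W y a b) (iota z)) u := fun a b => rfl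
    simp only [crd, Matrix.cons_val, e, fderiv_fib_iota (hsm _ _), iota_e0, iota_e1]
    have h := hcyc 1 0 2 (iota u)
    rw [(hz 1 0 (iota u)).1] at h
    have h' := hneg 0 1 2 (iota u)
    simp only [pd] at h h'
    linarith
  · have e : ∀ a b, fderiv ℝ (fun z => M z a b) u = fderiv ℝ (fun z =>
        fib (fun y => W y a b) (iota z)) u := fun a b => rfl
    simp only [crd, Matrix.cons_val, e, fderiv_fib_iota (hsm _ _), iota_e0, iota_e1]
    have h := hcyc 1 0 3 (iota u)
    rw [(hz 1 0 (iota u)).2] at h
    have h' := hneg 0 1 3 (iota u)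
    simp only [pd] at h h'
    linarith
  · set z := S.J u *ᵥ v with hzdef
    have e : dot (crd (M u)) (biv v z) = ∑ a, ∑ b, (v a * z b) * M u a b := by
      have d : ∀ a, M u a a = 0 := fun a => by linarith [hskM u a a]
      simp only [dot, crd, biv, Fin.sum_univ_six, Fin.sum_univ_four, Matrix.cons_val,
        hskM u 0 1, hskM u 0 2, hskM u 0 3, hskM u 1 2, hskM u 1 3, hskM u 2 3, d]
      ring
    have hcs : ∀ a b, ContDiff ℝ ∞ fun x => v a * z b * W x a b := fun a b =>
      contDiff_const.mul (hsm a b)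
    have e2 : ∑ a, ∑ b, (v a * z b) * M u a b =
        fib (fun x => ∑ a, ∑ b, v a * z b * W x a b) (iota u) := by
      rw [fib_sum _ fun a => ContDiff.sum fun b _ => hcs a b]
      refine Finset.sum_congr rfl fun a _ => ?_
      rw [fib_sum _ (hcs a)]
      exact Finset.sum_congr rfl fun b _ => (fib_const_mul _ _ _).symm
    change 0 < dot (crd (M u)) (biv v z)
    rw [e, e2]
    refine fib_pos (ContDiff.sum fun a _ => ContDiff.sum fun b _ => hcs a b) _ fun t s => ?_
    have h := htame (iota u + t • bv 2 + s • bv 3) v hv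
    have h0 : (iota u + t • bv 2 + s • bv 3) 0 = u.1 := by simp [iota_apply, bv]
    have h1 : (iota u + t • bv 2 + s • bv 3) 1 = u.2 := by simp [iota_apply, bv]
    rw [h0, h1, Prod.mk.eta, ← hzdef] at h
    refine h.trans_eq ?_
    simp only [dotProduct, Matrix.mulVec, Finset.mul_sum]
    exact Finset.sum_congr rfl fun a _ => Finset.sum_congr rfl fun b _ => by ring

end Vale.Agent.P204.Inv
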