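import Vale.Agent.P204.Inv.Func

/-! From the functional given by the failure of compatibility to the sequences of an exact
current (P204). -/

namespace Vale.Agent.P204.Inv

open Vale.Agent.P229 (P2)
open Vale.Agent.P205 (Periodic2)
open Vale.Agent.P205.Fourier
open Vale.Agent.P205.Beltrami
open scoped ComplexConjugate ContDiff Matrix
open Finset

/-- The exponential of a frequency. -/
noncomputable def ex (n : Z2) (u : P2) : ℂ := Complex.exp (freq e1 e2 n u)

/-- The real field of six families. -/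
noncomputable def re6 (c : Fin 6 → Cf) (u : P2) : V6 := fun k => (evS (c k) u).re

/-- One term. -/
def dl (k : Fin 6) (n : Z2) (a : ℂ) : Fin 6 → Cf := Pi.single k (Pi.single n a)

/-- The value of a functional on the exponential fields. -/
noncomputable def lc (L : (P2 → V6) → ℝ) (k : Fin 6) (n : Z2) : ℂ :=
  (L (re6 (dl k n 1)) : ℂ) - Complex.I * (L (re6 (dl k n Complex.I)) : ℂ)

/-- A linear functional bounded by weighted sums of coefficients. -/
structure LinB (L : (P2 → V6) → ℝ) (C : ℝ) (K : ℕ) : Prop where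
  nonneg : 0 ≤ C
  add : ∀ {v w}, Sm v → Sm w → L (v + w) = L v + L w
  smul : ∀ (r : ℝ) {v}, Sm v → L (r • v) = r * L v
  bd : ∀ c : Fin 6 → Cf, (∀ i, Rapid (c i)) → |L (re6 c)| ≤ C * ∑ i, (N K (c i)).toReal

lemma N_toReal {k : ℕ} (c : Cf) : (N k c).toReal = ∑' n, (w n : ℝ) ^ k * ‖c n‖ := by
  rw [N, ENNReal.tsum_toReal_eq fun n => ENNReal.mul_ne_top (by simp) enorm_ne_top]
  simp

lemma rapid_dl (k : Fin 6) (n : Z2) (a : ℂ) (i : Fin 6) : Rapid (dl k n a i) :=
  rapid_fin (s := {n}) fun m hm => by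
    rw [dl, Pi.single_apply]
    split_ifs
    · exact Pi.single_eq_of_ne (by simpa using hm) _
    · rfl

lemma evS_dl (k : Fin 6) (n : Z2) (a : ℂ) (i : Fin 6) (u : P2) :
    evS (dl k n a i) u = if i = k then a * ex n u else 0 := by
  rw [evS, ev_eq, dl, Pi.single_apply]
  split_ifs
  · rw [tsum_eq_single n fun m hm => by simp [hm]]
    simp [ex]
  · simp

lemma rapid_star {c : Fin 6 → Cf} (h : ∀ i, Rapid (c i)) (i : Fin 6) : Rapid (star' c i) := by
  have hn : ∀ j, Rapid (-c j) := fun j => by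
    rw [← neg_one_smul ℂ (c j)]; exact rapid_smul _ (h j)
  fin_cases i <;> simp [star'] <;> first | exact h _ | exact hn _

lemma evS_neg (c : Cf) (u : P2) : evS (-c) u = -evS c u := by
  rw [← neg_one_smul ℂ c, evS_smul, neg_one_mul]

lemma sm_re6 {c : Fin 6 → Cf} (h : ∀ i, Rapid (c i)) : Sm (re6 c) :=
  ⟨fun k => Complex.reCLM.contDiff.comp (contDiff_evS (h k)),
    fun u => ⟨funext fun k => congrArg Complex.re (evS_periodic (c k) u).1,
      funext fun k => congrArg Complex.re (evS_periodic (c k) u).2⟩⟩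

lemma re6_add {c d : Fin 6 → Cf} (hc : ∀ i, Rapid (c i)) (hd : ∀ i, Rapid (d i)) :
    re6 (c + d) = re6 c + re6 d := by
  funext u k; simp [re6, evS_add (hc k 0) (hd k 0)]

lemma re6_star (c : Fin 6 → Cf) (u : P2) : re6 (star' c) u = star' (re6 c u) := by
  funext k; fin_cases k <;> simp [re6, star', evS_neg]

lemma exists_re6 {v : P2 → V6} (hv : Sm v) : ∃ c : Fin 6 → Cf, (∀ i, Rapid (c i)) ∧
    (∀ i u, evS (c i) u = (v u i : ℂ)) ∧ re6 c = v := by
  choose c hc he using fun i => exists_coeff_complex (Complex.ofRealCLM.contDiff.comp (hv.1 i))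
    (fun u => ⟨congrArg Complex.ofReal (congrFun (hv.2 u).1 i),
      congrArg Complex.ofReal (congrFun (hv.2 u).2 i)⟩)
  exact ⟨c, hc, fun i u => congrFun (he i) u, funext fun u => funext fun i => by simp [re6, he]⟩

lemma sm_zero : Sm (0 : P2 → V6) := ⟨fun _ => contDiff_const, fun _ => ⟨rfl, rfl⟩⟩

lemma Sm.add {v w : P2 → V6} (hv : Sm v) (hw : Sm w) : Sm (v + w) :=
  ⟨fun k => (hv.1 k).add (hw.1 k), fun u =>
    ⟨by simp only [Pi.add_apply, (hv.2 u).1, (hw.2 u).1],
      by simp only [Pi.add_apply, (hv.2 u).2, (hw.2 u).2]⟩⟩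

lemma Sm.smul (r : ℝ) {v : P2 → V6} (hv : Sm v) : Sm (r • v) :=
  ⟨fun k => (hv.1 k).const_smul r, fun u =>
    ⟨by simp only [Pi.smul_apply, (hv.2 u).1], by simp only [Pi.smul_apply, (hv.2 u).2]⟩⟩

namespace LinB

variable {L : (P2 → V6) → ℝ} {C : ℝ} {K : ℕ} (hL : LinB L C K)
include hL

lemma sum {ι : Type*} (s : Finset ι) {v : ι → P2 → V6} (h : ∀ i ∈ s, Sm (v i)) :
    Sm (∑ i ∈ s, v i) ∧ L (∑ i ∈ s, v i) = ∑ i ∈ s, L (v i) := by
  classical
  induction s using Finset.induction_on with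
  | empty => exact ⟨by simpa using sm_zero, by simpa using hL.smul 0 sm_zero⟩
  | insert i s hi ih =>
    obtain ⟨h1, h2⟩ := ih fun j hj => h j (mem_insert_of_mem hj)
    have h0 := h i (mem_insert_self i s)
    rw [sum_insert hi, sum_insert hi, hL.add h0 h1, h2]
    exact ⟨h0.add h1, rfl⟩

lemma dl_re (k : Fin 6) (n : Z2) (a : ℂ) : L (re6 (dl k n a)) = (a * lc L k n).re := by
  have e : re6 (dl k n a) = a.re • re6 (dl k n 1) + a.im • re6 (dl k n Complex.I) := by
    funext u i
    simp only [re6, evS_dl, Pi.add_apply, Pi.smul_apply, smul_eq_mul]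
    split_ifs <;> simp [Complex.mul_re]; ring
  have hs : ∀ x, Sm (re6 (dl k n x)) := fun x => sm_re6 (rapid_dl k n x)
  rw [e, hL.add ((hs 1).smul _) ((hs Complex.I).smul _), hL.smul _ (hs 1),
    hL.smul _ (hs Complex.I)]
  simp [lc, Complex.mul_re]

lemma dl_bd (k : Fin 6) (n : Z2) (a : ℂ) : |L (re6 (dl k n a))| ≤ C * ((w n : ℝ) ^ K * ‖a‖) := by
  refine (hL.bd _ (rapid_dl k n a)).trans (mul_le_mul_of_nonneg_left (le_of_eq ?_) hL.nonneg)
  rw [sum_eq_single k (fun i _ hi => by simp [dl, hi, N]) (by simp), N_toReal,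
    tsum_eq_single n fun m hm => by simp [dl, hm]]
  simp [dl]

lemma lc_norm (k : Fin 6) (n : Z2) : ‖lc L k n‖ ≤ 2 * C * (w n : ℝ) ^ K := by
  refine (norm_sub_le _ _).trans ?_
  simp only [norm_mul, Complex.norm_I, one_mul, Complex.norm_real, Real.norm_eq_abs]
  have h1 := hL.dl_bd k n 1
  have h2 := hL.dl_bd k n Complex.I
  simp at h1 h2
  linarith

lemma lc_conj (k : Fin 6) (n : Z2) : lc L k (-n) = conj (lc L k n) := by
  have e : ∀ a, re6 (dl k (-n) a) = re6 (dl k n (conj a)) := fun a => by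
    funext u i
    simp only [re6, evS_dl]
    split_ifs
    · rw [show ex (-n) u = conj (ex n u) by
        simp only [ex, freq_apply, m1_std, m2_std, ← Complex.exp_conj]
        congr 1
        simp [Complex.conj_ofReal, map_ofNat], ← Complex.conj_re, map_mul, Complex.conj_conj]
    · rfl
  have h : L (re6 (dl k n (-Complex.I))) = -L (re6 (dl k n Complex.I)) := by
    rw [hL.dl_re, hL.dl_re, neg_mul, Complex.neg_re]
  simp [lc, e, h, Complex.conj_ofReal]

lemma summable_lc {c : Cf} (hc : Rapid c) (k : Fin 6) : Summable fun m => c m * lc L k m := by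
  refine Summable.of_norm_bounded ((summable_of_N (hc K)).mul_left (2 * C)) fun m => ?_
  rw [norm_mul]
  exact (mul_le_mul_of_nonneg_left (hL.lc_norm k m) (norm_nonneg _)).trans_eq (by ring)

/-- The functional in terms of its coefficients. -/
lemma formula {c : Fin 6 → Cf} (hc : ∀ i, Rapid (c i)) :
    L (re6 c) = (∑ k, ∑' m, c k m * lc L k m).re := by
  classical
  have h1 : Filter.Tendsto (fun s => (∑ k, ∑ m ∈ s, c k m * lc L k m).re) Filter.atTop
      (nhds (∑ k, ∑' m, c k m * lc L k m).re) :=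
    (Complex.continuous_re.tendsto _).comp
      (tendsto_finsetSum _ fun k _ => (hL.summable_lc (hc k) k).hasSum)
  refine tendsto_nhds_unique ?_ h1
  have h2 : Filter.Tendsto (fun s => C * ∑ i, ((N K (c i)).toReal -
      ∑ m ∈ s, (w m : ℝ) ^ K * ‖c i m‖)) Filter.atTop (nhds 0) := by
    have := (tendsto_finsetSum (univ : Finset (Fin 6)) fun i _ =>
      (summable_of_N (hc i K)).hasSum.const_sub (N K (c i)).toReal).const_mul C
    simpa [N_toReal] using this
  rw [tendsto_iff_norm_sub_tendsto_zero]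
  refine squeeze_zero (fun _ => norm_nonneg _) (fun s => ?_) h2
  let p : Fin 6 → Cf := fun i m => if m ∈ s then c i m else 0
  let q : Fin 6 → Cf := fun i m => if m ∈ s then 0 else c i m
  have hp : ∀ i, Rapid (p i) := fun i => rapid_fin (s := s) fun m hm => by simp [p, hm]
  have hq : ∀ i, Rapid (q i) := fun i k => ne_top_of_le_ne_top (hc i k)
    (ENNReal.tsum_le_tsum fun m => mul_le_mul' le_rfl (by simp only [q]; split_ifs <;> simp))
  have e : c = p + q := by funext i m; simp [p, q]; split_ifs <;> simp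
  have ep : re6 p = ∑ k, ∑ m ∈ s, re6 (dl k m (c k m)) := by
    funext u i
    simp only [re6, Finset.sum_apply, evS_dl, apply_ite Complex.re, Complex.zero_re]
    rw [evS, ev_eq, tsum_eq_sum (s := s) fun m hm => by simp [p, hm], Complex.re_sum, sum_comm]
    refine sum_congr rfl fun m hm => ?_
    simp [p, hm, ex]
  have Lp : L (re6 p) = (∑ k, ∑ m ∈ s, c k m * lc L k m).re := by
    have hin := fun k => hL.sum s (v := fun m => re6 (dl k m (c k m)))
      fun m _ => sm_re6 (rapid_dl _ _ _)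
    rw [ep, (hL.sum univ fun k _ => (hin k).1).2, Complex.re_sum]
    refine sum_congr rfl fun k _ => ?_
    rw [(hin k).2, Complex.re_sum]
    exact sum_congr rfl fun m _ => hL.dl_re _ _ _
  rw [Real.norm_eq_abs, ← Lp, show L (re6 c) = L (re6 p) + L (re6 q) by
    rw [e, re6_add hp hq, hL.add (sm_re6 hp) (sm_re6 hq)]]
  rw [show L (re6 p) - (L (re6 p) + L (re6 q)) = -L (re6 q) by ring, abs_neg]
  refine (hL.bd q hq).trans (mul_le_mul_of_nonneg_left (sum_le_sum fun i _ => le_of_eq ?_) hL.nonneg)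
  rw [N_toReal, N_toReal, ← (summable_of_N (hc i K)).sum_add_tsum_compl (s := s), add_sub_cancel_left,
    tsum_subtype ((s : Set Z2)ᶜ) (fun m => (w m : ℝ) ^ K * ‖c i m‖)]
  refine tsum_congr fun m => ?_
  by_cases hm : m ∈ s <;> simp [q, hm]

end LinB

lemma abs_sin_nat (x : ℝ) : ∀ k : ℕ, |Real.sin (k * x)| ≤ k * |Real.sin x|
  | 0 => by simp
  | k + 1 => by
    rw [Nat.cast_succ, add_one_mul, Real.sin_add]
    refine (abs_add_le _ _).trans ?_
    rw [abs_mul, abs_mul, add_one_mul]
    refine add_le_add ((mul_le_of_le_one_right (abs_nonneg _) (Real.abs_cos_le_one _)).trans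
      (abs_sin_nat x k)) (mul_le_of_le_one_left (abs_nonneg _) (Real.abs_cos_le_one _))

lemma abs_sin_int (x : ℝ) (k : ℤ) : |Real.sin (k * x)| ≤ |(k : ℝ)| * |Real.sin x| := by
  rcases Int.eq_nat_or_neg k with ⟨a, rfl | rfl⟩
  · simpa using abs_sin_nat x a
  · simpa using abs_sin_nat x a

lemma ex_sub_one (n : Z2) (r : P2) :
    ‖ex n r - 1‖ ≤ 2 * (w n : ℝ) * (|Real.sin (Real.pi * r.1)| + |Real.sin (Real.pi * r.2)|) := by
  rw [show ex n r = Complex.exp (Complex.I * ((2 * ((n.1 : ℝ) * (Real.pi * r.1) +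
      (n.2 : ℝ) * (Real.pi * r.2)) : ℝ) : ℂ)) by
    simp only [ex, freq_apply, m1_std, m2_std]
    congr 1
    push_cast
    ring, Complex.norm_exp_I_mul_ofReal_sub_one, Real.norm_eq_abs, abs_mul, abs_two, mul_assoc]
  rw [mul_div_cancel_left₀ _ (two_ne_zero' ℝ), Real.sin_add]
  refine mul_le_mul_of_nonneg_left ((abs_add_le _ _).trans ?_) zero_le_two
  rw [abs_mul, abs_mul, mul_add]
  refine add_le_add
    ((mul_le_of_le_one_right (abs_nonneg _) (Real.abs_cos_le_one _)).trans ?_)
    ((mul_le_of_le_one_left (abs_nonneg _) (Real.abs_cos_le_one _)).trans ?_)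
  · exact (abs_sin_int _ _).trans (mul_le_mul_of_nonneg_right
      (by rw [w_cast]; linarith [abs_nonneg (n.2 : ℝ)]) (abs_nonneg _))
  · exact (abs_sin_int _ _).trans (mul_le_mul_of_nonneg_right
      (by rw [w_cast]; linarith [abs_nonneg (n.1 : ℝ)]) (abs_nonneg _))

lemma sq_sub_evS {c : Cf} (hc : Rapid c) (y z : P2) :
    ((evS c z).re - (evS c y).re) ^ 2 ≤ 8 * (N 1 c).toReal ^ 2 * dist2 (y - z) := by
  set a := |Real.sin (Real.pi * (y - z).1)|
  set b := |Real.sin (Real.pi * (y - z).2)|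
  have hS : ‖evS c z - evS c y‖ ≤ 2 * (a + b) * (N 1 c).toReal := by
    rw [evS, ev_eq, ev_eq, ← (summable_term (hc 0) z).tsum_sub (summable_term (hc 0) y), N_toReal,
      ← (summable_of_N (hc 1)).tsum_mul_left]
    refine tsum_of_norm_bounded ((summable_of_N (hc 1)).mul_left _).hasSum fun n => ?_
    have e : Complex.exp (freq e1 e2 n y) = Complex.exp (freq e1 e2 n z) * ex n (y - z) := by
      rw [ex, ← Complex.exp_add, map_sub, add_sub_cancel]
    rw [e, show c n * Complex.exp (freq e1 e2 n z) -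
        c n * (Complex.exp (freq e1 e2 n z) * ex n (y - z)) =
        -(c n * Complex.exp (freq e1 e2 n z)) * (ex n (y - z) - 1) by ring,
      norm_mul, norm_neg, norm_term]
    exact (mul_le_mul_of_nonneg_left (ex_sub_one n (y - z)) (norm_nonneg _)).trans_eq (by ring)
  have hre : |(evS c z).re - (evS c y).re| ≤ 2 * (a + b) * (N 1 c).toReal := by
    rw [← Complex.sub_re]; exact (Complex.abs_re_le_norm _).trans hS
  have hd : dist2 (y - z) = a ^ 2 + b ^ 2 := by simp only [dist2, a, b, sq_abs]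
  rw [hd, ← sq_abs]
  refine (pow_le_pow_left₀ (abs_nonneg _) hre 2).trans ?_
  nlinarith [sq_nonneg (a - b), sq_nonneg (N 1 c).toReal]

namespace Str

variable (S : Str)

lemma sm_ref : Sm fun u => refForm (S.J u) := by
  refine ⟨fun k => ?_, fun u => ⟨by simp only [(S.per u).1], by simp only [(S.per u).2]⟩⟩
  have h := S.smooth
  fin_cases k <;>
    (simp [refForm, crd, Matrix.mul_apply, Fin.sum_univ_four]; fun_prop)

lemma exists_lip : ∃ L : ℝ, 0 ≤ L ∧ ∀ y z, sqn (S.J z - S.J y) ≤ L * dist2 (y - z) := by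
  choose c hc he using fun a b => exists_coeff_complex
    (Complex.ofRealCLM.contDiff.comp (S.smooth a b))
    (fun u => ⟨congrArg Complex.ofReal (congrFun (congrFun (S.per u).1 a) b),
      congrArg Complex.ofReal (congrFun (congrFun (S.per u).2 a) b)⟩)
  refine ⟨∑ a, ∑ b, 8 * (N 1 (c a b)).toReal ^ 2, by positivity, fun y z => ?_⟩
  simp only [sqn, sum_mul]
  refine sum_le_sum fun a _ => sum_le_sum fun b _ => ?_
  have := sq_sub_evS (hc a b) y z
  simp only [he] at this
  simpa using this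

lemma exists_vol : ∃ P : ℝ, 0 ≤ P ∧ ∀ u, |wed (refForm (S.J u)) (refForm (S.J u))| ≤ P := by
  have hc : Continuous fun v => |wed (refForm (S.J v)) (refForm (S.J v))| := by
    have h : ∀ k, Continuous fun v => refForm (S.J v) k := fun k => (S.sm_ref.1 k).continuous
    simp only [wed, dot, star', Fin.sum_univ_six]
    simp
    fun_prop
  obtain ⟨u0, h⟩ := Vale.Agent.P205.exists_max_periodic2 det2_std _ hc
    (fun u => by simp only [(S.per u).1]) (fun u => by simp only [(S.per u).2])
  exact ⟨_, abs_nonneg _, h⟩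

/-- The coefficients of the anti-invariant part. -/
noncomputable def antiOp (c : Fin 6 → Cf) (l : Fin 6) : Cf := ∑ j, conv (S.projC j l) (c j)

lemma rapid_antiOp {c : Fin 6 → Cf} (hc : ∀ i, Rapid (c i)) (l : Fin 6) : Rapid (S.antiOp c l) :=
  rapid_sum _ fun j _ => rapid_conv (S.projC_spec j l).1 (hc j)

lemma re6_antiOp {c : Fin 6 → Cf} (hc : ∀ i, Rapid (c i)) :
    re6 (S.antiOp c) = fun u => anti (S.J u) (re6 c u) := by
  funext u l
  rw [anti_sum]
  simp only [re6, antiOp, evS_sum _ (fun j _ => rapid_conv (S.projC_spec j l).1 (hc j)),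
    evS_conv ((S.projC_spec _ l).1 0) (hc _ 0), (S.projC_spec _ l).2, Complex.re_sum,
    Complex.re_ofReal_mul]
  rfl

lemma re6_defect {z : Fin 6 → Cf} (hz : ∀ k, Rapid (z k)) :
    re6 (star' z) = (fun u => anti (S.J u) (re6 (star' z) u)) + re6 (star' (defect S z)) := by
  funext u
  have hd : re6 (defect S z) u = re6 z u - antiT (S.J u) (re6 z u) := by
    funext k
    have hc' : Rapid (∑ l, conv (S.projC k l) (z l)) :=
      rapid_sum _ fun l _ => rapid_conv (S.projC_spec k l).1 (hz l)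
    simp only [re6, defect]
    rw [sub_eq_add_neg, evS_add (hz k 0) (by rw [← neg_one_smul ℂ (∑ l, _)]; exact rapid_smul _ hc' 0),
      evS_neg, evS_sum _ (fun l _ => rapid_conv (S.projC_spec k l).1 (hz l))]
    simp [evS_conv ((S.projC_spec k _).1 0) (hz _ 0), (S.projC_spec k _).2, S.antiT_eq, re6,
      Complex.re_sum, sub_eq_add_neg]
  simp only [Pi.add_apply, re6_star, hd, ← star_antiT (S.sq u)]
  funext k
  fin_cases k <;> simp [star'] <;> ring

end Str

lemma eq_zero_of_re {z : ℂ} (h : ∀ a : ℂ, (a * z).re = 0) : z = 0 := by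
  have := h (conj z)
  rw [← Complex.normSq_eq_conj_mul_self, Complex.ofReal_re] at this
  exact Complex.normSq_eq_zero.1 this

lemma ex_zero (u : P2) : ex 0 u = 1 := by simp [ex, freq_apply, m1_std, m2_std]

lemma closed_re6 {c : Fin 6 → Cf} (hc : ∀ i, Rapid (c i)) (h1 : ∀ n, n ≠ 0 → c 1 n = 0)
    (h25 : ∀ n, (n.2 : ℂ) * c 2 n = (n.1 : ℂ) * c 5 n)
    (h43 : ∀ n, (n.2 : ℂ) * c 4 n = (n.1 : ℂ) * c 3 n) : Closed (re6 c) := by
  have hf : ∀ k (d : P2) u, fderiv ℝ (fun v => re6 c v k) u d = (fderiv ℝ (evS (c k)) u d).re := by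
    intro k d u
    rw [show fderiv ℝ (fun v => re6 c v k) u = Complex.reCLM.comp (fderiv ℝ (evS (c k)) u) from
      (Complex.reCLM.hasFDerivAt.comp u
        ((contDiff_evS (hc k)).differentiable (by norm_num) u).hasFDerivAt).fderiv]
    rfl
  have hD : ∀ j k, (∀ n, (n.2 : ℂ) * c j n = (n.1 : ℂ) * c k n) →
      D2 e1 e2 (c j) = D1 e1 e2 (c k) := fun j k h => funext fun n => by
    simp only [D1, D2, m1_std, m2_std]
    linear_combination (2 * Real.pi * Complex.I) * h n
  refine ⟨sm_re6 hc, fun u u' => ?_, fun u => ?_, fun u => ?_⟩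
  · have e : ∀ v, evS (c 1) v = c 1 0 := fun v => by
      rw [evS, ev_eq, tsum_eq_single 0 fun n hn => by simp [h1 n hn]]
      show c 1 0 * ex 0 v = c 1 0
      rw [ex_zero, mul_one]
    simp [re6, e]
  · rw [hf, hf, (fderiv_evS (hc 2 1) u).2, (fderiv_evS (hc 5 1) u).1, hD 2 5 h25]
  · rw [hf, hf, (fderiv_evS (hc 4 1) u).2, (fderiv_evS (hc 3 1) u).1, hD 4 3 h43]

variable {S : Str} (X : Fun S)

lemma linT : LinB X.T X.C 0 := by
  refine ⟨X.C_nonneg, X.T_add, X.T_smul, fun c hc => X.T_bound (sm_re6 hc) _ fun u i => ?_⟩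
  exact ((Complex.abs_re_le_norm _).trans (norm_evS_le (hc i 0) u)).trans
    (single_le_sum (f := fun i => (N 0 (c i)).toReal) (fun _ _ => ENNReal.toReal_nonneg) (mem_univ i))

lemma linΦ : LinB X.Φ X.C X.k := by
  refine ⟨X.C_nonneg, X.Φ_add, X.Φ_smul, fun c hc => ?_⟩
  have hN : ∀ k i, N k (cc (c i)) = N k (c i) := fun k i => by
    rw [N, N, ← (Equiv.neg Z2).tsum_eq]
    exact tsum_congr fun n => by simp [cc, w_neg]
  let d : Fin 6 → Cf := fun i => (1 / 2 : ℂ) • (c i + cc (c i))
  have hcc : ∀ i, Rapid (cc (c i)) := fun i k => by rw [hN]; exact hc i k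
  have hd : ∀ i, Rapid (d i) := fun i => rapid_smul _ (rapid_add (hc i) (hcc i))
  refine (X.Φ_bound (sm_re6 hc) d hd fun i u => ?_).trans
    (mul_le_mul_of_nonneg_left (sum_le_sum fun i _ => ?_) X.C_nonneg)
  · simp only [d, evS_smul, evS_add (hc i 0) (hcc i 0), evS_cc, re6, Complex.re_eq_add_conj]
    ring
  · refine ENNReal.toReal_mono (hc i X.k) ?_
    simp only [d, N_smul]
    refine (mul_le_mul' le_rfl (N_add_le _ _ _)).trans_eq ?_
    rw [hN, ← two_mul, ← mul_assoc, ← ofReal_norm, ← ENNReal.ofReal_ofNat,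
      ← ENNReal.ofReal_mul (norm_nonneg _)]
    norm_num

/-- The sum of the two functionals kills closed fields. -/
lemma kills {c : Fin 6 → Cf} (h : Closed (re6 c)) : X.T (re6 c) + X.Φ (re6 c) = 0 := X.closed_zero h

lemma kills_two (j k : Fin 6) (n : Z2) (a b : ℂ)
    (h : Closed (re6 (dl j n a + dl k n b))) :
    (a * (lc X.T j n + lc X.Φ j n) + b * (lc X.T k n + lc X.Φ k n)).re = 0 := by
  have := kills X h
  rw [re6_add (rapid_dl j n a) (rapid_dl k n b), X.T_add (sm_re6 (rapid_dl j n a))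
    (sm_re6 (rapid_dl k n b)), X.Φ_add (sm_re6 (rapid_dl j n a)) (sm_re6 (rapid_dl k n b)),
    (linT X).dl_re, (linT X).dl_re, (linΦ X).dl_re, (linΦ X).dl_re] at this
  simp only [mul_add, Complex.add_re] at this ⊢
  linarith

lemma kills_one (k : Fin 6) (n : Z2) (h : ∀ a, Closed (re6 (dl k n a))) :
    lc X.T k n + lc X.Φ k n = 0 := eq_zero_of_re fun a => by
  have := kills X (h a)
  rw [(linT X).dl_re, (linΦ X).dl_re] at this
  rw [mul_add, Complex.add_re]; exact this

lemma exact_eq (n : Z2) :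
    let E : C6 := fun k => lc X.T k n + lc X.Φ k n
    Bp E E = 0 := by
  intro E
  have h0 : E 0 = 0 := kills_one X 0 n fun a => closed_re6 (rapid_dl 0 n a)
    (fun m _ => by simp [dl]) (fun m => by simp [dl]) fun m => by simp [dl]
  have hk : n = 0 → ∀ k, E k = 0 := fun hn k => kills_one X k n fun a => by
    subst hn
    refine closed_re6 (rapid_dl k 0 a) (fun m hm => ?_) (fun m => ?_) (fun m => ?_) <;>
      · simp only [dl, Pi.single_apply, ite_apply, Pi.zero_apply]
        split_ifs <;> simp_all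
  have h25 : (n.1 : ℂ) * E 2 + (n.2 : ℂ) * E 5 = 0 := eq_zero_of_re fun a => by
    have := kills_two X 2 5 n (a * n.1) (a * n.2) (closed_re6
      (fun i => rapid_add (rapid_dl _ _ _ i) (rapid_dl _ _ _ i))
      (fun m _ => by simp [dl]) (fun m => by
        rcases eq_or_ne m n with rfl | hm
        · simp [dl]; ring
        · simp [dl, hm]) fun m => by simp [dl])
    rw [mul_add, ← mul_assoc, ← mul_assoc]
    exact this
  have h43 : (n.1 : ℂ) * E 4 + (n.2 : ℂ) * E 3 = 0 := eq_zero_of_re fun a => by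
    have := kills_two X 4 3 n (a * n.1) (a * n.2) (closed_re6
      (fun i => rapid_add (rapid_dl _ _ _ i) (rapid_dl _ _ _ i))
      (fun m _ => by simp [dl]) (fun m => by simp [dl]) fun m => by
        rcases eq_or_ne m n with rfl | hm
        · simp [dl]; ring
        · simp [dl, hm])
    rw [mul_add, ← mul_assoc, ← mul_assoc]
    exact this
  have a2 := congrArg Complex.re h25
  have b2 := congrArg Complex.im h25
  have a4 := congrArg Complex.re h43
  have b4 := congrArg Complex.im h43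
  simp at a2 b2 a4 b4
  by_cases hn2 : n.2 = 0
  · by_cases hn1 : n.1 = 0
    · have := hk (Prod.ext hn1 hn2)
      simp [Bp, star', this]
    · have h2 : E 2 = 0 := by simpa [hn2, hn1] using h25
      have h4 : E 4 = 0 := by simpa [hn2, hn1] using h43
      simp [Bp, star', Fin.sum_univ_six, h0, h2, h4]
  · simp [Bp, star', Fin.sum_univ_six, h0, Complex.mul_re]
    refine mul_left_cancel₀ (show (n.2 : ℝ) ≠ 0 from Int.cast_ne_zero.2 hn2) ?_
    rw [mul_zero]
    linear_combination (-2 * (E 2).re) * a4 + (-2 * (E 2).im) * b4 + (2 * (E 4).re) * a2 +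
      (2 * (E 4).im) * b2

lemma bp_formula {z : Fin 6 → Cf} (s : Finset Z2) (hz : ∀ k n, n ∉ s → z k n = 0) :
    ∑ n ∈ s, Bp (fun k => lc X.T k (-n)) (fun k => z k n) = X.T (re6 (star' z)) := by
  rw [(linT X).formula (rapid_star fun k => rapid_fin (hz k)), Complex.re_sum]
  have hz' : ∀ k n, n ∉ s → star' z k n = 0 := fun k n hn => by
    fin_cases k <;> simp [star', hz _ n hn]
  have he : ∀ k, (∑' m, star' z k m * lc X.T k m).re = ∑ m ∈ s, (star' z k m * lc X.T k m).re :=
    fun k => by rw [tsum_eq_sum (s := s) fun n hn => by simp [hz' k n hn], Complex.re_sum]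
  simp only [he]
  rw [sum_comm]
  refine sum_congr rfl fun n _ => ?_
  rw [Bp_symm, Bp]
  refine sum_congr rfl fun k _ => ?_
  rw [(linT X).lc_conj, Complex.conj_conj]
  fin_cases k <;> simp [star']

lemma cross_bound (s : Finset Z2) {z : Fin 6 → Cf} (hz : ∀ k n, n ∉ s → z k n = 0) :
    |∑ n ∈ s, Bp (fun k => lc X.T k (-n)) (fun k => z k n)| ≤
      X.C * ∑ k, ∑' n, ‖defect S z k n‖ := by
  have hr : ∀ k, Rapid (z k) := fun k => rapid_fin (hz k)
  have hs := sm_re6 (rapid_star hr)
  rw [bp_formula X s hz, S.re6_defect hr,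
    X.T_add (hs.antiPart S) (sm_re6 (rapid_star (rapid_defect S hr))), X.T_anti hs, zero_add]
  refine ((linT X).bd _ (rapid_star (rapid_defect S hr))).trans_eq ?_
  simp only [N_toReal, pow_zero, one_mul]
  simp [star', Fin.sum_univ_six]
  left
  ring

lemma self_bound {L P : ℝ} (hL : 0 ≤ L) (hLip : ∀ y z, sqn (S.J z - S.J y) ≤ L * dist2 (y - z))
    (hP0 : 0 ≤ P) (hP : ∀ u, |wed (refForm (S.J u)) (refForm (S.J u))| ≤ P)
    (s : Finset Z2) (Λ : Z2 → ℝ) (b : ℝ)
    (hk : ∀ r, ∃ x : ℝ, 0 ≤ x ∧ (∑ n ∈ s, (Λ n : ℂ) * Complex.exp (freq e1 e2 n r)) = (x : ℂ) ∧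
      x * dist2 r ≤ b) :
    -(P / 8 * L * b) ≤
      S.σ * ∑ n ∈ s, Λ n * Bp (fun k => lc X.T k (-n)) fun k => lc X.T k (-n) := by
  classical
  have hb : 0 ≤ b := by
    obtain ⟨x, hx, -, h⟩ := hk 0
    simpa [dist2] using h
  let g : Fin 6 → Cf := fun k n => if n ∈ s then (Λ n : ℂ) * lc X.T k (-n) else 0
  have hg : ∀ k n, n ∉ s → g k n = 0 := fun k n hn => by simp [g, hn]
  have hgs : Sm (re6 (star' g)) := sm_re6 (rapid_star fun k => rapid_fin (hg k))
  have e : ∑ n ∈ s, Λ n * Bp (fun k => lc X.T k (-n)) (fun k => lc X.T k (-n)) =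
      X.T (re6 (star' g)) := by
    rw [← bp_formula X s hg]
    refine sum_congr rfl fun n hn => ?_
    simp only [g, if_pos hn, Bp, mul_sum]
    refine sum_congr rfl fun k _ => ?_
    simp [Complex.mul_re]; ring
  rw [e]
  set c := P / 8 * L * b
  have hpos : 0 ≤ X.T (S.σ • re6 (star' g) + c • fun u => refForm (S.J u)) := by
    refine X.T_nonneg ((hgs.smul _).add (S.sm_ref.smul _)) fun y v => ?_
    set β := biv v (S.J y *ᵥ v)
    have hv : dot ((S.σ • re6 (star' g) + c • fun u => refForm (S.J u)) y) β =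
        S.σ * dot (re6 (star' g) y) β + c * gm (S.J y) v := by
      rw [← ref_line (S.sq y)]
      simp [β, dot, Fin.sum_univ_six]; ring
    rw [hv]
    -- the value at one line is the value of the functional on the smeared line
    let a : Fin 6 → Z2 → ℂ := fun k n => (Λ n : ℂ) * ex n y * ((star' β k : ℝ) : ℂ)
    let G : P2 → V6 := ∑ k, ∑ n ∈ s, re6 (dl k (-n) (a k n))
    have hin := fun k => (linT X).sum s (v := fun n => re6 (dl k (-n) (a k n)))
      fun n _ => sm_re6 (rapid_dl _ _ _)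
    have hG := (linT X).sum univ fun k _ => (hin k).1
    have hTG : X.T G = dot (re6 (star' g) y) β := by
      rw [hG.2, re6_star]
      simp only [(hin _).2, (linT X).dl_re]
      have hev : ∀ k, re6 g y k = ∑ n ∈ s, ((Λ n : ℂ) * ex n y * lc X.T k (-n)).re := fun k => by
        rw [re6, evS, ev_eq, tsum_eq_sum (s := s) fun n hn => by simp [g, hn], Complex.re_sum]
        refine sum_congr rfl fun n hn => ?_
        simp only [g, if_pos hn, ex]
        ring_nf
      have hk : ∀ k, ∑ n ∈ s, (a k n * lc X.T k (-n)).re = star' β k * re6 g y k := fun k => by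
        rw [hev, mul_sum]
        refine sum_congr rfl fun n _ => ?_
        simp only [a]
        rw [← Complex.re_ofReal_mul]
        ring_nf
      simp only [hk]
      simp [dot, star', Fin.sum_univ_six]; ring
    have hGz : ∀ z, ∃ x : ℝ, 0 ≤ x ∧ x * dist2 (y - z) ≤ b ∧ G z = x • star' β := fun z => by
      obtain ⟨x, hx, he, hxb⟩ := hk (y - z)
      refine ⟨x, hx, hxb, funext fun i => ?_⟩
      simp only [G, Finset.sum_apply, re6, evS_dl, apply_ite Complex.re, Complex.zero_re,
        Pi.smul_apply, smul_eq_mul]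
      rw [sum_comm, ← Complex.ofReal_re (x * star' β i), Complex.ofReal_mul, ← he, sum_mul,
        Complex.re_sum]
      refine sum_congr rfl fun n _ => ?_
      rw [Finset.sum_ite_eq, if_pos (mem_univ i)]
      simp only [a, ex]
      rw [map_sub, sub_eq_add_neg, Complex.exp_add,
        show freq e1 e2 (-n) z = -freq e1 e2 n z by
          simp [freq_apply, m1_std, m2_std]; ring]
      ring_nf
    set d := c * gm (S.J y) v
    have h0 : 0 ≤ X.T (S.σ • G + d • fun u => refForm (S.J u)) := by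
      refine X.T_nonneg ((hG.1.smul _).add (S.sm_ref.smul _)) fun z u => ?_
      obtain ⟨x, hx, hxb, hz⟩ := hGz z
      set γ := biv u (S.J z *ᵥ u)
      have hv' : dot ((S.σ • G + d • fun u => refForm (S.J u)) z) γ =
          x * (S.σ * wed β γ) + d * gm (S.J z) u := by
        rw [← ref_line (S.sq z), Pi.add_apply, Pi.smul_apply, hz]
        simp [γ, wed, dot, Fin.sum_univ_six]; ring
      rw [hv']
      have hl := pair_lower (S.sq y) (S.J z) v u
      rw [S.σ_eq] at hl
      have hv0 : 0 ≤ gm (S.J y) v := (n2_nonneg v).trans (gm_ge _ _).1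
      have hq : 0 ≤ sqn (S.J z - S.J y) := sum_nonneg fun _ _ => sum_nonneg fun _ _ => sq_nonneg _
      have h1 : |wed (refForm (S.J y)) (refForm (S.J y))| / 8 * (x * sqn (S.J z - S.J y)) ≤
          P / 8 * (L * b) := by
        refine mul_le_mul (by linarith [hP y]) ?_ (mul_nonneg hx hq) (by positivity)
        calc x * sqn (S.J z - S.J y) ≤ x * (L * dist2 (y - z)) :=
              mul_le_mul_of_nonneg_left (hLip y z) hx
          _ = L * (x * dist2 (y - z)) := by ring
          _ ≤ L * b := mul_le_mul_of_nonneg_left hxb hL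
      have h2 := mul_le_mul h1 (gm_ge (S.J z) u).1 (n2_nonneg u) (by positivity)
      have h3 := mul_le_mul_of_nonneg_right h2 hv0
      have h4 := mul_le_mul_of_nonneg_left hl hx
      simp only [d, c]
      nlinarith only [h3, h4]
    rw [X.T_add (hG.1.smul _) (S.sm_ref.smul _), X.T_smul _ hG.1, X.T_smul _ S.sm_ref, X.T_ref,
      mul_one, hTG] at h0
    exact h0
  rw [X.T_add (hgs.smul _) (S.sm_ref.smul _), X.T_smul _ hgs, X.T_smul _ S.sm_ref, X.T_ref,
    mul_one] at hpos
  linarith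

lemma phi_proj (k : Fin 6) (n : Z2) :
    lc X.Φ k (-n) = ∑ l, conv (S.projC k l) (fun m => lc X.Φ l (-m)) n := by
  refine sub_eq_zero.1 (eq_zero_of_re fun a => ?_)
  have hc := rapid_dl k (-n) a
  have h := X.Φ_anti (sm_re6 hc)
  rw [← S.re6_antiOp hc, (linΦ X).formula (S.rapid_antiOp hc), (linΦ X).dl_re] at h
  rw [mul_sub, Complex.sub_re, ← h, sub_eq_zero]
  refine congrArg Complex.re ?_
  rw [mul_sum]
  refine sum_congr rfl fun l _ => ?_
  have e : ∀ m, S.antiOp (dl k (-n) a) l m = a * S.projC k l (m + n) := fun m => by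
    rw [Str.antiOp, Finset.sum_apply, sum_eq_single k (fun j _ hj => by simp [conv, dl, hj])
      (by simp), conv, tsum_eq_single (m + n) fun q hq => by
        simp only [dl, Pi.single_eq_same]
        rw [Pi.single_eq_of_ne (fun h => hq (by rw [← sub_sub_cancel m q, h, sub_neg_eq_add])),
          mul_zero]]
    simp [dl, mul_comm]
  simp only [conv, e, mul_assoc, tsum_mul_left]
  congr 1
  rw [← (Equiv.addRight n).tsum_eq fun q => S.projC k l q * lc X.Φ l (-(n - q))]
  simp

/-- The sequences of the functional. -/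
theorem cur_of_fun {S : Str} (X : Fun S) :
    ∃ C : Cur S, (∀ k n, C.φ k n = 0) → ∀ v, Sm v → X.Φ v = 0 := by
  obtain ⟨L, hL, hLip⟩ := S.exists_lip
  obtain ⟨P, hP0, hP⟩ := S.exists_vol
  have hC := X.C_nonneg
  have hPL : 0 ≤ P / 8 * L := by positivity
  refine ⟨{
    t := fun k n => lc X.T k (-n)
    φ := fun k n => lc X.Φ k (-n)
    Ct := 2 * X.C + P / 8 * L
    K := X.k
    Ct_nonneg := by positivity
    φ_bd := fun k n => ((linΦ X).lc_norm k (-n)).trans (by
      rw [w_neg]; exact mul_le_mul_of_nonneg_right (by linarith) (by positivity))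
    φ_conj := fun k n => (linΦ X).lc_conj k (-n)
    proj := phi_proj X
    exact := fun n => exact_eq X (-n)
    self := fun s Λ b h => by
      have hb : 0 ≤ b := by
        obtain ⟨x, hx, -, h'⟩ := h 0
        simpa [dist2] using h'
      refine le_trans ?_ (self_bound X hL hLip hP0 hP s Λ b h)
      nlinarith
    cross := fun s z hz _ => (cross_bound X s hz).trans (mul_le_mul_of_nonneg_right (by linarith)
      (Finset.sum_nonneg fun k _ => tsum_nonneg fun n => norm_nonneg _)) }, fun h v hv => ?_⟩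
  obtain ⟨c, hc, -, rfl⟩ := exists_re6 hv
  rw [(linΦ X).formula hc]
  have h0 : ∀ k m, lc X.Φ k m = 0 := fun k m => by simpa using h k (-m)
  simp [h0]

end Vale.Agent.P204.Inv
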