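import Vale.Agent.P204.Basic
import Vale.Agent.P205.BeltramiEv

/-! Two-forms and bivectors on `ℝ⁴` in six coordinates, and the interfaces of the proof that tamed
structures on the four-torus depending on two coordinates are compatible (P204). -/

namespace Vale.Agent.P204.Inv

open Vale.Agent.P229 (P2)
open Vale.Agent.P205 (Periodic2)
open scoped ContDiff Matrix

abbrev V6 := Fin 6 → ℝ

abbrev M4 := Matrix (Fin 4) (Fin 4) ℝ

/-- Coordinates in the order 01, 23, 02, 13, 03, 12. -/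
def mat (w : V6) : M4 :=
  !![0, w 0, w 2, w 4; -w 0, 0, w 5, w 3; -w 2, -w 5, 0, w 1; -w 4, -w 3, -w 1, 0]

/-- The coordinates of a skew matrix. -/
def crd (W : M4) : V6 := ![W 0 1, W 2 3, W 0 2, W 1 3, W 0 3, W 1 2]

/-- The bivector of two vectors. -/
def biv (v w : Fin 4 → ℝ) : V6 :=
  ![v 0 * w 1 - v 1 * w 0, v 2 * w 3 - v 3 * w 2, v 0 * w 2 - v 2 * w 0, v 1 * w 3 - v 3 * w 1,
    v 0 * w 3 - v 3 * w 0, v 1 * w 2 - v 2 * w 1]

/-- The star between forms and bivectors. -/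
def star' {R : Type*} [Neg R] (b : Fin 6 → R) : Fin 6 → R :=
  ![b 1, b 0, -b 3, -b 2, b 5, b 4]

/-- The pairing of a form and a bivector. -/
def dot (a b : V6) : ℝ := ∑ k, a k * b k

/-- The wedge pairing. -/
def wed (a b : V6) : ℝ := dot (star' a) b

/-- The anti-invariant part of a form. -/
noncomputable def anti (J : M4) (w : V6) : V6 := crd ((1 / 2 : ℝ) • (mat w - Jᵀ * mat w * J))

/-- The matrix of `anti`. -/
noncomputable def antiC (J : M4) (k l : Fin 6) : ℝ := anti J (Pi.single l 1) k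

/-- The action of `anti` on bivectors. -/
noncomputable def antiT (J : M4) (b : V6) : V6 := fun l => ∑ k, antiC J k l * b k

/-- The standard compatible form of a linear complex structure. -/
noncomputable def refForm (J : M4) : V6 := crd (-((1 + Jᵀ * J) * J))

/-- The orientation. -/
noncomputable def orient (J : M4) : ℝ := if 0 < wed (refForm J) (refForm J) then 1 else -1

/-- The sum of the squares of the entries. -/
def sqn (M : M4) : ℝ := ∑ a, ∑ b, M a b ^ 2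

/-- A complex structure on the four-torus depending on two coordinates. -/
structure Str where
  J : P2 → M4
  smooth : ∀ a b, ContDiff ℝ ∞ fun u => J u a b
  per : Periodic2 (1, 0) (0, 1) J
  sq : ∀ u, J u * J u = -1

/-- Smooth periodic six-component fields. -/
def Sm (w : P2 → V6) : Prop :=
  (∀ k, ContDiff ℝ ∞ fun u => w u k) ∧ Periodic2 (1, 0) (0, 1) w

/-- A closed field: constant fibre component and closed mixed rows. -/
def Closed (w : P2 → V6) : Prop :=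
  Sm w ∧ (∀ u u', w u 1 = w u' 1) ∧
    (∀ u, fderiv ℝ (fun v => w v 2) u (0, 1) = fderiv ℝ (fun v => w v 5) u (1, 0)) ∧
    ∀ u, fderiv ℝ (fun v => w v 4) u (0, 1) = fderiv ℝ (fun v => w v 3) u (1, 0)

/-- A field pairs nonnegatively with all complex lines. -/
def Semipos (S : Str) (w : P2 → V6) : Prop :=
  ∀ u v, 0 ≤ dot (w u) (biv v (S.J u *ᵥ v))

/-- A field is compatible and positive. -/
def Kahler (S : Str) (w : P2 → V6) : Prop :=
  Closed w ∧ (∀ u, anti (S.J u) (w u) = 0) ∧ ∀ u v, v ≠ 0 → 0 < dot (w u) (biv v (S.J u *ᵥ v))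

/-- Every coefficient family has a closed form with that anti-invariant part, with an affine
bound by finitely many weighted sums. -/
def RightInverseSpec (S : Str) : Prop :=
  ∃ (C : ℝ) (k : ℕ), ∀ a : P2 → V6, Sm a → (∀ u, anti (S.J u) (a u) = a u) →
    ∀ c : Fin 6 → Vale.Agent.P205.Fourier.Cf,
      (∀ i, Vale.Agent.P205.Fourier.Rapid (c i)) →
      (∀ i u, Vale.Agent.P205.Beltrami.evS (c i) u = (a u i : ℂ)) →
      ∃ η, Closed η ∧ (∀ u, anti (S.J u) (η u) = a u) ∧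
        ∀ u i, |η u i| ≤ C * (1 + ∑ j, (Vale.Agent.P205.Fourier.N k (c j)).toReal ^ 2)

/-- The fibre average of a taming form is taming. -/
def AverageSpec : Prop :=
  ∀ (S : Str) (W : (Fin 4 → ℝ) → M4), IsClosedForm W →
    (∀ x v, v ≠ 0 → 0 < v ⬝ᵥ W x *ᵥ (S.J (x 0, x 1) *ᵥ v)) →
    ∃ w, Closed w ∧ ∀ u v, v ≠ 0 → 0 < dot (w u) (biv v (S.J u *ᵥ v))

/-- A one-dimensional nonnegative kernel given by finitely many coefficients. -/
noncomputable def ker1 (Λ : ℤ → ℝ) (M : ℕ) (r : ℝ) : ℂ :=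
  ∑ n ∈ Finset.Icc (-(M : ℤ)) M, (Λ n : ℂ) * Complex.exp ((2 * Real.pi * n * r : ℝ) * Complex.I)

/-- The square triangle. -/
noncomputable def tri (N : ℕ) (n : ℤ) : ℝ := max 0 (1 - |(n : ℝ)| / N)

/-- The Jackson coefficients. -/
noncomputable def jack (N : ℕ) (n : ℤ) : ℝ :=
  (∑ i ∈ Finset.Icc (0 : ℤ) (2 * N), (∑ a ∈ Finset.range N, ∑ b ∈ Finset.range N,
      if (a : ℤ) + b = i then (1 : ℝ) else 0) *
    (∑ a ∈ Finset.range N, ∑ b ∈ Finset.range N, if (a : ℤ) + b = i + n then (1 : ℝ) else 0))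
    / (N : ℝ) ^ 3

/-- What is needed about the two kernels. -/
def KernelSpec : Prop :=
  (∃ C : ℝ, ∀ N : ℕ, 1 ≤ N → ∀ r : ℝ, ∃ x : ℝ, 0 ≤ x ∧
    ker1 (fun n => tri N n ^ 2) N r = (x : ℂ) ∧ x ≤ C * N ∧
    x * Real.sin (Real.pi * r) ^ 2 ≤ C / N) ∧
  (∀ N : ℕ, 1 ≤ N → (∀ n, 0 ≤ jack N n ∧ jack N n ≤ 8 ∧ (jack N n ≠ 0 → |n| ≤ 2 * N)) ∧
    1 / 2 ≤ jack N 0 ∧ (∀ n m, |jack N n - jack N m| ≤ 8 * |((n - m : ℤ) : ℝ)| / N)) ∧
  ∃ C : ℝ, ∀ r s : ℝ, ∃ x : ℕ → ℝ,
    (∀ j, 0 ≤ x j ∧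
      ker1 (jack (2 ^ j)) (2 * 2 ^ j) r * ker1 (jack (2 ^ j)) (2 * 2 ^ j) s = (x j : ℂ)) ∧
    ∀ n, (∑ j ∈ Finset.range n, x j) *
      (Real.sin (Real.pi * r) ^ 2 + Real.sin (Real.pi * s) ^ 2) ≤ C

end Vale.Agent.P204.Inv
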