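import Vale.Agent.P204.Inv.Positive

/-! The estimates behind the vanishing of the anti-invariant part of an exact positive current
(P204). -/

namespace Vale.Agent.P204.Inv

open Vale.Agent.P229 (P2)
open Vale.Agent.P205.Fourier
open Vale.Agent.P205.Beltrami
open scoped ComplexConjugate
open Finset

/-- A square of frequencies. -/
noncomputable def box (M : ℕ) : Finset Z2 := Icc (-(M : ℤ)) M ×ˢ Icc (-(M : ℤ)) M

/-- The squared distance to the lattice. -/
noncomputable def dist2 (r : P2) : ℝ :=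
  Real.sin (Real.pi * r.1) ^ 2 + Real.sin (Real.pi * r.2) ^ 2

/-- The sequences of an exact current and what is known about them. -/
structure Cur (S : Str) where
  t : Fin 6 → Cf
  φ : Fin 6 → Cf
  Ct : ℝ
  K : ℕ
  Ct_nonneg : 0 ≤ Ct
  φ_bd : ∀ k n, ‖φ k n‖ ≤ Ct * (w n : ℝ) ^ K
  φ_conj : ∀ k n, φ k (-n) = conj (φ k n)
  proj : ∀ k n, φ k n = ∑ l, conv (S.projC k l) (φ l) n
  exact : ∀ n, Bp ((fun k => t k n) + fun k => φ k n) ((fun k => t k n) + fun k => φ k n) = 0
  self : ∀ (s : Finset Z2) (Λ : Z2 → ℝ) (b : ℝ),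
    (∀ r, ∃ x : ℝ, 0 ≤ x ∧ (∑ n ∈ s, (Λ n : ℂ) * Complex.exp (freq e1 e2 n r)) = (x : ℂ) ∧
      x * dist2 r ≤ b) →
    -(Ct * b) ≤ S.σ * ∑ n ∈ s, Λ n * Bp (fun k => t k n) fun k => t k n
  cross : ∀ (s : Finset Z2) (z : Fin 6 → Cf), (∀ k n, n ∉ s → z k n = 0) →
    (∀ k n, z k (-n) = conj (z k n)) →
    |∑ n ∈ s, Bp (fun k => t k n) fun k => z k n| ≤ Ct * ∑ k, ∑' n, ‖defect S z k n‖

lemma mem_box {M : ℕ} {n : Z2} : n ∈ box M ↔ |n.1| ≤ M ∧ |n.2| ≤ M := by
  simp [box, abs_le]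

lemma box_mono {M M' : ℕ} (h : M ≤ M') : box M ⊆ box M' := fun n hn => by
  rw [mem_box] at hn ⊢
  exact ⟨hn.1.trans (by exact_mod_cast h), hn.2.trans (by exact_mod_cast h)⟩

lemma card_box (M : ℕ) : ((box M).card : ℝ) = (2 * M + 1) ^ 2 := by
  have : (Icc (-(M : ℤ)) M).card = 2 * M + 1 := by rw [Int.card_Icc]; omega
  rw [box, card_product, this]; push_cast; ring

lemma w_le_box {M : ℕ} {n : Z2} (h : n ∈ box M) : (w n : ℝ) ≤ 2 * M + 1 := by
  rw [mem_box] at h
  rw [w_cast]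
  have h1 : |(n.1 : ℝ)| ≤ M := by exact_mod_cast h.1
  have h2 : |(n.2 : ℝ)| ≤ M := by exact_mod_cast h.2
  linarith

lemma abs_le_w (m : Z2) : |(m.1 : ℝ)| + |(m.2 : ℝ)| + 1 ≤ w m := by rw [w_cast]; linarith

lemma mem_box_add {M : ℕ} {n m : Z2} (h : n ∈ box M ∨ n - m ∈ box M) : n - m ∈ box (M + w m) := by
  rcases h with h | h
  · rw [mem_box] at h ⊢
    simp only [w, Prod.fst_sub, Prod.snd_sub, Nat.cast_add, Nat.cast_one, Int.natCast_natAbs]
    obtain ⟨h1, h2⟩ := h
    constructor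
    · linarith [abs_sub n.1 m.1, abs_nonneg m.2]
    · linarith [abs_sub n.2 m.2, abs_nonneg m.1]
  · exact box_mono (Nat.le_add_right _ _) h

variable {S : Str} (X : Cur S)

/-- The square sum of the anti-invariant part over a square. -/
noncomputable def F2 (R : ℕ) : ℝ := ∑ n ∈ box R, nsq fun k => X.φ k n

/-- The sum of the absolute values over a square. -/
noncomputable def G1 (R : ℕ) : ℝ := ∑ n ∈ box R, ∑ k, ‖X.φ k n‖

/-- The square root of `F2`. -/
noncomputable def F (R : ℕ) : ℝ := Real.sqrt (F2 X R)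

lemma F2_nonneg (R : ℕ) : 0 ≤ F2 X R := sum_nonneg fun _ _ => nsq_nonneg _

lemma F_nonneg (R : ℕ) : 0 ≤ F X R := Real.sqrt_nonneg _

lemma F_sq (R : ℕ) : F X R ^ 2 = F2 X R := Real.sq_sqrt (F2_nonneg X R)

lemma F_mono {R R' : ℕ} (h : R ≤ R') : F X R ≤ F X R' :=
  Real.sqrt_le_sqrt (sum_le_sum_of_subset_of_nonneg (box_mono h) fun _ _ _ => nsq_nonneg _)

lemma G1_le (R : ℕ) : G1 X R ≤ 3 * (2 * R + 1) * F X R := by
  have h1 : G1 X R ^ 2 ≤ (6 * (2 * R + 1) ^ 2) * F2 X R := by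
    rw [G1, F2, ← sum_product']
    refine (sq_sum_le_card_mul_sum_sq).trans ?_
    rw [card_product]
    simp only [nsq, card_univ, Fintype.card_fin, Nat.cast_mul, Nat.cast_ofNat]
    rw [sum_product, card_box]
    exact le_of_eq (by ring)
  have h2 : G1 X R ^ 2 ≤ (3 * (2 * R + 1) * F X R) ^ 2 := by
    rw [mul_pow, F_sq]
    nlinarith [mul_nonneg (sq_nonneg (2 * (R : ℝ) + 1)) (F2_nonneg X R)]
  exact le_of_pow_le_pow_left₀ two_ne_zero
    (mul_nonneg (by positivity) (F_nonneg X R)) h2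

/-- The weights of the projection. -/
noncomputable def aw (S : Str) (k l : Fin 6) (m : Z2) : ℝ := ‖S.projC k l m‖ * (w m : ℝ)

lemma aw_nonneg (k l : Fin 6) (m : Z2) : 0 ≤ aw S k l m := by unfold aw; positivity

lemma summable_aw (k l : Fin 6) (j : ℕ) :
    Summable fun m => aw S k l m * ((w m : ℝ) + 1) ^ j := by
  have h := summable_of_N ((S.projC_spec k l).1 (1 + j))
  refine (h.mul_left ((2 : ℝ) ^ j)).of_nonneg_of_le (fun m => by unfold aw; positivity) fun m => ?_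
  have h1 : ((w m : ℝ) + 1) ^ j ≤ (2 * (w m : ℝ)) ^ j := by
    gcongr; linarith [abs_le_w m, abs_nonneg (m.1 : ℝ), abs_nonneg (m.2 : ℝ)]
  calc aw S k l m * ((w m : ℝ) + 1) ^ j ≤ aw S k l m * (2 * (w m : ℝ)) ^ j :=
        mul_le_mul_of_nonneg_left h1 (aw_nonneg k l m)
    _ = _ := by rw [aw, mul_pow, pow_add, pow_one]; ring

/-- The defect of a weighted family. -/
lemma defect_le {Λ : Z2 → ℝ} {M : ℕ} {L : ℝ} (hsupp : ∀ n, n ∉ box M → Λ n = 0)
    (hlip : ∀ n m, |Λ n - Λ (n - m)| ≤ L * (w m : ℝ)) (k : Fin 6) (n : Z2) :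
    (∀ l, Summable fun m => L * aw S k l m *
      (if n - m ∈ box (M + w m) then ‖X.φ l (n - m)‖ else 0)) ∧
    ‖defect S (fun l j => (Λ j : ℂ) * X.φ l j) k n‖ ≤
      ∑ l, ∑' m, L * aw S k l m * (if n - m ∈ box (M + w m) then ‖X.φ l (n - m)‖ else 0) := by
  have hL : 0 ≤ L := by
    have := hlip 0 0
    simp [w] at this
    exact this
  have hφ : ∀ l m, ‖X.φ l (n - m)‖ ≤ X.Ct * ((w n : ℝ) ^ X.K * ((w m : ℝ) + 1) ^ X.K) := fun l m => by
    refine (X.φ_bd l _).trans (mul_le_mul_of_nonneg_left ?_ X.Ct_nonneg)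
    rw [← mul_pow]
    refine pow_le_pow_left₀ (by positivity) ?_ _
    rw [w_cast, w_cast, w_cast, Prod.fst_sub, Prod.snd_sub, Int.cast_sub, Int.cast_sub]
    nlinarith [abs_sub (n.1 : ℝ) m.1, abs_sub (n.2 : ℝ) m.2, abs_nonneg (n.1 : ℝ),
      abs_nonneg (n.2 : ℝ), abs_nonneg (m.1 : ℝ), abs_nonneg (m.2 : ℝ)]
  have hs : ∀ l, Summable fun m => aw S k l m * ‖X.φ l (n - m)‖ := fun l =>
    (((summable_aw k l X.K).mul_left (X.Ct * (w n : ℝ) ^ X.K))).of_nonneg_of_le
      (fun m => mul_nonneg (aw_nonneg k l m) (norm_nonneg _)) fun m =>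
        (mul_le_mul_of_nonneg_left (hφ l m) (aw_nonneg k l m)).trans_eq (by ring)
  have hsum : ∀ l, Summable fun m => L * aw S k l m *
      (if n - m ∈ box (M + w m) then ‖X.φ l (n - m)‖ else 0) := fun l =>
    ((hs l).mul_left L).of_nonneg_of_le
      (fun m => mul_nonneg (mul_nonneg hL (aw_nonneg k l m)) (by split_ifs <;> simp))
      fun m => by
        rw [mul_assoc]
        refine mul_le_mul_of_nonneg_left (mul_le_mul_of_nonneg_left ?_ (aw_nonneg k l m)) hL
        split_ifs <;> simp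
  refine ⟨hsum, ?_⟩
  have hP : ∀ l, Summable fun m => S.projC k l m * X.φ l (n - m) := fun l =>
    Summable.of_norm_bounded (hs l) fun m => by
      rw [norm_mul, aw]
      refine mul_le_mul_of_nonneg_right (le_mul_of_one_le_right (norm_nonneg _) ?_) (norm_nonneg _)
      linarith [abs_le_w m, abs_nonneg (m.1 : ℝ), abs_nonneg (m.2 : ℝ)]
  have hterm : ∀ l m, ‖(Λ n : ℂ) * (S.projC k l m * X.φ l (n - m)) -
      S.projC k l m * ((Λ (n - m) : ℂ) * X.φ l (n - m))‖ ≤
      L * aw S k l m * (if n - m ∈ box (M + w m) then ‖X.φ l (n - m)‖ else 0) := fun l m => by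
    rw [show (Λ n : ℂ) * (S.projC k l m * X.φ l (n - m)) -
      S.projC k l m * ((Λ (n - m) : ℂ) * X.φ l (n - m)) =
      ((Λ n - Λ (n - m) : ℝ) : ℂ) * (S.projC k l m * X.φ l (n - m)) by push_cast; ring,
      norm_mul, Complex.norm_real, Real.norm_eq_abs, norm_mul]
    split_ifs with h
    · calc _ ≤ L * (w m : ℝ) * (‖S.projC k l m‖ * ‖X.φ l (n - m)‖) :=
            mul_le_mul_of_nonneg_right (hlip n m) (by positivity)
        _ = _ := by rw [aw]; ring
    · have h0 : Λ n = 0 ∧ Λ (n - m) = 0 :=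
        ⟨hsupp _ fun hn => h (mem_box_add (Or.inl hn)),
          hsupp _ fun hn => h (mem_box_add (Or.inr hn))⟩
      simp [h0.1, h0.2]
  have hP' : ∀ l, Summable fun m => S.projC k l m * ((Λ (n - m) : ℂ) * X.φ l (n - m)) := fun l => by
    have : Summable fun m => (Λ n : ℂ) * (S.projC k l m * X.φ l (n - m)) -
        ((Λ n : ℂ) * (S.projC k l m * X.φ l (n - m)) -
          S.projC k l m * ((Λ (n - m) : ℂ) * X.φ l (n - m))) :=
      ((hP l).mul_left _).sub (Summable.of_norm_bounded (hsum l) (hterm l))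
    simpa using this
  have e : defect S (fun l j => (Λ j : ℂ) * X.φ l j) k n =
      ∑ l, ∑' m, ((Λ n : ℂ) * (S.projC k l m * X.φ l (n - m)) -
        S.projC k l m * ((Λ (n - m) : ℂ) * X.φ l (n - m))) := by
    simp only [defect, Pi.sub_apply, Finset.sum_apply, conv]
    conv_lhs => rw [X.proj k n, mul_sum, ← sum_sub_distrib]
    refine sum_congr rfl fun l _ => ?_
    rw [conv, ← (hP l).tsum_mul_left, ((hP l).mul_left _).tsum_sub (hP' l)]
  rw [e]
  exact (norm_sum_le _ _).trans (sum_le_sum fun l _ => tsum_of_norm_bounded (hsum l).hasSum (hterm l))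

/-- The two sums of the defect, in terms of the sums of the anti-invariant part. -/
lemma defect_sums {Λ : Z2 → ℝ} {M : ℕ} {L : ℝ} (hsupp : ∀ n, n ∉ box M → Λ n = 0)
    (hlip : ∀ n m, |Λ n - Λ (n - m)| ≤ L * (w m : ℝ))
    {g f : Z2 → ℝ} (hg : ∀ m, G1 X (M + w m) ≤ g m) (hf : ∀ m, F2 X (M + w m) ≤ f m)
    (sg : ∀ k l, Summable fun m => aw S k l m * g m)
    (sf : ∀ k l, Summable fun m => aw S k l m * f m) :
    (∑ k, ∑' n, ‖defect S (fun l j => (Λ j : ℂ) * X.φ l j) k n‖ ≤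
      L * ∑ k, ∑ l, ∑' m, aw S k l m * g m) ∧
    ∑' n, nsq (fun k => defect S (fun l j => (Λ j : ℂ) * X.φ l j) k n) ≤
      6 * L ^ 2 * ∑ k, ∑ l, (∑' m, aw S k l m) * ∑' m, aw S k l m * f m := by
  have hL : 0 ≤ L := by
    have := hlip 0 0
    simp [w] at this
    exact this
  set x : Fin 6 → Z2 → Z2 → ℝ := fun l m n =>
    if n - m ∈ box (M + w m) then ‖X.φ l (n - m)‖ else 0 with hx
  have hxg : ∀ l m (s : Finset Z2), ∑ n ∈ s, x l m n ≤ g m := fun l m s => by
    refine le_trans ?_ (hg m)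
    simp only [hx, ← sum_filter, G1]
    refine le_trans (le_of_eq (sum_map _ (Equiv.subRight m).toEmbedding
      (fun n => ‖X.φ l n‖)).symm) (le_trans (sum_le_sum_of_subset_of_nonneg ?_
        fun _ _ _ => norm_nonneg _) (sum_le_sum fun n _ => single_le_sum
          (f := fun k => ‖X.φ k n‖) (fun _ _ => norm_nonneg _) (mem_univ l)))
    intro j hj
    obtain ⟨n, hn, rfl⟩ := mem_map.1 hj
    simpa using (mem_filter.1 hn).2
  have hxf : ∀ l m (s : Finset Z2), ∑ n ∈ s, x l m n ^ 2 ≤ f m := fun l m s => by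
    refine le_trans ?_ (hf m)
    have : ∀ n, x l m n ^ 2 = if n - m ∈ box (M + w m) then ‖X.φ l (n - m)‖ ^ 2 else 0 := fun n => by
      simp only [hx]; split_ifs <;> simp
    simp only [this, ← sum_filter, F2, nsq]
    refine le_trans (le_of_eq (sum_map _ (Equiv.subRight m).toEmbedding
      (fun n => ‖X.φ l n‖ ^ 2)).symm) (le_trans (sum_le_sum_of_subset_of_nonneg ?_
        fun _ _ _ => sq_nonneg _) (sum_le_sum fun n _ => single_le_sum
          (f := fun k => ‖X.φ k n‖ ^ 2) (fun _ _ => sq_nonneg _) (mem_univ l)))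
    intro j hj
    obtain ⟨n, hn, rfl⟩ := mem_map.1 hj
    simpa using (mem_filter.1 hn).2
  have hx0 : ∀ l m n, 0 ≤ x l m n := fun l m n => by simp only [hx]; split_ifs <;> simp
  have hd := fun k n => defect_le X hsupp hlip k n
  constructor
  · rw [mul_sum]
    refine sum_le_sum fun k _ => Real.tsum_le_of_sum_le (fun _ => norm_nonneg _) fun s => ?_
    refine (sum_le_sum fun n _ => (hd k n).2).trans ?_
    rw [sum_comm, mul_sum]
    refine sum_le_sum fun l _ => ?_
    rw [← Summable.tsum_finsetSum fun n _ => (hd k n).1 l, ← (sg k l).tsum_mul_left]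
    refine Summable.tsum_le_tsum (fun m => ?_) (summable_sum fun n _ => (hd k n).1 l)
      ((sg k l).mul_left L)
    rw [← mul_sum, ← mul_assoc]
    exact mul_le_mul_of_nonneg_left (hxg l m s) (mul_nonneg hL (aw_nonneg k l m))
  · refine Real.tsum_le_of_sum_le (fun _ => nsq_nonneg _) fun s => ?_
    simp only [nsq]
    rw [sum_comm, mul_sum]
    refine sum_le_sum fun k _ => ?_
    have sA : ∀ l, Summable fun m => aw S k l m := fun l => by simpa using summable_aw k l 0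
    have key : ∀ l n, (∑' m, L * aw S k l m * x l m n) ^ 2 ≤
        L ^ 2 * (∑' m, aw S k l m) * ∑' m, aw S k l m * x l m n ^ 2 := by
      intro l n
      have s1 : Summable fun m => aw S k l m * x l m n ^ 2 := by
        refine (sf k l).of_nonneg_of_le (fun m => mul_nonneg (aw_nonneg k l m) (sq_nonneg _))
          fun m => mul_le_mul_of_nonneg_left ?_ (aw_nonneg k l m)
        simpa using hxf l m {n}
      rw [show L ^ 2 * (∑' m, aw S k l m) * ∑' m, aw S k l m * x l m n ^ 2 =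
        L ^ 2 * ((∑' m, aw S k l m) * ∑' m, aw S k l m * x l m n ^ 2) by ring]
      have h0 : ∀ u : Finset Z2, (∑ m ∈ u, L * aw S k l m * x l m n) ^ 2 ≤
          L ^ 2 * ((∑' m, aw S k l m) * ∑' m, aw S k l m * x l m n ^ 2) := fun u => by
        simp only [mul_assoc L, ← mul_sum, mul_pow]
        refine mul_le_mul_of_nonneg_left (le_trans
          (sum_sq_le_sum_mul_sum_of_sq_eq_mul _ (fun m _ => aw_nonneg k l m)
            (fun m _ => mul_nonneg (aw_nonneg k l m) (sq_nonneg _)) fun m _ => by ring)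
          (mul_le_mul ((sA l).sum_le_tsum _ fun m _ => aw_nonneg k l m)
            (s1.sum_le_tsum _ fun m _ => mul_nonneg (aw_nonneg k l m) (sq_nonneg _))
            (sum_nonneg fun m _ => mul_nonneg (aw_nonneg k l m) (sq_nonneg _))
            (tsum_nonneg fun m => aw_nonneg k l m))) (sq_nonneg L)
      exact le_of_tendsto (((hd k n).1 l).hasSum.pow 2) (Filter.Eventually.of_forall h0)
    calc ∑ n ∈ s, ‖defect S (fun l j => (Λ j : ℂ) * X.φ l j) k n‖ ^ 2
        ≤ ∑ n ∈ s, 6 * ∑ l, L ^ 2 * (∑' m, aw S k l m) * ∑' m, aw S k l m * x l m n ^ 2 := by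
          refine sum_le_sum fun n _ => ?_
          refine le_trans (pow_le_pow_left₀ (norm_nonneg _) (hd k n).2 2) ?_
          refine (sq_sum_le_card_mul_sum_sq).trans ?_
          simp only [card_univ, Fintype.card_fin, Nat.cast_ofNat]
          gcongr with l
          exact key l n
      _ ≤ _ := by
          rw [← mul_sum, sum_comm, mul_assoc, mul_sum (a := L ^ 2)]
          gcongr with l
          rw [← mul_sum, ← mul_assoc]
          refine mul_le_mul_of_nonneg_left ?_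
            (mul_nonneg (sq_nonneg L) (tsum_nonneg fun m => aw_nonneg k l m))
          have s1 : ∀ n, Summable fun m => aw S k l m * x l m n ^ 2 := fun n => by
            refine (sf k l).of_nonneg_of_le (fun m => mul_nonneg (aw_nonneg k l m) (sq_nonneg _))
              fun m => mul_le_mul_of_nonneg_left ?_ (aw_nonneg k l m)
            simpa using hxf l m {n}
          rw [← Summable.tsum_finsetSum fun n _ => s1 n]
          refine Summable.tsum_le_tsum (fun m => ?_) (summable_sum fun n _ => s1 n) (sf k l)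
          rw [← mul_sum]
          exact mul_le_mul_of_nonneg_left (hxf l m s) (aw_nonneg k l m)

lemma rapid_fin {c : Cf} {s : Finset Z2} (h : ∀ n, n ∉ s → c n = 0) : Rapid c := fun k => by
  rw [N, tsum_eq_sum (s := s) fun n hn => by simp [h n hn]]
  exact ENNReal.sum_ne_top.2 fun n _ => by simp [ENNReal.mul_ne_top]

/-- The basic inequality of a weight. -/
theorem basic : ∃ C : ℝ, 0 < C ∧ ∀ (lam : Z2 → ℝ) (M : ℕ) (L b : ℝ) (g f : Z2 → ℝ),
    (∀ n, n ∉ box M → lam n = 0) → (∀ n, lam (-n) = lam n) →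
    (∀ n m, |lam n - lam (n - m)| ≤ L * (w m : ℝ)) →
    (∀ n m, |lam n ^ 2 - lam (n - m) ^ 2| ≤ L * (w m : ℝ)) →
    (∀ m, G1 X (M + w m) ≤ g m) → (∀ m, F2 X (M + w m) ≤ f m) →
    (∀ k l, Summable fun m => aw S k l m * g m) →
    (∀ k l, Summable fun m => aw S k l m * f m) →
    (∀ r, ∃ x : ℝ, 0 ≤ x ∧ (∑ n ∈ box M, ((lam n ^ 2 : ℝ) : ℂ) * Complex.exp (freq e1 e2 n r)) =
      (x : ℂ) ∧ x * dist2 r ≤ b) →
    ∑ n ∈ box M, lam n ^ 2 * nsq (fun k => X.φ k n) ≤ C * (b + L * ∑ k, ∑ l, ∑' m, aw S k l m * g m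
      + L ^ 2 * ∑ k, ∑ l, (∑' m, aw S k l m) * ∑' m, aw S k l m * f m) := by
  obtain ⟨c, hc, hpos⟩ := bp_lower S
  refine ⟨(2 * X.Ct + X.Ct + 6 / c + 1) / c, by have := X.Ct_nonneg; positivity, ?_⟩
  intro lam M L b g f hsupp hev hlip hlip2 hg hf sg sf hk
  have hb : 0 ≤ b := by
    obtain ⟨x, hx, -, h⟩ := hk 0
    simpa [dist2] using h
  have hsupp2 : ∀ n, n ∉ box M → lam n ^ 2 = 0 := fun n hn => by simp [hsupp n hn]
  have d1 := (defect_sums X (Λ := fun n => lam n ^ 2) hsupp2 hlip2 hg hf sg sf).1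
  have d2 := (defect_sums X hsupp hlip hg hf sg sf).2
  have hneg : ∀ (Λ : Z2 → ℝ), (∀ n, Λ (-n) = Λ n) → ∀ k n,
      (Λ (-n) : ℂ) * X.φ k (-n) = conj ((Λ n : ℂ) * X.φ k n) := fun Λ h k n => by
    rw [h, X.φ_conj, map_mul, Complex.conj_ofReal]
  have hB1 : ∀ (a b : C6) (r : ℝ), Bp a (fun k => (r : ℂ) * b k) = r * Bp a b := fun a b r => by
    simp [Bp, Finset.mul_sum, Complex.mul_re]
    exact Finset.sum_congr rfl fun k _ => by ring
  have hB2 : ∀ (b : C6) (r : ℝ), Bp (fun k => (r : ℂ) * b k) (fun k => (r : ℂ) * b k) =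
      r ^ 2 * Bp b b := fun b r => by
    simp [Bp, star', Fin.sum_univ_six, Complex.mul_re]; ring
  have hS := X.self (box M) (fun n => lam n ^ 2) b hk
  have hC := X.cross (box M) (fun k n => ((lam n ^ 2 : ℝ) : ℂ) * X.φ k n)
    (fun k n hn => by simp [hsupp n hn]) (hneg (fun n => lam n ^ 2) fun n => by rw [hev])
  simp only [hB1] at hC
  have hP := hpos (fun k n => (lam n : ℂ) * X.φ k n)
    (fun k => rapid_fin (s := box M) fun n hn => by simp [hsupp n hn]) (hneg _ hev)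
  simp only [hB2] at hP
  rw [tsum_eq_sum (s := box M) fun n hn => by simp [hsupp n hn, nsq],
    tsum_eq_sum (f := fun n => lam n ^ 2 * _) (s := box M) fun n hn => by simp [hsupp n hn]] at hP
  have hn : ∀ n, (nsq fun k => (lam n : ℂ) * X.φ k n) = lam n ^ 2 * nsq fun k => X.φ k n := fun n => by
    simp [nsq, Finset.mul_sum, mul_pow]
  simp only [hn] at hP
  have hE : ∑ n ∈ box M, lam n ^ 2 * Bp (fun k => X.t k n) (fun k => X.t k n) +
      2 * ∑ n ∈ box M, lam n ^ 2 * Bp (fun k => X.t k n) (fun k => X.φ k n) +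
      ∑ n ∈ box M, lam n ^ 2 * Bp (fun k => X.φ k n) (fun k => X.φ k n) = 0 := by
    rw [mul_sum, ← sum_add_distrib, ← sum_add_distrib]
    refine sum_eq_zero fun n _ => ?_
    have h := X.exact n
    rw [Bp_add] at h
    linear_combination lam n ^ 2 * h
  set T1 := ∑ n ∈ box M, lam n ^ 2 * Bp (fun k => X.t k n) (fun k => X.t k n)
  set T2 := ∑ n ∈ box M, lam n ^ 2 * Bp (fun k => X.t k n) (fun k => X.φ k n)
  set T3 := ∑ n ∈ box M, lam n ^ 2 * Bp (fun k => X.φ k n) (fun k => X.φ k n)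
  set Y := ∑ n ∈ box M, lam n ^ 2 * nsq (fun k => X.φ k n)
  set g' := L * ∑ k, ∑ l, ∑' m, aw S k l m * g m
  set f' := L ^ 2 * ∑ k, ∑ l, (∑' m, aw S k l m) * ∑' m, aw S k l m * f m
  have hs3 : S.σ * T3 ≤ X.Ct * b + 2 * (X.Ct * g') := by
    have h1 : |S.σ * T2| ≤ X.Ct * g' := by
      rw [abs_mul, show |S.σ| = 1 by
        rw [← Real.sqrt_sq_eq_abs, S.σ_sq, Real.sqrt_one], one_mul]
      exact hC.trans (mul_le_mul_of_nonneg_left d1 X.Ct_nonneg)
    rw [show T3 = -T1 - 2 * T2 by linarith, mul_sub, mul_neg]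
    nlinarith [abs_le.1 h1]
  have hd : (∑' n, nsq fun k => defect S (fun k n => (lam n : ℂ) * X.φ k n) k n) ≤ 6 * f' :=
    d2.trans_eq (by simp only [f']; ring)
  have hf' : 0 ≤ f' := by
    have := (tsum_nonneg fun n => nsq_nonneg fun k =>
      defect S (fun k n => (lam n : ℂ) * X.φ k n) k n).trans hd
    linarith
  have hg' : 0 ≤ g' := (Finset.sum_nonneg fun k _ => tsum_nonneg fun n => norm_nonneg _).trans d1
  have h6 : 1 / c * (∑' n, nsq fun k => defect S (fun k n => (lam n : ℂ) * X.φ k n) k n) ≤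
      1 / c * (6 * f') := mul_le_mul_of_nonneg_left hd (by positivity)
  rw [div_mul_eq_mul_div, le_div_iff₀ hc]
  have e6 : 1 / c * (6 * f') = 6 / c * f' := by ring
  have := X.Ct_nonneg
  nlinarith [mul_nonneg this hb, mul_nonneg this hg', mul_nonneg this hf',
    mul_nonneg (div_nonneg (by norm_num : (0:ℝ) ≤ 6) hc.le) hb,
    mul_nonneg (div_nonneg (by norm_num : (0:ℝ) ≤ 6) hc.le) hg']

end Vale.Agent.P204.Inv
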