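import Vale.Agent.P204.Inv.Estimate

/-! The functional given by the failure of compatibility (P204): interface between the extension
argument and the coefficient sequences. -/

namespace Vale.Agent.P204.Inv

open Vale.Agent.P229 (P2)
open Vale.Agent.P205.Fourier
open Vale.Agent.P205.Beltrami
open scoped Matrix

/-- A positive functional `T` vanishing on closed invariant fields, with the correction `Φ`
that makes the sum vanish on every closed field. -/
structure Fun (S : Str) where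
  T : (P2 → V6) → ℝ
  Φ : (P2 → V6) → ℝ
  C : ℝ
  k : ℕ
  C_nonneg : 0 ≤ C
  T_add : ∀ {v w}, Sm v → Sm w → T (v + w) = T v + T w
  T_smul : ∀ (r : ℝ) {v}, Sm v → T (r • v) = r * T v
  T_nonneg : ∀ {v}, Sm v → Semipos S v → 0 ≤ T v
  T_ref : T (fun u => refForm (S.J u)) = 1
  T_bound : ∀ {v}, Sm v → ∀ b : ℝ, (∀ u i, |v u i| ≤ b) → |T v| ≤ C * b
  T_anti : ∀ {v}, Sm v → T (fun u => anti (S.J u) (v u)) = 0
  Φ_add : ∀ {v w}, Sm v → Sm w → Φ (v + w) = Φ v + Φ w
  Φ_smul : ∀ (r : ℝ) {v}, Sm v → Φ (r • v) = r * Φ v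
  Φ_anti : ∀ {v}, Sm v → Φ (fun u => anti (S.J u) (v u)) = Φ v
  Φ_bound : ∀ {v}, Sm v → ∀ c : Fin 6 → Cf, (∀ i, Rapid (c i)) →
    (∀ i u, evS (c i) u = (v u i : ℂ)) → |Φ v| ≤ C * ∑ i, (N k (c i)).toReal
  closed_zero : ∀ {v}, Closed v → T v + Φ v = 0

/-- Anti-invariant parts of smooth fields are smooth. -/
lemma Sm.antiPart (S : Str) {v : P2 → V6} (hv : Sm v) : Sm fun u => anti (S.J u) (v u) := by
  refine ⟨fun l => ?_, fun u => ⟨by simp only [(S.per u).1, (hv.2 u).1],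
    by simp only [(S.per u).2, (hv.2 u).2]⟩⟩
  simp only [anti_sum]
  exact ContDiff.sum fun j _ => (S.proj_smooth j l).mul (hv.1 j)

end Vale.Agent.P204.Inv
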