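import Vale.Agent.P204.Inv.Func
import Mathlib.Analysis.Convex.Cone.Extension

/-! The positive functional of a structure without compatible forms, by Riesz extension (P204). -/

namespace Vale.Agent.P204.Inv

open Vale.Agent.P229 (P2)
open Vale.Agent.P205 (Periodic2)
open Vale.Agent.P205.Fourier
open Vale.Agent.P205.Beltrami
open scoped Matrix ContDiff ENNReal

lemma Sm.zero : Sm (0 : P2 → V6) := ⟨fun _ => contDiff_const, fun _ => ⟨rfl, rfl⟩⟩

lemma Sm.add {v w : P2 → V6} (hv : Sm v) (hw : Sm w) : Sm (v + w) :=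
  ⟨fun k => (hv.1 k).add (hw.1 k), fun u => ⟨by simp only [Pi.add_apply, (hv.2 u).1, (hw.2 u).1],
    by simp only [Pi.add_apply, (hv.2 u).2, (hw.2 u).2]⟩⟩

lemma Sm.smul (r : ℝ) {v : P2 → V6} (hv : Sm v) : Sm (r • v) :=
  ⟨fun k => contDiff_const.mul (hv.1 k), fun u => ⟨by simp only [Pi.smul_apply, (hv.2 u).1],
    by simp only [Pi.smul_apply, (hv.2 u).2]⟩⟩

lemma Closed.zero : Closed (0 : P2 → V6) :=
  ⟨Sm.zero, fun _ _ => rfl, fun u => by simp, fun u => by simp⟩

lemma Closed.add {v w : P2 → V6} (hv : Closed v) (hw : Closed w) : Closed (v + w) := by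
  obtain ⟨sv, cv, av, bv⟩ := hv
  obtain ⟨sw, cw, aw', bw⟩ := hw
  have d : ∀ k u, DifferentiableAt ℝ (fun x => v x k) u ∧ DifferentiableAt ℝ (fun x => w x k) u :=
    fun k u => ⟨(sv.1 k).differentiable (by simp) u, (sw.1 k).differentiable (by simp) u⟩
  refine ⟨sv.add sw, fun u u' => by simp only [Pi.add_apply]; rw [cv u u', cw u u'], fun u => ?_,
    fun u => ?_⟩ <;>
    simp only [Pi.add_apply] <;>
    rw [fderiv_fun_add (d _ u).1 (d _ u).2, fderiv_fun_add (d _ u).1 (d _ u).2]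
  · simp [av u, aw' u]
  · simp [bv u, bw u]

lemma Closed.smul (r : ℝ) {v : P2 → V6} (hv : Closed v) : Closed (r • v) := by
  obtain ⟨sv, cv, av, bv⟩ := hv
  have d : ∀ k u, DifferentiableAt ℝ (fun x => v x k) u :=
    fun k u => (sv.1 k).differentiable (by simp) u
  refine ⟨sv.smul r, fun u u' => by simp only [Pi.smul_apply]; rw [cv u u'], fun u => ?_,
    fun u => ?_⟩ <;>
    simp only [Pi.smul_apply, smul_eq_mul] <;>
    rw [fderiv_const_mul (d _ u), fderiv_const_mul (d _ u)]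
  · simp [av u]
  · simp [bv u]

lemma dot_add_left (a b c : V6) : dot (a + b) c = dot a c + dot b c := by
  simp [dot, add_mul, Finset.sum_add_distrib]

lemma dot_smul_left (r : ℝ) (a c : V6) : dot (r • a) c = r * dot a c := by
  simp [dot, Finset.mul_sum, mul_assoc]

/-- The reference field. -/
noncomputable def refField (S : Str) : P2 → V6 := fun u => refForm (S.J u)

lemma refField_sm (S : Str) : Sm (refField S) := by
  refine ⟨fun k => ?_, fun u => ⟨by simp only [refField, (S.per u).1],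
    by simp only [refField, (S.per u).2]⟩⟩
  have := S.smooth
  fin_cases k <;>
    (simp [refField, refForm, crd, Matrix.mul_apply, Fin.sum_univ_four]; fun_prop)

lemma line_le {S : Str} {v : V6} {b : ℝ} (hb : ∀ i, |v i| ≤ b) (u : P2) (p : Fin 4 → ℝ) :
    |dot v (biv p (S.J u *ᵥ p))| ≤ 6 * b * gm (S.J u) p := by
  have hb0 : 0 ≤ b := (abs_nonneg (v 0)).trans (hb 0)
  have hg := gm_ge (S.J u) p
  have hk : ∀ k, |biv p (S.J u *ᵥ p) k| ≤ gm (S.J u) p := fun k => by
    refine abs_le_of_sq_le_sq ?_ ((n2_nonneg p).trans hg.1)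
    refine le_trans (Finset.single_le_sum (f := fun j => biv p (S.J u *ᵥ p) j ^ 2)
      (fun j _ => sq_nonneg _) (Finset.mem_univ k)) ((biv_norm_le _ _).trans ?_)
    rw [sq]
    exact mul_le_mul hg.1 hg.2 (n2_nonneg _) ((n2_nonneg p).trans hg.1)
  refine (Finset.abs_sum_le_sum_abs _ _).trans ?_
  refine (Finset.sum_le_card_nsmul _ _ (b * gm (S.J u) p) fun k _ => ?_).trans_eq ?_
  · rw [abs_mul]; exact mul_le_mul (hb k) (hk k) (abs_nonneg _) hb0
  · simp; ring

lemma exists_bound {v : P2 → V6} (hv : Sm v) : ∃ b, ∀ u i, |v u i| ≤ b := by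
  have h : ∀ i, ∃ b, ∀ u, |v u i| ≤ b := fun i => by
    obtain ⟨c, hc, e⟩ := exists_coeff_complex (Complex.ofRealCLM.contDiff.comp (hv.1 i))
      (fun u => ⟨by simp [(hv.2 u).1], by simp [(hv.2 u).2]⟩)
    refine ⟨(N 0 c).toReal, fun u => ?_⟩
    have := norm_evS_le (hc 0) u
    rw [congrFun e u] at this
    simpa using this
  choose b hb using h
  exact ⟨∑ i, |b i|, fun u i => ((hb i u).trans (le_abs_self _)).trans
    (Finset.single_le_sum (f := fun j => |b j|) (fun j _ => abs_nonneg _) (Finset.mem_univ i))⟩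

/-- The space of smooth periodic fields. -/
def smooths : Submodule ℝ (P2 → V6) where
  carrier := {v | Sm v}
  zero_mem' := Sm.zero
  add_mem' := Sm.add
  smul_mem' r _ hv := Sm.smul r hv

/-- The semipositive fields. -/
def semiCone (S : Str) : PointedCone ℝ smooths where
  carrier := {v | Semipos S v.1}
  zero_mem' := fun u p => by simp [dot]
  add_mem' := fun {a b} ha hb u p => by
    have : (↑(a + b) : P2 → V6) u = a.1 u + b.1 u := rfl
    rw [this, dot_add_left]
    exact add_nonneg (ha u p) (hb u p)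
  smul_mem' := fun r a ha u p => by
    have : (↑(r • a) : P2 → V6) u = (r : ℝ) • a.1 u := rfl
    rw [this, dot_smul_left]
    exact mul_nonneg r.2 (ha u p)

/-- The closed invariant fields. -/
def invariants (S : Str) : Submodule ℝ smooths where
  carrier := {v | Closed v.1 ∧ ∀ u, anti (S.J u) (v.1 u) = 0}
  zero_mem' := ⟨Closed.zero, fun u => by
    simpa using (anti_linear (S.J u)).2 0 0⟩
  add_mem' := fun {a b} ha hb => ⟨ha.1.add hb.1, fun u => by
    have : (↑(a + b) : P2 → V6) u = a.1 u + b.1 u := rfl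
    rw [this, (anti_linear _).1, ha.2, hb.2, add_zero]⟩
  smul_mem' := fun r a ha => ⟨ha.1.smul r, fun u => by
    have : (↑(r • a) : P2 → V6) u = r • a.1 u := rfl
    rw [this, (anti_linear _).2, ha.2, smul_zero]⟩

/-- The positive functional. -/
theorem exists_T (S : Str) (hK : ¬∃ w, Kahler S w) :
    ∃ g : smooths →ₗ[ℝ] ℝ, (∀ v, Semipos S v.1 → 0 ≤ g v) ∧
      g ⟨refField S, refField_sm S⟩ = 1 ∧ ∀ v ∈ invariants S, g v = 0 := by
  set R : smooths := ⟨refField S, refField_sm S⟩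
  have hR : R ∉ invariants S := fun h => hK ⟨refField S, h.1, h.2, fun u p hp => by
    rw [refField, ref_line (S.sq u)]
    exact (n2_pos hp).trans_le (gm_ge _ p).1⟩
  let f0 : smooths →ₗ.[ℝ] ℝ := ⟨invariants S, 0⟩
  let f := f0.supSpanSingleton R 1 hR
  have hnn : ∀ x : f.domain, (x : smooths) ∈ semiCone S → 0 ≤ f x := by
    rintro ⟨x, hx⟩ hxs
    obtain ⟨h, hh, y, hy, rfl⟩ := Submodule.mem_sup.1 hx
    obtain ⟨t, rfl⟩ := Submodule.mem_span_singleton.1 hy
    rw [LinearPMap.supSpanSingleton_apply_mk f0 R 1 hR h hh t]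
    simp only [f0, LinearMap.zero_apply, zero_add, RingHom.id_apply, smul_eq_mul, mul_one]
    change 0 ≤ (0 : ℝ) + t
    rw [zero_add]
    by_contra ht
    push Not at ht
    refine hK ⟨h.1, hh.1, hh.2, fun u p hp => ?_⟩
    have h0 := hxs u p
    have : (↑(h + t • R) : P2 → V6) u = h.1 u + t • refField S u := rfl
    rw [this, dot_add_left, dot_smul_left, refField, ref_line (S.sq u)] at h0
    have hg : 0 < gm (S.J u) p := (n2_pos hp).trans_le (gm_ge _ p).1
    nlinarith
  have hd : ∀ y, ∃ x : f.domain, (x : smooths) + y ∈ semiCone S := by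
    intro y
    obtain ⟨b, hb⟩ := exists_bound y.2
    refine ⟨⟨(6 * b) • R, Submodule.mem_sup_right (Submodule.mem_span_singleton.2 ⟨_, rfl⟩)⟩,
      fun u p => ?_⟩
    have : (↑((6 * b) • R + y) : P2 → V6) u = (6 * b) • refField S u + y.1 u := rfl
    rw [this, dot_add_left, dot_smul_left, refField, ref_line (S.sq u)]
    linarith [neg_abs_le (dot (y.1 u) (biv p (S.J u *ᵥ p))), line_le (S := S) (hb u) u p]
  obtain ⟨g, hg1, hg2⟩ := riesz_extension (semiCone S) f hnn hd
  refine ⟨g, fun v hv => hg2 v hv, ?_, fun v hv => ?_⟩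
  · rw [hg1 ⟨R, Submodule.mem_sup_right (Submodule.mem_span_singleton_self R)⟩]
    exact LinearPMap.supSpanSingleton_apply_self f0 1 hR
  · rw [hg1 ⟨v, Submodule.mem_sup_left hv⟩]
    exact LinearPMap.supSpanSingleton_apply_mk_of_mem f0 1 hR hv

lemma N_conv_le_pow (k : ℕ) (c d : Cf) : N k (conv c d) ≤ (2 : ℝ≥0∞) ^ k * (N k c * N k d) := by
  refine (N_conv_le k c d).trans ?_
  refine (Finset.sum_le_sum fun j hj => ?_ : _ ≤ ∑ j ∈ Finset.range (k + 1),
    (k.choose j : ℝ≥0∞) * (N k c * N k d)).trans_eq ?_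
  · gcongr
    · exact N_mono (Nat.lt_succ_iff.1 (Finset.mem_range.1 hj)) c
    · exact N_mono (Nat.sub_le k j) d
  · rw [← Finset.sum_mul, ← Nat.cast_sum, Nat.sum_range_choose]
    simp

lemma anti_coeff (S : Str) (k : ℕ) : ∃ C : ℝ, 0 ≤ C ∧ ∀ v : P2 → V6, Sm v → ∀ c : Fin 6 → Cf,
    (∀ i, Rapid (c i)) → (∀ i u, evS (c i) u = (v u i : ℂ)) →
    ∃ a : Fin 6 → Cf, (∀ i, Rapid (a i)) ∧
      (∀ i u, evS (a i) u = (anti (S.J u) (v u) i : ℂ)) ∧
      ∀ i, (N k (a i)).toReal ≤ C * ∑ j, (N k (c j)).toReal := by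
  refine ⟨∑ i, ∑ j, ((2 : ℝ≥0∞) ^ k * N k (S.projC j i)).toReal, by positivity,
    fun v _ c hc he => ?_⟩
  have hP := fun j i => (S.projC_spec j i).1
  refine ⟨fun i => ∑ j, conv (S.projC j i) (c j),
    fun i => rapid_sum _ fun j _ => rapid_conv (hP j i) (hc j), fun i u => ?_, fun i => ?_⟩
  · rw [evS_sum _ (fun j _ => rapid_conv (hP j i) (hc j)), anti_sum]
    push_cast
    refine Finset.sum_congr rfl fun j _ => ?_
    rw [evS_conv (hP j i 0) (hc j 0), (S.projC_spec j i).2, he]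
    rfl
  · have h1 : N k (∑ j, conv (S.projC j i) (c j)) ≤ ∑ j, N k (conv (S.projC j i) (c j)) := by
      simp only [N, Finset.sum_apply, ← Summable.tsum_finsetSum fun _ _ => ENNReal.summable]
      refine ENNReal.tsum_le_tsum fun n => ?_
      rw [← Finset.mul_sum]
      exact mul_le_mul' le_rfl (enorm_sum_le _ _)
    have h2 := h1.trans (Finset.sum_le_sum fun j _ => N_conv_le_pow k _ _)
    have ht : ∀ j, (2 : ℝ≥0∞) ^ k * (N k (S.projC j i) * N k (c j)) ≠ ⊤ := fun j =>
      ENNReal.mul_ne_top (by simp) (ENNReal.mul_ne_top (hP j i k) (hc j k))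
    refine (ENNReal.toReal_mono (ENNReal.sum_ne_top.2 fun j _ => ht j) h2).trans ?_
    rw [ENNReal.toReal_sum fun j _ => ht j, Finset.mul_sum]
    refine Finset.sum_le_sum fun j _ => ?_
    rw [← mul_assoc, ENNReal.toReal_mul]
    refine mul_le_mul_of_nonneg_right ?_ ENNReal.toReal_nonneg
    exact (Finset.single_le_sum (f := fun j => ((2 : ℝ≥0∞) ^ k * N k (S.projC j i)).toReal)
      (fun _ _ => ENNReal.toReal_nonneg) (Finset.mem_univ j)).trans
      (Finset.single_le_sum (f := fun i => ∑ j, ((2 : ℝ≥0∞) ^ k * N k (S.projC j i)).toReal)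
        (fun _ _ => Finset.sum_nonneg fun _ _ => ENNReal.toReal_nonneg) (Finset.mem_univ i))

/-- The functional and its correction. -/
theorem exists_fun (S : Str) (hR : RightInverseSpec S) (hK : ¬∃ w, Kahler S w) :
    Nonempty (Fun S) := by
  classical
  obtain ⟨g, gpos, gref, ginv⟩ := exists_T S hK
  let T : (P2 → V6) → ℝ := fun v => if h : Sm v then g ⟨v, h⟩ else 0
  have eT : ∀ v (h : Sm v), T v = g ⟨v, h⟩ := fun v h => dif_pos h
  have Tadd : ∀ {v w : P2 → V6}, Sm v → Sm w → T (v + w) = T v + T w := fun {v w} hv hw => by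
    rw [eT _ hv, eT _ hw, eT _ (hv.add hw), ← map_add]; rfl
  have Tsmul : ∀ (r : ℝ) {v : P2 → V6}, Sm v → T (r • v) = r * T v := fun r {v} hv => by
    rw [eT _ hv, eT _ (hv.smul r), ← smul_eq_mul, ← map_smul]; rfl
  have Tpos : ∀ {v}, Sm v → Semipos S v → 0 ≤ T v := fun {v} hv hp => by
    rw [eT _ hv]; exact gpos _ hp
  have Tref : T (refField S) = 1 := by rw [eT _ (refField_sm S)]; exact gref
  have Tanti : ∀ {v}, Sm v → T (fun u => anti (S.J u) (v u)) = 0 := fun {v} hv => by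
    have h1 := Tpos (hv.antiPart S) fun u p => (line_anti (S.sq u) (v u) p).ge
    have h2 := Tpos ((hv.antiPart S).smul (-1)) fun u p => by
      simp only [Pi.smul_apply]
      rw [dot_smul_left, line_anti (S.sq u) (v u) p]; simp
    rw [Tsmul (-1) (hv.antiPart S)] at h2
    linarith
  have Tbound : ∀ {v}, Sm v → ∀ b : ℝ, (∀ u i, |v u i| ≤ b) → |T v| ≤ 6 * b := fun {v} hv b hb => by
    have key : ∀ s : ℝ, |s| = 1 → 0 ≤ 6 * b + s * T v := fun s hs => by
      have h := Tpos (((refField_sm S).smul (6 * b)).add (hv.smul s)) fun u p => by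
        simp only [Pi.add_apply, Pi.smul_apply]
        rw [dot_add_left, dot_smul_left, dot_smul_left, refField, ref_line (S.sq u)]
        have := line_le (S := S) (hb u) u p
        have e : |s * dot (v u) (biv p (S.J u *ᵥ p))| = |dot (v u) (biv p (S.J u *ᵥ p))| := by
          rw [abs_mul, hs, one_mul]
        linarith [neg_abs_le (s * dot (v u) (biv p (S.J u *ᵥ p)))]
      rwa [Tadd ((refField_sm S).smul _) (hv.smul s), Tsmul _ (refField_sm S), Tref, mul_one,
        Tsmul s hv] at h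
    rw [abs_le]
    constructor
    · linarith [key 1 abs_one]
    · linarith [key (-1) (by simp)]
  obtain ⟨C0, k, hC0⟩ := hR
  have coeff : ∀ {v : P2 → V6}, Sm v → ∀ i : Fin 6,
      ∃ c : Cf, Rapid c ∧ ∀ u, evS c u = (v u i : ℂ) := fun {v} hv i => by
    obtain ⟨c, hc, e⟩ := exists_coeff_complex (Complex.ofRealCLM.contDiff.comp (hv.1 i))
      (fun u => ⟨by simp [(hv.2 u).1], by simp [(hv.2 u).2]⟩)
    exact ⟨c, hc, fun u => congrFun e u⟩
  have hη : ∀ v : P2 → V6, ∃ η, Sm v → Closed η ∧ ∀ u, anti (S.J u) (η u) = anti (S.J u) (v u) := by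
    intro v
    by_cases hv : Sm v
    · choose c hc he using coeff (hv.antiPart S)
      obtain ⟨η, h1, h2, -⟩ := hC0 _ (hv.antiPart S) (fun u => anti_anti (S.sq u) _) c hc he
      exact ⟨η, fun _ => ⟨h1, h2⟩⟩
    · exact ⟨0, fun h => absurd h hv⟩
  choose η hη using hη
  let Φ : (P2 → V6) → ℝ := fun v => -T (η v)
  have uniq : ∀ {v ζ : P2 → V6}, Sm v → Closed ζ →
      (∀ u, anti (S.J u) (ζ u) = anti (S.J u) (v u)) → Φ v = -T ζ := by
    intro v ζ hv hζ ha
    obtain ⟨h1, h2⟩ := hη v hv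
    have hd : Closed (η v + (-1 : ℝ) • ζ) := h1.add (hζ.smul _)
    have h0 : T (η v + (-1 : ℝ) • ζ) = 0 := by
      rw [eT _ hd.1]
      refine ginv _ ⟨hd, fun u => ?_⟩
      show anti (S.J u) (η v u + (-1 : ℝ) • ζ u) = 0
      rw [(anti_linear _).1, (anti_linear _).2, h2, ha]
      simp
    rw [Tadd h1.1 (hζ.1.smul _), Tsmul _ hζ.1] at h0
    simp only [Φ]
    linarith
  have Φsmul : ∀ (r : ℝ) {v : P2 → V6}, Sm v → Φ (r • v) = r * Φ v := fun r {v} hv => by
    obtain ⟨h1, h2⟩ := hη v hv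
    rw [uniq (hv.smul r) (h1.smul r) fun u => by
      simp only [Pi.smul_apply]; rw [(anti_linear _).2, (anti_linear _).2, h2], Tsmul r h1.1]
    simp only [Φ]; ring
  obtain ⟨Cp, hCp, hcoef⟩ := anti_coeff S k
  set D := 2 * (6 * |C0| * (1 + 6 * Cp ^ 2))
  have Φbound : ∀ {v}, Sm v → ∀ c : Fin 6 → Cf, (∀ i, Rapid (c i)) →
      (∀ i u, evS (c i) u = (v u i : ℂ)) → |Φ v| ≤ D * ∑ i, (N k (c i)).toReal := by
    intro v hv c hc he
    set s := ∑ i, (N k (c i)).toReal
    have hs0 : 0 ≤ s := Finset.sum_nonneg fun _ _ => ENNReal.toReal_nonneg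
    have affine : ∀ r : ℝ, 0 ≤ r →
        r * |Φ v| ≤ 6 * |C0| * (1 + 6 * Cp ^ 2) * (1 + (r * s) ^ 2) := by
      intro r hr
      obtain ⟨a, ha, hae, haN⟩ := hcoef v hv c hc he
      have hrv := (hv.smul r).antiPart S
      obtain ⟨ζ, z1, z2, z3⟩ := hC0 _ hrv (fun u => anti_anti (S.sq u) _) (fun i => (r : ℂ) • a i)
        (fun i => rapid_smul _ (ha i)) fun i u => by
          rw [evS_smul, hae]
          simp only [Pi.smul_apply, (anti_linear _).2, smul_eq_mul]
          push_cast; rfl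
      have hb := Tbound z1.1 _ z3
      rw [← abs_of_nonneg hr, ← abs_mul, ← Φsmul r hv, uniq (hv.smul r) z1 z2, abs_neg]
      refine hb.trans ?_
      have hN : ∀ j, (N k ((r : ℂ) • a j)).toReal ≤ r * (Cp * s) := fun j => by
        rw [N_smul, ENNReal.toReal_mul, toReal_enorm, Complex.norm_real, Real.norm_eq_abs,
          abs_of_nonneg hr]
        exact mul_le_mul_of_nonneg_left (haN j) hr
      have hsum : ∑ j, (N k ((r : ℂ) • a j)).toReal ^ 2 ≤ 6 * (r * (Cp * s)) ^ 2 :=
        (Finset.sum_le_card_nsmul _ _ _ fun j _ =>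
          pow_le_pow_left₀ ENNReal.toReal_nonneg (hN j) 2).trans_eq (by simp)
      have h1 : C0 * (1 + ∑ j, (N k ((r : ℂ) • a j)).toReal ^ 2) ≤
          |C0| * (1 + 6 * (r * (Cp * s)) ^ 2) :=
        mul_le_mul (le_abs_self C0) (by linarith) (by positivity) (abs_nonneg _)
      rw [abs_of_nonneg hr]
      nlinarith [mul_nonneg (abs_nonneg C0) (sq_nonneg Cp),
        mul_nonneg (abs_nonneg C0) (sq_nonneg (r * s))]
    rcases hs0.eq_or_lt with h | h
    · have hv0 : v = 0 := by
        funext u i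
        have h1 : (N k (c i)).toReal = 0 :=
          (Finset.sum_eq_zero_iff_of_nonneg fun _ _ => ENNReal.toReal_nonneg).1 h.symm i
            (Finset.mem_univ i)
        have h2 := norm_evS_le (hc i 0) u
        rw [he] at h2
        have h3 := ENNReal.toReal_mono (hc i k) (N_mono (Nat.zero_le k) (c i))
        rw [Complex.norm_real, Real.norm_eq_abs] at h2
        simpa using abs_eq_zero.1 (le_antisymm (by linarith) (abs_nonneg (v u i)))
      have hz : Φ v = 0 := by
        rw [hv0, show (0 : P2 → V6) = (0 : ℝ) • (0 : P2 → V6) by simp, Φsmul 0 Sm.zero, zero_mul]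
      rw [hz, abs_zero, ← h, mul_zero]
    · have := affine (1 / s) (by positivity)
      rw [one_div, inv_mul_cancel₀ h.ne', inv_mul_eq_div, div_le_iff₀ h] at this
      refine this.trans_eq ?_
      simp only [D]; ring
  refine ⟨{
    T := T, Φ := Φ, C := max 6 D, k := k
    C_nonneg := le_trans (by norm_num) (le_max_left _ _)
    T_add := Tadd, T_smul := Tsmul, T_nonneg := Tpos, T_ref := Tref
    T_bound := fun hv b hb => (Tbound hv b hb).trans (mul_le_mul_of_nonneg_right (le_max_left _ _)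
      ((abs_nonneg _).trans (hb 0 0)))
    T_anti := Tanti
    Φ_add := fun {v w} hv hw => ?_
    Φ_smul := Φsmul
    Φ_anti := fun {v} hv => ?_
    Φ_bound := fun hv c hc he => (Φbound hv c hc he).trans (mul_le_mul_of_nonneg_right
      (le_max_right _ _) (Finset.sum_nonneg fun _ _ => ENNReal.toReal_nonneg))
    closed_zero := fun {v} hv => ?_ }⟩
  · obtain ⟨a1, a2⟩ := hη v hv
    obtain ⟨b1, b2⟩ := hη w hw
    rw [uniq (hv.add hw) (a1.add b1) fun u => by
      simp only [Pi.add_apply]; rw [(anti_linear _).1, (anti_linear _).1, a2, b2], Tadd a1.1 b1.1]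
    simp only [Φ]; ring
  · obtain ⟨a1, a2⟩ := hη v hv
    exact uniq (hv.antiPart S) a1 fun u => by rw [a2, anti_anti (S.sq u)]
  · rw [uniq hv.1 hv fun _ => rfl]; ring

/-- A taming closed field is strictly positive on the functional. -/
theorem Fun.taming_ne {S : Str} (X : Fun S) {w : P2 → V6} (hw : Closed w)
    (hp : ∀ u v, v ≠ 0 → 0 < dot (w u) (biv v (S.J u *ᵥ v))) : X.Φ w ≠ 0 := by
  intro h0
  have hT : X.T w = 0 := by linarith [X.closed_zero hw]
  let K : Set (P2 × (Fin 4 → ℝ)) := Set.Icc (0, 0) (1, 1) ×ˢ {p | n2 p = 1}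
  have hS : IsCompact {p : Fin 4 → ℝ | n2 p = 1} := by
    refine (isCompact_Icc (a := fun _ => (-1 : ℝ)) (b := fun _ => (1 : ℝ))).of_isClosed_subset
      (isClosed_eq (by unfold n2; fun_prop) continuous_const) fun z hz => ?_
    have h1 : ∀ k, z k ^ 2 ≤ 1 := fun k => (Finset.single_le_sum (f := fun k => z k ^ 2)
      (fun j _ => sq_nonneg _) (Finset.mem_univ k)).trans_eq hz
    exact ⟨fun k => (abs_le.1 ((sq_le_one_iff_abs_le_one _).1 (h1 k))).1,
      fun k => (abs_le.1 ((sq_le_one_iff_abs_le_one _).1 (h1 k))).2⟩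
  have hne : K.Nonempty := ⟨((0, 0), Pi.single 0 1), ⟨⟨le_rfl, ⟨zero_le_one, zero_le_one⟩⟩, by
    simp [n2, Pi.single_apply, Fin.sum_univ_four]⟩⟩
  let f : P2 × (Fin 4 → ℝ) → ℝ := fun x =>
    dot (w x.1) (biv x.2 (S.J x.1 *ᵥ x.2)) / gm (S.J x.1) x.2
  have hwc : ∀ k, Continuous fun x : P2 × (Fin 4 → ℝ) => w x.1 k :=
    fun k => (hw.1.1 k).continuous.comp continuous_fst
  have hJc : ∀ a b, Continuous fun x : P2 × (Fin 4 → ℝ) => S.J x.1 a b :=
    fun a b => (S.smooth a b).continuous.comp continuous_fst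
  have hcd : Continuous fun x : P2 × (Fin 4 → ℝ) =>
      dot (w x.1) (biv x.2 (S.J x.1 *ᵥ x.2)) := by
    simp only [dot]
    refine continuous_finsetSum _ fun k _ => (hwc k).mul ?_
    fin_cases k <;> simp [biv, Matrix.mulVec, dotProduct, Fin.sum_univ_four] <;> fun_prop
  have hcg : Continuous fun x : P2 × (Fin 4 → ℝ) => gm (S.J x.1) x.2 := by
    simp [gm, n2, Matrix.mulVec, dotProduct, Fin.sum_univ_four]
    fun_prop
  have hg : ∀ x ∈ K, gm (S.J x.1) x.2 ≠ 0 := fun x hx =>
    (lt_of_lt_of_le (by rw [hx.2]; norm_num) (gm_ge (S.J x.1) x.2).1).ne'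
  obtain ⟨x0, hx0, hmin⟩ := (isCompact_Icc.prod hS).exists_isMinOn hne
    (hcd.continuousOn.div hcg.continuousOn hg : ContinuousOn f K)
  set δ := f x0
  have hδ : 0 < δ := by
    have h1 : x0.2 ≠ 0 := fun h => by
      have := hx0.2
      simp [h, n2] at this
    exact div_pos (hp _ _ h1) ((n2_pos h1).trans_le (gm_ge _ _).1)
  have hs : Semipos S (w + (-δ) • refField S) := by
    intro u p
    simp only [Pi.add_apply, Pi.smul_apply]
    rw [dot_add_left, dot_smul_left, refField, ref_line (S.sq u)]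
    by_cases hp0 : p = 0
    · subst hp0; simp [dot, biv, gm, n2, Fin.sum_univ_six]
    set u' : P2 := (Int.fract u.1, Int.fract u.2)
    have hper : ∀ {β : Type} (F : P2 → β), Periodic2 (1, 0) (0, 1) F → F u = F u' := by
      intro β F hF
      have h1 : ∀ (a : ℤ) v, F (v + ((a : ℝ), 0)) = F v := fun a v => by
        have hq : Function.Periodic (fun t : ℝ => F (v + (t, 0))) 1 := fun t => by
          dsimp only
          rw [← (hF (v + (t, 0))).1]
          congr 1
          ext <;> simp; ring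
        have := hq.int_mul a 0
        simpa [← Prod.zero_eq_mk] using this
      have h2 : ∀ (a : ℤ) v, F (v + (0, (a : ℝ))) = F v := fun a v => by
        have hq : Function.Periodic (fun t : ℝ => F (v + (0, t))) 1 := fun t => by
          dsimp only
          rw [← (hF (v + (0, t))).2]
          congr 1
          ext <;> simp; ring
        have := hq.int_mul a 0
        simpa [← Prod.zero_eq_mk] using this
      rw [← h1 ⌊u.1⌋ u', ← h2 ⌊u.2⌋ (u' + ((⌊u.1⌋ : ℝ), 0))]
      congr 1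
      ext <;> simp [u', Int.fract_add_floor]
    rw [hper w hw.1.2, hper S.J S.per]
    set s := Real.sqrt (n2 p)
    have hn := n2_pos hp0
    have hs2 : s ^ 2 = n2 p := Real.sq_sqrt hn.le
    have hs0 : 0 < s := Real.sqrt_pos.2 hn
    have hx : (u', s⁻¹ • p) ∈ K := by
      refine ⟨⟨⟨Int.fract_nonneg _, Int.fract_nonneg _⟩,
        ⟨(Int.fract_lt_one _).le, (Int.fract_lt_one _).le⟩⟩, ?_⟩
      show n2 (s⁻¹ • p) = 1
      simp only [n2, Pi.smul_apply, smul_eq_mul, mul_pow, ← Finset.mul_sum]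
      rw [show (∑ i, p i ^ 2) = s ^ 2 from hs2.symm, inv_pow]
      exact inv_mul_cancel₀ (by positivity)
    have h := hmin hx
    have e1 : dot (w u') (biv (s⁻¹ • p) (S.J u' *ᵥ (s⁻¹ • p))) =
        s⁻¹ ^ 2 * dot (w u') (biv p (S.J u' *ᵥ p)) := by
      rw [Matrix.mulVec_smul]; simp [dot, biv, Fin.sum_univ_six]; ring
    have e2 : gm (S.J u') (s⁻¹ • p) = s⁻¹ ^ 2 * gm (S.J u') p := by
      rw [gm, gm, Matrix.mulVec_smul]; simp [n2, Fin.sum_univ_four]; ring
    simp only [Set.mem_ofPred_eq, Pi.div_apply, f] at h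
    rw [e1, e2, mul_div_mul_left _ _ (by positivity)] at h
    have hgp : 0 < gm (S.J u') p := hn.trans_le (gm_ge _ _).1
    rw [le_div_iff₀ hgp] at h
    change 0 ≤ dot (w u') (biv p (S.J u' *ᵥ p)) + -δ * gm (S.J u') p
    linarith
  have := X.T_nonneg (hw.1.add ((refField_sm S).smul (-δ))) hs
  rw [X.T_add hw.1 ((refField_sm S).smul _), X.T_smul _ (refField_sm S), hT,
    show X.T (refField S) = 1 from X.T_ref] at this
  linarith

end Vale.Agent.P204.Inv
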