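import Vale.Agent.P204.Inv.Defs

/-! The squared triangle kernel and the Jackson kernels (P204). -/

namespace Vale.Agent.P204.Inv

open Finset

/-- The character `r ↦ exp (2 π i n r)`. -/
noncomputable def ee (r : ℝ) (n : ℤ) : ℂ :=
  Complex.exp ((2 * Real.pi * n * r : ℝ) * Complex.I)

theorem ee_add (r : ℝ) (a b : ℤ) : ee r (a + b) = ee r a * ee r b := by
  rw [ee, ee, ee, ← Complex.exp_add]
  congr 1
  push_cast
  ring

theorem ee_zero (r : ℝ) : ee r 0 = 1 := by simp [ee]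

theorem norm_ee (r : ℝ) (n : ℤ) : ‖ee r n‖ = 1 := Complex.norm_exp_ofReal_mul_I _

theorem conj_ee (r : ℝ) (n : ℤ) : (starRingEnd ℂ) (ee r n) = ee r (-n) := by
  rw [ee, ee, ← Complex.exp_conj, map_mul, Complex.conj_ofReal, Complex.conj_I]
  congr 1
  push_cast
  ring

theorem ee_nat (r : ℝ) (a : ℕ) : ee r a = ee r 1 ^ a := by
  induction a with
  | zero => simp [ee_zero]
  | succ a ih => rw [Nat.cast_succ, ee_add, ih, pow_succ]

theorem ee_second (r : ℝ) :
    ee r 1 + ee r (-1) - 2 = ((-4 * Real.sin (Real.pi * r) ^ 2 : ℝ) : ℂ) := by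
  rw [← conj_ee, Complex.add_conj]
  have h : (ee r 1).re = 1 - 2 * Real.sin (Real.pi * r) ^ 2 := by
    rw [ee, Complex.exp_ofReal_mul_I_re,
      show 2 * Real.pi * ((1 : ℤ) : ℝ) * r = 2 * (Real.pi * r) by push_cast; ring,
      Real.cos_two_mul, Real.cos_sq']
    ring
  rw [h]
  push_cast
  ring

theorem norm_ee_one_sub (r : ℝ) : ‖ee r 1 - 1‖ = 2 * |Real.sin (Real.pi * r)| := by
  have h : ‖ee r 1 - 1‖ ^ 2 = (2 * |Real.sin (Real.pi * r)|) ^ 2 := by
    have e := ee_second r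
    rw [← conj_ee, Complex.add_conj] at e
    have h2 : 2 * (ee r 1).re - 2 = -4 * Real.sin (Real.pi * r) ^ 2 := by
      exact_mod_cast e
    have h3 : (ee r 1).re ^ 2 + (ee r 1).im ^ 2 = 1 := by
      have h4 := Complex.sq_norm (ee r 1)
      rw [norm_ee, Complex.normSq_apply] at h4
      linear_combination -h4
    rw [Complex.sq_norm, Complex.normSq_apply, mul_pow, sq_abs]
    simp only [Complex.sub_re, Complex.sub_im, Complex.one_re, Complex.one_im, sub_zero]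
    linear_combination h3 - h2
  nlinarith [h, norm_nonneg (ee r 1 - 1), abs_nonneg (Real.sin (Real.pi * r))]

theorem sum_shift {M : Type*} [AddCommMonoid M] (I : Finset ℤ) (L i : ℤ) (f : ℤ → M)
    (hI : ∀ j ∈ I, -L ≤ j - i ∧ j - i ≤ L) :
    ∑ n ∈ Icc (-L) L, (if i + n ∈ I then f n else 0) = ∑ j ∈ I, f (j - i) := by
  rw [← sum_filter]
  refine sum_bij' (fun n _ => i + n) (fun j _ => j - i) ?_ ?_ ?_ ?_ ?_
  · intro a ha
    exact (mem_filter.1 ha).2
  · intro j hj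
    simp only [mem_filter, mem_Icc]
    exact ⟨hI j hj, by rwa [add_sub_cancel]⟩
  · intros; ring
  · intros; ring
  · intro a _
    rw [add_sub_cancel_left]

/-- The number of `i` in `[0, N)` with `i + n` in `[0, N)`. -/
noncomputable def overlap (N : ℕ) (n : ℤ) : ℕ :=
  ((Ico (0 : ℤ) N).filter fun i => i + n ∈ Ico (0 : ℤ) N).card

theorem overlap_eq (N : ℕ) (n : ℤ) : (overlap N n : ℤ) = max 0 ((N : ℤ) - |n|) := by
  have h : ((Ico (0 : ℤ) N).filter fun i => i + n ∈ Ico (0 : ℤ) N) =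
      Ico (max 0 (-n)) (min (N : ℤ) (N - n)) := by
    ext i
    simp only [mem_filter, mem_Ico]
    omega
  rw [overlap, h, Int.card_Ico]
  rcases abs_cases n with ⟨e, _⟩ | ⟨e, _⟩ <;> rw [e] <;> omega

theorem tri_eq {N : ℕ} (hN : 1 ≤ N) (n : ℤ) : tri N n = (overlap N n : ℝ) / N := by
  have hN' : (0 : ℝ) < N := by exact_mod_cast hN
  have h : ((overlap N n : ℤ) : ℝ) = max 0 ((N : ℝ) - |(n : ℝ)|) := by
    rw [overlap_eq]; push_cast; rfl
  rw [tri, show (overlap N n : ℝ) = ((overlap N n : ℤ) : ℝ) by norm_cast, h,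
    ← max_div_div_right hN'.le, zero_div, sub_div, div_self hN'.ne']

theorem overlap_sq_sum (N : ℕ) (r : ℝ) :
    ∑ n ∈ Icc (-(N : ℤ)) N, ((overlap N n : ℂ) ^ 2) * ee r n =
      ∑ d ∈ Icc (-(N : ℤ)) N,
        ((‖∑ i ∈ (Ico (0 : ℤ) N).filter (fun i => i + d ∈ Ico (0 : ℤ) N), ee r i‖ ^ 2 : ℝ) : ℂ) := by
  have hI : ∀ i ∈ Ico (0 : ℤ) N, ∀ j ∈ Ico (0 : ℤ) N, -(N : ℤ) ≤ j - i ∧ j - i ≤ N := by
    intro i hi j hj
    simp only [mem_Ico] at hi hj
    omega
  generalize hII : Ico (0 : ℤ) N = I at *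
  have hL : ∀ n, ((overlap N n : ℂ) ^ 2) * ee r n =
      ∑ i ∈ I, ∑ j ∈ I, (if i + n ∈ I then (if j + n ∈ I then ee r n else 0) else 0) := by
    intro n
    rw [overlap, hII, card_filter, Nat.cast_sum, sq, sum_mul_sum, sum_mul]
    refine sum_congr rfl fun i _ => ?_
    rw [sum_mul]
    refine sum_congr rfl fun j _ => ?_
    split_ifs <;> simp
  have hR : ∀ d, ((‖∑ i ∈ I.filter (fun i => i + d ∈ I), ee r i‖ ^ 2 : ℝ) : ℂ) =
      ∑ i ∈ I, ∑ k ∈ I, (if i + d ∈ I then (if k + d ∈ I then ee r (k - i) else 0) else 0) := by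
    intro d
    rw [Complex.ofReal_pow, ← Complex.conj_mul', map_sum, sum_filter, sum_filter, sum_mul_sum]
    refine sum_congr rfl fun i _ => sum_congr rfl fun k _ => ?_
    rw [conj_ee, show k - i = -i + k by ring, ee_add]
    split_ifs <;> simp
  rw [sum_congr rfl fun n _ => hL n, sum_congr rfl fun d _ => hR d, sum_comm]
  conv_rhs => rw [sum_comm]
  refine sum_congr rfl fun i hi => ?_
  rw [sum_comm]
  conv_rhs => rw [sum_comm]
  rw [sum_congr rfl fun j _ => sum_shift I N i (fun n => if j + n ∈ I then ee r n else 0)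
    (hI i hi)]
  rw [sum_congr rfl fun k _ => sum_shift I N i (fun d => if k + d ∈ I then ee r (k - i) else 0)
    (hI i hi)]
  rw [sum_comm]
  refine sum_congr rfl fun k _ => sum_congr rfl fun j _ => ?_
  rw [show j + (k - i) = k + (j - i) by ring]

/-- The squared triangle kernel. -/
noncomputable def sqKer (N : ℕ) (r : ℝ) : ℝ :=
  (∑ d ∈ Icc (-(N : ℤ)) N,
    ‖∑ i ∈ (Ico (0 : ℤ) N).filter (fun i => i + d ∈ Ico (0 : ℤ) N), ee r i‖ ^ 2) / (N : ℝ) ^ 2

theorem ker1_tri {N : ℕ} (hN : 1 ≤ N) (r : ℝ) :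
    ker1 (fun n => tri N n ^ 2) N r = (sqKer N r : ℂ) := by
  rw [sqKer, Complex.ofReal_div, Complex.ofReal_sum, ← overlap_sq_sum, sum_div, ker1]
  refine sum_congr rfl fun n _ => ?_
  rw [tri_eq hN, ee]
  push_cast
  ring

theorem sum_trans {c : ℤ → ℂ} {L : ℤ} (hc : ∀ n, c n ≠ 0 → -L ≤ n ∧ n ≤ L) (k : ℤ) (hk : |k| ≤ 1)
    (r : ℝ) :
    ee r k * ∑ n ∈ Icc (-L) L, c n * ee r n =
      ∑ n ∈ Icc (-(L + 1)) (L + 1), c (n - k) * ee r n := by
  rw [abs_le] at hk
  rw [mul_sum]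
  have h : ∑ n ∈ Icc (-L) L, ee r k * (c n * ee r n) =
      ∑ n ∈ Icc (-L + k) (L + k), c (n - k) * ee r n := by
    refine sum_bij' (fun n _ => n + k) (fun n _ => n - k) ?_ ?_ ?_ ?_ ?_
    · intro a ha
      simp only [mem_Icc] at ha ⊢
      omega
    · intro a ha
      simp only [mem_Icc] at ha ⊢
      omega
    · intros; ring
    · intros; ring
    · intro a _
      rw [add_sub_cancel_right, ee_add]
      ring
  rw [h]
  refine sum_subset (Icc_subset_Icc (by omega) (by omega)) fun n _ hn => ?_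
  by_contra hne
  obtain ⟨h1, h2⟩ := hc _ (left_ne_zero_of_mul hne)
  exact hn (mem_Icc.2 ⟨by omega, by omega⟩)

theorem tri_sq_diff {N : ℕ} (hN : 1 ≤ N) (n : ℤ) :
    |tri N (n - 1) ^ 2 + tri N (n + 1) ^ 2 - 2 * tri N n ^ 2| ≤
      2 / (N : ℝ) ^ 2 + if n = 0 then 4 / (N : ℝ) else 0 := by
  have hN' : (1 : ℝ) ≤ N := by exact_mod_cast hN
  have e : ∀ m, (N : ℝ) * tri N m = ((max 0 ((N : ℤ) - |m|) : ℤ) : ℝ) := by
    intro m
    rw [tri_eq hN, ← overlap_eq]
    field_simp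
    norm_cast
  have key : |((N : ℝ) * tri N (n - 1)) ^ 2 + ((N : ℝ) * tri N (n + 1)) ^ 2 -
      2 * ((N : ℝ) * tri N n) ^ 2| ≤ 2 + if n = 0 then 4 * (N : ℝ) else 0 := by
    rw [e, e, e]
    by_cases h0 : n = 0
    · subst h0
      rw [show max (0 : ℤ) ((N : ℤ) - |0 - 1|) = N - 1 by norm_num; omega,
        show max (0 : ℤ) ((N : ℤ) - |0 + 1|) = N - 1 by norm_num; omega,
        show max (0 : ℤ) ((N : ℤ) - |0|) = N by norm_num]
      simp only [if_true]
      push_cast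
      rw [abs_le]
      constructor <;> nlinarith
    · simp only [h0, if_false, add_zero]
      have hz : |max (0 : ℤ) ((N : ℤ) - |n - 1|) ^ 2 + max (0 : ℤ) ((N : ℤ) - |n + 1|) ^ 2 -
          2 * max (0 : ℤ) ((N : ℤ) - |n|) ^ 2| ≤ 2 := by
        rcases lt_or_gt_of_ne h0 with hn | hn
        · rw [abs_of_neg hn, abs_of_nonpos (show n + 1 ≤ 0 by omega),
            abs_of_neg (show n - 1 < 0 by omega)]
          rcases lt_trichotomy (-n) N with h | h | h
          · rw [max_eq_right (by omega), max_eq_right (by omega), max_eq_right (by omega)]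
            exact le_of_eq (by rw [abs_eq (by norm_num)]; left; ring)
          · rw [max_eq_left (show (N : ℤ) - -(n - 1) ≤ 0 by omega),
              show (N : ℤ) - -(n + 1) = 1 by omega, show (N : ℤ) - -n = 0 by omega]
            norm_num
          · rw [max_eq_left (by omega), max_eq_left (by omega), max_eq_left (by omega)]
            norm_num
        · rw [abs_of_pos hn, abs_of_nonneg (show (0 : ℤ) ≤ n - 1 by omega),
            abs_of_pos (show 0 < n + 1 by omega)]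
          rcases lt_trichotomy n (N : ℤ) with h | h | h
          · rw [max_eq_right (by omega), max_eq_right (by omega), max_eq_right (by omega)]
            exact le_of_eq (by rw [abs_eq (by norm_num)]; left; ring)
          · rw [max_eq_left (show (N : ℤ) - (n + 1) ≤ 0 by omega),
              show (N : ℤ) - (n - 1) = 1 by omega, show (N : ℤ) - n = 0 by omega]
            norm_num
          · rw [max_eq_left (by omega), max_eq_left (by omega), max_eq_left (by omega)]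
            norm_num
      exact_mod_cast hz
  have hsq : (0 : ℝ) < (N : ℝ) ^ 2 := by positivity
  rw [show tri N (n - 1) ^ 2 + tri N (n + 1) ^ 2 - 2 * tri N n ^ 2 =
    (((N : ℝ) * tri N (n - 1)) ^ 2 + ((N : ℝ) * tri N (n + 1)) ^ 2 -
      2 * ((N : ℝ) * tri N n) ^ 2) / (N : ℝ) ^ 2 by field_simp, abs_div, abs_of_pos hsq,
    div_le_iff₀ hsq]
  refine key.trans (le_of_eq ?_)
  split_ifs <;> field_simp <;> ring

theorem tri_bounds {N : ℕ} (hN : 1 ≤ N) (r : ℝ) : ∃ x : ℝ, 0 ≤ x ∧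
    ker1 (fun n => tri N n ^ 2) N r = (x : ℂ) ∧ x ≤ 4 * N ∧
    x * Real.sin (Real.pi * r) ^ 2 ≤ 4 / N := by
  have hN' : (1 : ℝ) ≤ N := by exact_mod_cast hN
  have hx := ker1_tri hN r
  have hx0 : 0 ≤ sqKer N r := by rw [sqKer]; positivity
  refine ⟨sqKer N r, hx0, hx, ?_, ?_⟩
  · have h : ‖(sqKer N r : ℂ)‖ ≤ ∑ _n ∈ Icc (-(N : ℤ)) N, (1 : ℝ) := by
      rw [← hx, ker1]
      refine norm_sum_le_of_le _ fun n _ => ?_
      rw [norm_mul, Complex.norm_exp_ofReal_mul_I, mul_one, Complex.norm_real, Real.norm_eq_abs,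
        abs_of_nonneg (sq_nonneg _)]
      have h1 : 0 ≤ tri N n := le_max_left _ _
      have h2 : tri N n ≤ 1 := max_le zero_le_one (sub_le_self _ (by positivity))
      nlinarith
    rw [Complex.norm_real, Real.norm_eq_abs, abs_of_nonneg hx0, sum_const, Int.card_Icc,
      show ((N : ℤ) + 1 - -(N : ℤ)).toNat = 2 * N + 1 by omega, nsmul_eq_mul, mul_one] at h
    push_cast at h
    linarith
  · have hc : ∀ n : ℤ, ((tri N n ^ 2 : ℝ) : ℂ) ≠ 0 → -(N : ℤ) ≤ n ∧ n ≤ N := by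
      intro n hn
      by_contra hcon
      refine hn ?_
      have : overlap N n = 0 := by
        have := overlap_eq N n
        rcases abs_cases n with ⟨e, _⟩ | ⟨e, _⟩ <;> omega
      simp [tri_eq hN, this]
    have h1 := sum_trans hc 1 (by norm_num) r
    have h2 := sum_trans hc (-1) (by norm_num) r
    have h0 := sum_trans hc 0 (by norm_num) r
    rw [ee_zero, one_mul] at h0
    have hk : ∑ n ∈ Icc (-(N : ℤ)) N, ((tri N n ^ 2 : ℝ) : ℂ) * ee r n = (sqKer N r : ℂ) := hx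
    have key : ((-4 * Real.sin (Real.pi * r) ^ 2 * sqKer N r : ℝ) : ℂ) =
        ∑ n ∈ Icc (-((N : ℤ) + 1)) ((N : ℤ) + 1),
          ((tri N (n - 1) ^ 2 + tri N (n + 1) ^ 2 - 2 * tri N n ^ 2 : ℝ) : ℂ) * ee r n := by
      rw [Complex.ofReal_mul, ← ee_second, ← hk, sub_mul, add_mul, h1, h2, h0, mul_sum,
        ← sum_add_distrib, ← sum_sub_distrib]
      refine sum_congr rfl fun n _ => ?_
      rw [show n - -1 = n + 1 by ring, sub_zero]
      push_cast
      ring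
    have hb : ‖((-4 * Real.sin (Real.pi * r) ^ 2 * sqKer N r : ℝ) : ℂ)‖ ≤
        ∑ n ∈ Icc (-((N : ℤ) + 1)) ((N : ℤ) + 1),
          (2 / (N : ℝ) ^ 2 + if n = 0 then 4 / (N : ℝ) else 0) := by
      rw [key]
      refine norm_sum_le_of_le _ fun n _ => ?_
      rw [norm_mul, norm_ee, mul_one, Complex.norm_real]
      exact tri_sq_diff hN n
    rw [Complex.norm_real, Real.norm_eq_abs, sum_add_distrib, sum_const, sum_ite_eq',
      if_pos (mem_Icc.2 ⟨by omega, by omega⟩), Int.card_Icc,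
      show ((N : ℤ) + 1 + 1 - -((N : ℤ) + 1)).toNat = 2 * N + 3 by omega, nsmul_eq_mul,
      show -4 * Real.sin (Real.pi * r) ^ 2 * sqKer N r =
        -(4 * (sqKer N r * Real.sin (Real.pi * r) ^ 2)) by ring, abs_neg,
      abs_of_nonneg (by positivity)] at hb
    push_cast at hb
    refine le_of_mul_le_mul_left (hb.trans ?_) (by norm_num : (0 : ℝ) < 4)
    rw [← sub_nonneg]
    have : 4 * (4 / (N : ℝ)) - ((2 * N + 3) * (2 / (N : ℝ) ^ 2) + 4 / N) =
        (8 * N - 6) / (N : ℝ) ^ 2 := by field_simp; ring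
    rw [this]
    exact div_nonneg (by linarith) (sq_nonneg _)

/-- The convolution of two indicators of `[0, N)`. -/
noncomputable def conv (N : ℕ) (i : ℤ) : ℝ :=
  ∑ a ∈ range N, ∑ b ∈ range N, if (a : ℤ) + b = i then (1 : ℝ) else 0

theorem jack_eq (N : ℕ) (n : ℤ) :
    jack N n = (∑ i ∈ Icc (0 : ℤ) (2 * N), conv N i * conv N (i + n)) / (N : ℝ) ^ 3 := rfl

theorem conv_eq (N : ℕ) (i : ℤ) :
    conv N i = ((max 0 (min (i + 1) (2 * (N : ℤ) - 1 - i)) : ℤ) : ℝ) := by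
  have h1 : ∀ a : ℕ, (∑ b ∈ range N, if (a : ℤ) + b = i then (1 : ℝ) else 0) =
      if (a : ℤ) ≤ i ∧ i < (a : ℤ) + N then 1 else 0 := by
    intro a
    by_cases h : (a : ℤ) ≤ i ∧ i < (a : ℤ) + N
    · rw [if_pos h, sum_eq_single (i - a).toNat]
      · rw [if_pos (by omega)]
      · intro b _ hb
        rw [if_neg (by omega)]
      · intro hb
        exact absurd (mem_range.2 (by omega)) hb
    · rw [if_neg h]
      refine sum_eq_zero fun b hb => if_neg fun e => h ?_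
      rw [mem_range] at hb
      omega
  have h2 : (range N).filter (fun a : ℕ => (a : ℤ) ≤ i ∧ i < (a : ℤ) + N) =
      Ico (i - N + 1).toNat (min N (i + 1).toNat) := by
    ext a
    simp only [mem_filter, mem_range, mem_Ico]
    omega
  rw [conv, sum_congr rfl fun a _ => h1 a, ← sum_filter, sum_const, h2, Nat.card_Ico,
    nsmul_eq_mul, mul_one]
  have h3 : ((min N (i + 1).toNat - (i - N + 1).toNat : ℕ) : ℤ) =
      max 0 (min (i + 1) (2 * (N : ℤ) - 1 - i)) := by omega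
  rw [← h3]
  norm_cast

theorem conv_nonneg (N : ℕ) (i : ℤ) : 0 ≤ conv N i := by
  rw [conv_eq]
  exact_mod_cast le_max_left _ _

theorem conv_le (N : ℕ) (i : ℤ) : conv N i ≤ N := by
  rw [conv_eq]
  have : max 0 (min (i + 1) (2 * (N : ℤ) - 1 - i)) ≤ (N : ℤ) := by omega
  exact_mod_cast this

theorem conv_supp {N : ℕ} {i : ℤ} (h : conv N i ≠ 0) : 0 ≤ i ∧ i + 2 ≤ 2 * N := by
  rw [conv_eq] at h
  by_contra hc
  refine h ?_
  have : max 0 (min (i + 1) (2 * (N : ℤ) - 1 - i)) = 0 := by omega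
  rw [this, Int.cast_zero]

theorem conv_lip (N : ℕ) (i j : ℤ) : |conv N i - conv N j| ≤ |((i - j : ℤ) : ℝ)| := by
  rw [conv_eq, conv_eq, ← Int.cast_sub, ← Int.cast_abs, ← Int.cast_abs]
  refine Int.cast_le.2 ?_
  rw [abs_le]
  rcases abs_cases (i - j) with ⟨e, _⟩ | ⟨e, _⟩ <;> rw [e] <;> constructor <;> omega

theorem sum_conv (N : ℕ) (T : Finset ℤ) (hT : ∀ i, 0 ≤ i → i + 2 ≤ 2 * (N : ℤ) → i ∈ T)
    (f : ℤ → ℂ) :
    ∑ i ∈ T, (conv N i : ℂ) * f i = ∑ a ∈ range N, ∑ b ∈ range N, f ((a : ℤ) + b) := by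
  have h : ∀ i, (conv N i : ℂ) * f i =
      ∑ a ∈ range N, ∑ b ∈ range N, if (a : ℤ) + b = i then f i else 0 := by
    intro i
    rw [conv, Complex.ofReal_sum, sum_mul]
    refine sum_congr rfl fun a _ => ?_
    rw [Complex.ofReal_sum, sum_mul]
    refine sum_congr rfl fun b _ => ?_
    split_ifs <;> simp
  rw [sum_congr rfl fun i _ => h i, sum_comm]
  refine sum_congr rfl fun a ha => ?_
  rw [sum_comm]
  refine sum_congr rfl fun b hb => ?_
  rw [mem_range] at ha hb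
  rw [sum_ite_eq, if_pos (hT _ (by omega) (by omega))]

theorem conv_total (N : ℕ) : ∑ i ∈ Ico (0 : ℤ) (2 * N), conv N i = (N : ℝ) ^ 2 := by
  have h := sum_conv N (Ico (0 : ℤ) (2 * N))
    (fun i h1 h2 => mem_Ico.2 ⟨h1, by omega⟩) (fun _ => 1)
  simp only [mul_one, sum_const, card_range, nsmul_eq_mul] at h
  refine Complex.ofReal_injective ?_
  push_cast
  rw [h]
  ring

theorem jack_facts {N : ℕ} (hN : 1 ≤ N) :
    (∀ n, 0 ≤ jack N n ∧ jack N n ≤ 8 ∧ (jack N n ≠ 0 → |n| ≤ 2 * N)) ∧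
    1 / 2 ≤ jack N 0 ∧
    (∀ n m, |jack N n - jack N m| ≤ 8 * |((n - m : ℤ) : ℝ)| / N) := by
  have hN' : (1 : ℝ) ≤ N := by exact_mod_cast hN
  have h3 : (0 : ℝ) < (N : ℝ) ^ 3 := by positivity
  have hcard : (Icc (0 : ℤ) (2 * N)).card = 2 * N + 1 := by rw [Int.card_Icc]; omega
  refine ⟨fun n => ⟨?_, ?_, ?_⟩, ?_, ?_⟩
  · rw [jack_eq]
    exact div_nonneg (sum_nonneg fun i _ => mul_nonneg (conv_nonneg _ _) (conv_nonneg _ _)) h3.le
  · rw [jack_eq, div_le_iff₀ h3]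
    have h : ∑ i ∈ Icc (0 : ℤ) (2 * N), conv N i * conv N (i + n) ≤
        ∑ _i ∈ Icc (0 : ℤ) (2 * N), (N : ℝ) ^ 2 :=
      sum_le_sum fun i _ => by
        rw [sq]
        exact mul_le_mul (conv_le _ _) (conv_le _ _) (conv_nonneg _ _) (by linarith)
    rw [sum_const, hcard, nsmul_eq_mul] at h
    push_cast at h
    nlinarith [sq_nonneg (N : ℝ)]
  · intro hn
    by_contra hc
    refine hn ?_
    rw [jack_eq]
    suffices h : ∑ i ∈ Icc (0 : ℤ) (2 * N), conv N i * conv N (i + n) = 0 by rw [h, zero_div]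
    refine sum_eq_zero fun i hi => ?_
    rw [mem_Icc] at hi
    by_contra hne
    obtain ⟨hl, hr⟩ := conv_supp (right_ne_zero_of_mul hne)
    exact hc (abs_le.2 ⟨by omega, by omega⟩)
  · rw [jack_eq, le_div_iff₀ h3]
    simp only [add_zero]
    have hs : ∑ i ∈ Ico (0 : ℤ) (2 * N), conv N i * conv N i ≤
        ∑ i ∈ Icc (0 : ℤ) (2 * N), conv N i * conv N i :=
      sum_le_sum_of_subset_of_nonneg Ico_subset_Icc_self fun i _ _ => mul_self_nonneg _
    have hcs := sq_sum_le_card_mul_sum_sq (s := Ico (0 : ℤ) (2 * N)) (f := conv N)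
    rw [conv_total, Int.card_Ico, show (2 * (N : ℤ) - 0).toNat = 2 * N by omega] at hcs
    simp only [sq] at hcs
    push_cast at hcs
    refine le_of_mul_le_mul_left ?_ (by linarith : (0 : ℝ) < 2 * N)
    nlinarith
  · intro n m
    rw [jack_eq, jack_eq, ← sub_div, ← sum_sub_distrib, abs_div, abs_of_pos h3,
      div_le_iff₀ h3]
    have h : |∑ i ∈ Icc (0 : ℤ) (2 * N), (conv N i * conv N (i + n) - conv N i * conv N (i + m))|
        ≤ ∑ _i ∈ Icc (0 : ℤ) (2 * N), (N : ℝ) * |((n - m : ℤ) : ℝ)| := by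
      refine (abs_sum_le_sum_abs _ _).trans (sum_le_sum fun i _ => ?_)
      rw [← mul_sub, abs_mul, abs_of_nonneg (conv_nonneg _ _)]
      refine mul_le_mul (conv_le _ _) ((conv_lip _ _ _).trans_eq ?_) (abs_nonneg _) (by linarith)
      rw [show i + n - (i + m) = n - m by ring]
    rw [sum_const, hcard, nsmul_eq_mul] at h
    push_cast at h ⊢
    refine h.trans (le_of_sub_nonneg ?_)
    have : 8 * |(n : ℝ) - m| / N * (N : ℝ) ^ 3 - (2 * N + 1) * (N * |(n : ℝ) - m|) =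
        |(n : ℝ) - m| * N * (6 * N - 1) := by field_simp; ring
    rw [this]
    exact mul_nonneg (mul_nonneg (abs_nonneg _) (by linarith)) (by linarith)

/-- The Dirichlet sum. -/
noncomputable def dir (N : ℕ) (r : ℝ) : ℂ := ∑ a ∈ range N, ee r a

theorem ker1_jack (N : ℕ) (r : ℝ) :
    ker1 (jack N) (2 * N) r = ((‖dir N r‖ ^ 4 / (N : ℝ) ^ 3 : ℝ) : ℂ) := by
  have hT : ∀ i : ℤ, 0 ≤ i → i + 2 ≤ 2 * (N : ℤ) → i ∈ Icc (0 : ℤ) (2 * N) :=
    fun i h1 h2 => mem_Icc.2 ⟨h1, by omega⟩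
  have hd : ∀ f : ℤ → ℂ, (∀ a b, f (a + b) = f a * f b) →
      ∑ i ∈ Icc (0 : ℤ) (2 * N), (conv N i : ℂ) * f i = (∑ a ∈ range N, f a) ^ 2 := by
    intro f hf
    rw [sum_conv N _ hT f, sq, sum_mul_sum]
    exact sum_congr rfl fun a _ => sum_congr rfl fun b _ => hf _ _
  have h1 := hd (ee r) (ee_add r)
  have h2 := hd (fun n => ee r (-n)) (fun a b => by rw [neg_add, ee_add])
  have h3 : (starRingEnd ℂ) (dir N r) = ∑ a ∈ range N, ee r (-(a : ℤ)) := by
    simp only [dir, map_sum, conj_ee]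
  rw [show ‖dir N r‖ ^ 4 = (‖dir N r‖ ^ 2) ^ 2 by ring, Complex.ofReal_div, Complex.ofReal_pow,
    Complex.ofReal_pow, ← Complex.conj_mul', mul_pow, h3, dir, ← h1, ← h2, sum_mul_sum,
    sum_div, ker1, Nat.cast_mul, Nat.cast_ofNat]
  have hterm : ∀ n : ℤ, (jack N n : ℂ) * Complex.exp ((2 * Real.pi * n * r : ℝ) * Complex.I) =
      ∑ i ∈ Icc (0 : ℤ) (2 * N), (if i + n ∈ Icc (0 : ℤ) (2 * N) then
        (conv N i : ℂ) * conv N (i + n) * ee r n / ((N : ℝ) ^ 3 : ℝ) else 0) := by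
    intro n
    rw [jack_eq, Complex.ofReal_div, Complex.ofReal_sum, sum_div, sum_mul]
    refine sum_congr rfl fun i _ => ?_
    split_ifs with h
    · rw [ee]; push_cast; ring
    · have : conv N (i + n) = 0 := by
        by_contra hne
        obtain ⟨hl, hr⟩ := conv_supp hne
        exact h (hT _ hl hr)
      simp [this]
  rw [sum_congr rfl fun n _ => hterm n, sum_comm]
  refine sum_congr rfl fun i hi => ?_
  rw [sum_shift _ (2 * (N : ℤ)) i
    (fun n => (conv N i : ℂ) * conv N (i + n) * ee r n / ((N : ℝ) ^ 3 : ℝ)), sum_div]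
  · refine sum_congr rfl fun j _ => ?_
    rw [add_sub_cancel, show j - i = -i + j by ring, ee_add]
    push_cast
    ring
  · intro j hj
    simp only [mem_Icc] at hi hj
    omega

theorem norm_dir_le (N : ℕ) (r : ℝ) : ‖dir N r‖ ≤ N := by
  refine (norm_sum_le _ _).trans ?_
  simp [norm_ee]

theorem norm_dir_sin (N : ℕ) (r : ℝ) : ‖dir N r‖ * |Real.sin (Real.pi * r)| ≤ 1 := by
  have h : dir N r * (ee r 1 - 1) = ee r N - 1 := by
    rw [dir, sum_congr rfl fun a _ => ee_nat r a, geom_sum_mul, ee_nat]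
  have h2 : ‖dir N r * (ee r 1 - 1)‖ ≤ 2 := by
    rw [h]
    refine (norm_sub_le _ _).trans ?_
    simp [norm_ee]
    norm_num
  rw [norm_mul, norm_ee_one_sub] at h2
  linarith

theorem one_side {y X : ℝ} (hy : 0 ≤ y) (_hX : 0 ≤ X) (h1 : X ≤ y) (h2 : X * y ≤ 1) :
    X ≤ 10 / 3 * (4 * y / (1 + 4 * y) - y / (1 + y)) := by
  have hX1 : X ≤ 1 := by nlinarith
  have hp : (0 : ℝ) < (1 + 4 * y) * (1 + y) := by positivity
  have e : 10 / 3 * (4 * y / (1 + 4 * y) - y / (1 + y)) = 10 * y / ((1 + 4 * y) * (1 + y)) := by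
    field_simp
    ring
  rw [e, le_div_iff₀ hp]
  nlinarith [mul_le_mul_of_nonneg_right h2 hy, mul_le_mul_of_nonneg_right hX1 hy]

theorem sum_pair (p q : ℕ → ℝ) (u : ℝ) (hu : 0 ≤ u) (hp : ∀ j, 0 ≤ p j) (hq : ∀ j, 0 ≤ q j)
    (hp1 : ∀ j, p j ≤ 2 ^ j) (hq1 : ∀ j, q j ≤ 2 ^ j)
    (hp2 : ∀ j, p j * (8 ^ j * u ^ 2) ≤ 1) (n : ℕ) :
    (∑ j ∈ range n, p j * q j) * u ≤ 10 / 3 := by
  let h : ℕ → ℝ := fun j => 4 ^ j * u / (1 + 4 ^ j * u)
  have hstep : ∀ j, p j * q j * u ≤ 10 / 3 * (h (j + 1) - h j) := by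
    intro j
    have e4 : (4 : ℝ) ^ j = 2 ^ j * 2 ^ j := by rw [← mul_pow]; norm_num
    have e8 : (8 : ℝ) ^ j = 2 ^ j * 4 ^ j := by rw [← mul_pow]; norm_num
    have := one_side (y := 4 ^ j * u) (X := p j * q j * u) (by positivity)
      (mul_nonneg (mul_nonneg (hp j) (hq j)) hu)
      (mul_le_mul_of_nonneg_right (e4 ▸ mul_le_mul (hp1 j) (hq1 j) (hq j) (by positivity)) hu)
      (by
        refine le_trans ?_ (hp2 j)
        rw [e8, show p j * q j * u * (4 ^ j * u) = p j * q j * (4 ^ j * u ^ 2) by ring,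
          show p j * (2 ^ j * 4 ^ j * u ^ 2) = p j * 2 ^ j * (4 ^ j * u ^ 2) by ring]
        exact mul_le_mul_of_nonneg_right (mul_le_mul_of_nonneg_left (hq1 j) (hp j))
          (by positivity))
    simp only [h, pow_succ]
    rwa [show (4 : ℝ) ^ j * 4 * u = 4 * (4 ^ j * u) by ring]
  have hn : ∀ j, 0 ≤ h j ∧ h j ≤ 1 := by
    intro j
    have : (0 : ℝ) ≤ 4 ^ j * u := by positivity
    exact ⟨by simp only [h]; positivity, (div_le_one (by linarith)).2 (by linarith)⟩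
  rw [sum_mul]
  refine (sum_le_sum fun j _ => hstep j).trans ?_
  rw [← mul_sum, sum_range_sub]
  have := hn n
  have := hn 0
  linarith

theorem jack_dyadic (r s : ℝ) : ∃ x : ℕ → ℝ,
    (∀ j, 0 ≤ x j ∧
      ker1 (jack (2 ^ j)) (2 * 2 ^ j) r * ker1 (jack (2 ^ j)) (2 * 2 ^ j) s = (x j : ℂ)) ∧
    ∀ n, (∑ j ∈ range n, x j) *
      (Real.sin (Real.pi * r) ^ 2 + Real.sin (Real.pi * s) ^ 2) ≤ 7 := by
  let K : ℝ → ℕ → ℝ := fun t j => ‖dir (2 ^ j) t‖ ^ 4 / ((2 ^ j : ℕ) : ℝ) ^ 3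
  have hK : ∀ t j, 0 ≤ K t j ∧ K t j ≤ 2 ^ j ∧
      K t j * (8 ^ j * (Real.sin (Real.pi * t) ^ 2) ^ 2) ≤ 1 := by
    intro t j
    have e2 : ((2 ^ j : ℕ) : ℝ) = 2 ^ j := by norm_num
    have hpos : (0 : ℝ) < 2 ^ j := by positivity
    have h1 := norm_dir_le (2 ^ j) t
    rw [e2] at h1
    have h2 := norm_dir_sin (2 ^ j) t
    have h0 := norm_nonneg (dir (2 ^ j) t)
    refine ⟨by simp only [K]; positivity, ?_, ?_⟩
    · simp only [K, e2]
      rw [div_le_iff₀ (by positivity)]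
      calc ‖dir (2 ^ j) t‖ ^ 4 ≤ ((2 : ℝ) ^ j) ^ 4 := pow_le_pow_left₀ h0 h1 4
        _ = _ := by ring
    · simp only [K, e2]
      have e8 : ((2 : ℝ) ^ j) ^ 3 = 8 ^ j := by rw [← pow_mul, mul_comm, pow_mul]; norm_num
      rw [e8, ← sq_abs (Real.sin _)]
      calc ‖dir (2 ^ j) t‖ ^ 4 / 8 ^ j * (8 ^ j * (|Real.sin (Real.pi * t)| ^ 2) ^ 2)
          = (‖dir (2 ^ j) t‖ * |Real.sin (Real.pi * t)|) ^ 4 := by field_simp
        _ ≤ 1 := pow_le_one₀ (by positivity) h2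
  refine ⟨fun j => K r j * K s j, fun j => ⟨mul_nonneg (hK r j).1 (hK s j).1, ?_⟩, fun n => ?_⟩
  · rw [ker1_jack, ker1_jack, ← Complex.ofReal_mul]
  · have h1 := sum_pair (K r) (K s) _ (sq_nonneg (Real.sin (Real.pi * r))) (fun j => (hK r j).1)
      (fun j => (hK s j).1) (fun j => (hK r j).2.1) (fun j => (hK s j).2.1)
      (fun j => (hK r j).2.2) n
    have h2 := sum_pair (K s) (K r) _ (sq_nonneg (Real.sin (Real.pi * s))) (fun j => (hK s j).1)
      (fun j => (hK r j).1) (fun j => (hK s j).2.1) (fun j => (hK r j).2.1)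
      (fun j => (hK s j).2.2) n
    simp only [mul_comm (K s _) (K r _)] at h2
    rw [mul_add]
    linarith

theorem kernelSpec : KernelSpec := by
  refine ⟨⟨4, fun N hN r => tri_bounds hN r⟩, fun N hN => jack_facts hN, 7, jack_dyadic⟩

end Vale.Agent.P204.Inv
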