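import Vale.Agent.P204.Inv.Estimate

/-! The anti-invariant part of an exact positive current is square summable, by a bootstrap over
triangle weights (P204). -/

namespace Vale.Agent.P204.Inv

open Vale.Agent.P229 (P2)
open Vale.Agent.P205.Fourier
open Vale.Agent.P205.Beltrami
open scoped ComplexConjugate
open Finset

lemma ker_box (a b : ℤ → ℝ) (M : ℕ) (r : P2) :
    ∑ n ∈ box M, ((a n.1 * b n.2 : ℝ) : ℂ) * Complex.exp (freq e1 e2 n r) =
      ker1 a M r.1 * ker1 b M r.2 := by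
  rw [box, sum_product, ker1, ker1, sum_mul_sum]
  refine sum_congr rfl fun i _ => sum_congr rfl fun j _ => ?_
  rw [freq_apply, m1_std, m2_std, Complex.exp_add]
  push_cast
  ring_nf

lemma tri_facts (N : ℕ) (n : ℤ) : 0 ≤ tri N n ∧ tri N n ≤ 1 ∧ tri N (-n) = tri N n := by
  refine ⟨le_max_left _ _, max_le zero_le_one ?_, by simp [tri]⟩
  linarith [div_nonneg (abs_nonneg (n : ℝ)) (Nat.cast_nonneg (α := ℝ) N)]

lemma tri_supp {N : ℕ} (hN : 1 ≤ N) {n : ℤ} (h : ¬|n| ≤ (N : ℤ)) : tri N n = 0 := by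
  refine max_eq_left ?_
  have h1 : (N : ℝ) ≤ |(n : ℝ)| := by exact_mod_cast (not_le.1 h).le
  have h2 : (0 : ℝ) < N := by exact_mod_cast hN
  rw [sub_nonpos, one_le_div h2]
  exact h1

lemma tri_lip (N : ℕ) (n n' : ℤ) : |tri N n - tri N n'| ≤ |((n - n' : ℤ) : ℝ)| / N := by
  refine (abs_max_sub_max_le_max _ _ _ _).trans ?_
  rw [sub_self, abs_zero, max_eq_right (abs_nonneg _), sub_sub_sub_cancel_left, ← sub_div,
    abs_div, Nat.abs_cast]
  refine div_le_div_of_nonneg_right ?_ (Nat.cast_nonneg _)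
  rw [abs_sub_comm, Int.cast_sub]
  exact abs_abs_sub_abs_le_abs_sub _ _

/-- The triangle weight on the plane. -/
noncomputable def tri2 (N : ℕ) (n : Z2) : ℝ := tri N n.1 * tri N n.2

lemma tri2_facts (N : ℕ) (n : Z2) : 0 ≤ tri2 N n ∧ tri2 N n ≤ 1 ∧ tri2 N (-n) = tri2 N n := by
  obtain ⟨a0, a1, a2⟩ := tri_facts N n.1
  obtain ⟨b0, b1, b2⟩ := tri_facts N n.2
  exact ⟨mul_nonneg a0 b0, mul_le_one₀ a1 b0 b1, by simp [tri2, a2, b2]⟩

lemma tri2_supp {N : ℕ} (hN : 1 ≤ N) {n : Z2} (h : n ∉ box N) : tri2 N n = 0 := by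
  rw [mem_box, not_and_or] at h
  rcases h with h | h <;> simp [tri2, tri_supp hN h]

lemma tri2_lip (N : ℕ) (n m : Z2) :
    |tri2 N n - tri2 N (n - m)| ≤ 2 / N * (w m : ℝ) ∧
      |tri2 N n ^ 2 - tri2 N (n - m) ^ 2| ≤ 2 / N * (w m : ℝ) := by
  obtain ⟨a0, a1, -⟩ := tri_facts N n.1
  obtain ⟨b0, b1, -⟩ := tri_facts N (n - m).2
  have h1 := tri_lip N n.1 (n - m).1
  have h2 := tri_lip N n.2 (n - m).2
  simp only [Prod.fst_sub, Prod.snd_sub, sub_sub_cancel] at h1 h2 b0 b1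
  have hd : |tri2 N n - tri2 N (n - m)| ≤ (|(m.1 : ℝ)| + |(m.2 : ℝ)|) / N := by
    rw [show tri2 N n - tri2 N (n - m) = tri N n.1 * (tri N n.2 - tri N (n.2 - m.2))
      + tri N (n.2 - m.2) * (tri N n.1 - tri N (n.1 - m.1)) by simp [tri2]; ring, add_div]
    refine (abs_add_le _ _).trans ?_
    rw [abs_mul, abs_mul, abs_of_nonneg a0, abs_of_nonneg b0]
    linarith [mul_le_of_le_one_left (abs_nonneg (tri N n.2 - tri N (n.2 - m.2))) a1,
      mul_le_of_le_one_left (abs_nonneg (tri N n.1 - tri N (n.1 - m.1))) b1]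
  have hw : (|(m.1 : ℝ)| + |(m.2 : ℝ)|) / N ≤ 1 / N * (w m : ℝ) := by
    rw [w_cast, one_div, inv_mul_eq_div]; gcongr; linarith
  have h12 : 1 / (N : ℝ) * (w m : ℝ) ≤ 2 / N * (w m : ℝ) := by gcongr; norm_num
  refine ⟨(hd.trans hw).trans h12, ?_⟩
  obtain ⟨c0, c1, -⟩ := tri2_facts N n
  obtain ⟨d0, d1, -⟩ := tri2_facts N (n - m)
  rw [sq_sub_sq, abs_mul]
  refine (mul_le_mul (show |tri2 N n + tri2 N (n - m)| ≤ 2 by
    rw [abs_of_nonneg (by linarith)]; linarith) (hd.trans hw) (abs_nonneg _) zero_le_two).trans_eq ?_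
  ring

variable {S : Str} (X : Cur S)

/-- The growth statement. -/
def Growth (B p : ℝ) : Prop := ∀ R : ℕ, F X R ≤ B * ((R : ℝ) + 1) ^ p

lemma growth_initial : ∃ B, 0 ≤ B ∧ Growth X B ((X.K : ℝ) + 1) := by
  refine ⟨3 * 2 ^ (X.K + 1) * X.Ct, by have := X.Ct_nonneg; positivity, fun R => ?_⟩
  have h : F2 X R ≤ (3 * X.Ct * (2 * (R : ℝ) + 1) ^ (X.K + 1)) ^ 2 := by
    refine (sum_le_card_nsmul _ _ (6 * (X.Ct * (2 * (R : ℝ) + 1) ^ X.K) ^ 2) fun n hn => ?_).trans ?_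
    · refine (sum_le_card_nsmul _ _ ((X.Ct * (2 * (R : ℝ) + 1) ^ X.K) ^ 2) fun k _ => ?_).trans_eq
        (by simp)
      refine pow_le_pow_left₀ (norm_nonneg _) ((X.φ_bd k n).trans ?_) 2
      exact mul_le_mul_of_nonneg_left (pow_le_pow_left₀ (by positivity) (w_le_box hn) _) X.Ct_nonneg
    · rw [nsmul_eq_mul, card_box]
      have h0 := sq_nonneg ((X.Ct * (2 * (R : ℝ) + 1) ^ X.K) * (2 * (R : ℝ) + 1))
      rw [mul_pow] at h0
      rw [show 3 * X.Ct * (2 * (R : ℝ) + 1) ^ (X.K + 1) =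
        3 * (X.Ct * (2 * (R : ℝ) + 1) ^ X.K * (2 * (R : ℝ) + 1)) by ring, mul_pow 3, mul_pow]
      nlinarith
  have hC := X.Ct_nonneg
  calc F X R ≤ 3 * X.Ct * (2 * (R : ℝ) + 1) ^ (X.K + 1) :=
        (Real.sqrt_le_left (by positivity)).2 h
    _ ≤ 3 * X.Ct * (2 * ((R : ℝ) + 1)) ^ (X.K + 1) := by gcongr; linarith
    _ = _ := by rw [mul_pow, ← Nat.cast_add_one X.K, Real.rpow_natCast]; ring

lemma combine {C0 c a b x y U V : ℝ} (h0 : 0 ≤ C0) (hc : 0 ≤ c) (ha : 0 ≤ a) (hb : 0 ≤ b)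
    (hU : 0 ≤ U) (hV : 0 ≤ V) (hx : x ≤ a * U) (hy : y ≤ b * V) :
    16 * (C0 * (2 * c + x + y)) ≤ (16 * C0 * (2 * c + a + b) + 1) * (1 + U + V) := by
  have h1 : 2 * c + x + y ≤ (2 * c + a + b) * (1 + U + V) := by
    nlinarith [mul_nonneg hc hU, mul_nonneg hc hV, mul_nonneg ha hV, mul_nonneg hb hU]
  have := mul_le_mul_of_nonneg_left h1 h0
  nlinarith

/-- One step of the bootstrap. -/
theorem growth_step (hK : KernelSpec) : ∃ C : ℝ, 0 < C ∧ ∀ B p : ℝ, 0 ≤ B → 0 ≤ p →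
    p ≤ (X.K : ℝ) + 1 → Growth X B p → ∀ R : ℕ,
      F X R ≤ C * (1 + Real.sqrt B * ((R : ℝ) + 1) ^ (p / 2) + B * ((R : ℝ) + 1) ^ (p - 1)) := by
  obtain ⟨⟨C1, hC1⟩, -, -⟩ := hK
  obtain ⟨C0, hC0, hb⟩ := basic X
  set D : ℝ := (3 : ℝ) ^ (X.K + 1)
  set A1 : ℝ := ∑ k, ∑ l, ∑' m, aw S k l m * ((w m : ℝ) + 1) ^ (X.K + 3)
  set A2 : ℝ := ∑ k, ∑ l, (∑' m, aw S k l m) *
    ∑' m, aw S k l m * ((w m : ℝ) + 1) ^ (2 * (X.K + 1))
  have hA1 : 0 ≤ A1 := sum_nonneg fun k _ => sum_nonneg fun l _ =>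
    tsum_nonneg fun m => mul_nonneg (aw_nonneg k l m) (by positivity)
  have hA2 : 0 ≤ A2 := sum_nonneg fun k _ => sum_nonneg fun l _ =>
    mul_nonneg (tsum_nonneg fun m => aw_nonneg k l m)
      (tsum_nonneg fun m => mul_nonneg (aw_nonneg k l m) (by positivity))
  set Q := 16 * C0 * (2 * C1 ^ 2 + 18 * D * A1 + D ^ 2 * A2) + 1 with hQ
  have hQ0 : 0 < Q := by positivity
  refine ⟨Real.sqrt Q, Real.sqrt_pos.2 hQ0, fun B p hB hp hpK hG R => ?_⟩
  set N := 2 * R + 2 with hN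
  have hN1 : 1 ≤ N := by omega
  have hNR : (N : ℝ) = 2 * (R : ℝ) + 2 := by simp [hN]
  set P := ((R : ℝ) + 1) ^ p
  set Pm := ((R : ℝ) + 1) ^ (p - 1)
  set PN := ((N : ℝ) + 1) ^ p
  have hP0 : 0 ≤ P := Real.rpow_nonneg (by positivity) p
  have hPN0 : 0 ≤ PN := Real.rpow_nonneg (by positivity) p
  have hbd : ∀ m : Z2, F X (N + w m) ≤ B * (PN * ((w m : ℝ) + 1) ^ (X.K + 1)) := by
    intro m
    refine (hG _).trans (mul_le_mul_of_nonneg_left ?_ hB)
    calc (((N + w m : ℕ) : ℝ) + 1) ^ p ≤ (((N : ℝ) + 1) * ((w m : ℝ) + 1)) ^ p := by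
          refine Real.rpow_le_rpow (by positivity) ?_ hp
          push_cast; nlinarith [Nat.cast_nonneg (α := ℝ) N, Nat.cast_nonneg (α := ℝ) (w m)]
      _ = PN * ((w m : ℝ) + 1) ^ p := Real.mul_rpow (by positivity) (by positivity)
      _ ≤ _ := by
          refine mul_le_mul_of_nonneg_left ?_ hPN0
          rw [← Real.rpow_natCast _ (X.K + 1)]
          exact Real.rpow_le_rpow_of_exponent_le (by linarith [Nat.cast_nonneg (α := ℝ) (w m)])
            (by push_cast; exact hpK)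
  have hg : ∀ m, G1 X (N + w m) ≤
      6 * B * (((N : ℝ) + 1) * PN) * ((w m : ℝ) + 1) ^ (X.K + 3) := by
    intro m
    refine (G1_le X _).trans ?_
    refine (mul_le_mul (show 3 * (2 * ((N + w m : ℕ) : ℝ) + 1) ≤
      6 * ((N : ℝ) + 1) * ((w m : ℝ) + 1) ^ 2 by
        push_cast
        nlinarith [Nat.cast_nonneg (α := ℝ) N, Nat.cast_nonneg (α := ℝ) (w m),
          mul_nonneg (Nat.cast_nonneg (α := ℝ) N) (Nat.cast_nonneg (α := ℝ) (w m))])
      (hbd m) (F_nonneg X _) (by positivity)).trans_eq ?_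
    rw [show X.K + 3 = 2 + (X.K + 1) by ring, pow_add]; ring
  have hf : ∀ m, F2 X (N + w m) ≤ B ^ 2 * PN ^ 2 * ((w m : ℝ) + 1) ^ (2 * (X.K + 1)) := by
    intro m
    rw [← F_sq]
    refine (pow_le_pow_left₀ (F_nonneg X _) (hbd m) 2).trans_eq ?_
    ring
  have sg : ∀ k l, Summable fun m => aw S k l m *
      (6 * B * (((N : ℝ) + 1) * PN) * ((w m : ℝ) + 1) ^ (X.K + 3)) := fun k l =>
    ((summable_aw k l (X.K + 3)).mul_left (6 * B * (((N : ℝ) + 1) * PN))).congr fun m => by ring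
  have sf : ∀ k l, Summable fun m => aw S k l m *
      (B ^ 2 * PN ^ 2 * ((w m : ℝ) + 1) ^ (2 * (X.K + 1))) := fun k l =>
    ((summable_aw k l (2 * (X.K + 1))).mul_left (B ^ 2 * PN ^ 2)).congr fun m => by ring
  have hker : ∀ r : P2, ∃ x : ℝ, 0 ≤ x ∧ (∑ n ∈ box N,
      ((tri2 N n ^ 2 : ℝ) : ℂ) * Complex.exp (freq e1 e2 n r)) = (x : ℂ) ∧
        x * dist2 r ≤ 2 * C1 ^ 2 := by
    intro r
    obtain ⟨x, hx, ex, hx1, hx2⟩ := hC1 N hN1 r.1
    obtain ⟨y, hy, ey, hy1, hy2⟩ := hC1 N hN1 r.2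
    refine ⟨x * y, mul_nonneg hx hy, ?_, ?_⟩
    · simp only [tri2, mul_pow]
      rw [ker_box (fun i => tri N i ^ 2) (fun i => tri N i ^ 2), ex, ey]; push_cast; rfl
    · have hNp : (0 : ℝ) < N := by exact_mod_cast hN1
      have hC1N : 0 ≤ C1 * (N : ℝ) := hx.trans hx1
      have h1 : x * Real.sin (Real.pi * r.1) ^ 2 * y ≤ C1 / N * (C1 * N) :=
        mul_le_mul hx2 hy1 hy ((mul_nonneg hx (sq_nonneg _)).trans hx2)
      have h2 : x * (y * Real.sin (Real.pi * r.2) ^ 2) ≤ C1 * N * (C1 / N) :=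
        mul_le_mul hx1 hy2 (mul_nonneg hy (sq_nonneg _)) hC1N
      have e : C1 / N * (C1 * N) = C1 ^ 2 := by field_simp
      rw [e] at h1
      rw [show C1 * (N : ℝ) * (C1 / N) = C1 ^ 2 by field_simp] at h2
      simp only [dist2]
      nlinarith
  have main := hb (tri2 N) N (2 / N) _ _ _ (fun n hn => tri2_supp hN1 hn)
    (fun n => (tri2_facts N n).2.2) (fun n m => (tri2_lip N n m).1) (fun n m => (tri2_lip N n m).2)
    hg hf sg sf hker
  have low : F2 X R ≤ 16 * ∑ n ∈ box N, tri2 N n ^ 2 * nsq (fun k => X.φ k n) := by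
    rw [F2, mul_sum]
    refine le_trans ?_ (sum_le_sum_of_subset_of_nonneg (box_mono (show R ≤ N by omega))
      fun n _ _ => mul_nonneg (by norm_num) (mul_nonneg (sq_nonneg _) (nsq_nonneg _)))
    refine sum_le_sum fun n hn => ?_
    rw [← mul_assoc]
    refine le_mul_of_one_le_left (nsq_nonneg _) ?_
    rw [mem_box] at hn
    have ht : ∀ a : ℤ, |a| ≤ (R : ℤ) → 1 / 2 ≤ tri N a := fun a ha => by
      refine le_trans ?_ (le_max_right _ _)
      have ha' : |(a : ℝ)| ≤ R := by exact_mod_cast ha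
      rw [le_sub_comm, hNR, div_le_iff₀ (by positivity)]
      linarith
    have h14 : (1 : ℝ) / 4 ≤ tri2 N n := by
      have := mul_le_mul (ht _ hn.1) (ht _ hn.2) (by norm_num) (tri_facts N n.1).1
      simpa [tri2] using le_trans (by norm_num) this
    nlinarith
  have e1 : (∑ k, ∑ l, ∑' m, aw S k l m *
      (6 * B * (((N : ℝ) + 1) * PN) * ((w m : ℝ) + 1) ^ (X.K + 3))) =
      6 * B * (((N : ℝ) + 1) * PN) * A1 := by
    simp only [A1, mul_sum]
    refine sum_congr rfl fun k _ => sum_congr rfl fun l _ => ?_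
    rw [← (summable_aw k l (X.K + 3)).tsum_mul_left]
    exact tsum_congr fun m => by ring
  have e2 : (∑ k, ∑ l, (∑' m, aw S k l m) * ∑' m, aw S k l m *
      (B ^ 2 * PN ^ 2 * ((w m : ℝ) + 1) ^ (2 * (X.K + 1)))) = B ^ 2 * PN ^ 2 * A2 := by
    simp only [A2, mul_sum]
    refine sum_congr rfl fun k _ => sum_congr rfl fun l _ => ?_
    rw [mul_left_comm, ← (summable_aw k l (2 * (X.K + 1))).tsum_mul_left]
    congr 1
    exact tsum_congr fun m => by ring
  rw [e1, e2] at main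
  have hR1 : (0 : ℝ) < (R : ℝ) + 1 := by positivity
  have hPN : PN ≤ D * P := by
    calc PN ≤ (3 * ((R : ℝ) + 1)) ^ p :=
          Real.rpow_le_rpow (by positivity) (by rw [hNR]; linarith) hp
      _ = (3 : ℝ) ^ p * P := Real.mul_rpow (by norm_num) hR1.le
      _ ≤ _ := by
          refine mul_le_mul_of_nonneg_right ?_ hP0
          simp only [D, ← Real.rpow_natCast]
          exact Real.rpow_le_rpow_of_exponent_le (by norm_num) (by push_cast; exact hpK)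
  have hPm : Pm = P / ((R : ℝ) + 1) := by
    simp only [Pm, P, Real.rpow_sub hR1, Real.rpow_one]
  have hL1 : 2 / (N : ℝ) * (((N : ℝ) + 1) * PN) ≤ 3 * (D * P) := by
    rw [← mul_assoc]
    refine mul_le_mul ?_ hPN hPN0 (by norm_num)
    rw [hNR, div_mul_eq_mul_div, div_le_iff₀ (by positivity)]
    linarith [Nat.cast_nonneg (α := ℝ) R]
  have hL2 : 2 / (N : ℝ) * PN ≤ D * Pm := by
    rw [show 2 / (N : ℝ) = 1 / ((R : ℝ) + 1) by rw [hNR]; field_simp, hPm, one_div_mul_eq_div,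
      mul_div_assoc']
    gcongr
  have hsum : F2 X R ≤ Q * (1 + B * P + B ^ 2 * Pm ^ 2) := by
    have h1 : 2 / (N : ℝ) * (6 * B * (((N : ℝ) + 1) * PN) * A1) ≤ 18 * D * A1 * (B * P) := by
      calc _ = 6 * B * A1 * (2 / (N : ℝ) * (((N : ℝ) + 1) * PN)) := by ring
        _ ≤ 6 * B * A1 * (3 * (D * P)) := mul_le_mul_of_nonneg_left hL1 (by positivity)
        _ = _ := by ring
    have h2 : (2 / (N : ℝ)) ^ 2 * (B ^ 2 * PN ^ 2 * A2) ≤ D ^ 2 * A2 * (B ^ 2 * Pm ^ 2) := by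
      calc _ = B ^ 2 * A2 * (2 / (N : ℝ) * PN) ^ 2 := by ring
        _ ≤ B ^ 2 * A2 * (D * Pm) ^ 2 := mul_le_mul_of_nonneg_left
            (pow_le_pow_left₀ (by positivity) hL2 2) (by positivity)
        _ = _ := by ring
    have hBP : 0 ≤ B * P := mul_nonneg hB hP0
    have hBPm : 0 ≤ B ^ 2 * Pm ^ 2 := by positivity
    refine low.trans ((mul_le_mul_of_nonneg_left main (by norm_num)).trans ?_)
    exact combine hC0.le (sq_nonneg C1) (by positivity) (by positivity) hBP hBPm h1 h2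
  refine (Real.sqrt_le_sqrt hsum).trans ?_
  rw [Real.sqrt_mul hQ0.le]
  refine mul_le_mul_of_nonneg_left ?_ (Real.sqrt_nonneg _)
  have hs : (Real.sqrt B * ((R : ℝ) + 1) ^ (p / 2)) ^ 2 = B * P := by
    rw [mul_pow, Real.sq_sqrt hB, ← Real.rpow_natCast, ← Real.rpow_mul hR1.le]
    norm_num [P]
  have hx : 0 ≤ Real.sqrt B * ((R : ℝ) + 1) ^ (p / 2) :=
    mul_nonneg (Real.sqrt_nonneg _) (Real.rpow_nonneg hR1.le _)
  have hy : 0 ≤ B * Pm := mul_nonneg hB (Real.rpow_nonneg hR1.le _)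
  rw [Real.sqrt_le_left (by linarith)]
  nlinarith [mul_nonneg hx hy]

/-- The anti-invariant part is square summable. -/
theorem growth_zero (hK : KernelSpec) : ∃ B, 0 ≤ B ∧ ∀ R, F X R ≤ B := by
  obtain ⟨C, hC, step⟩ := growth_step X hK
  have one_le : ∀ (R : ℕ) (q : ℝ), 0 ≤ q → 1 ≤ ((R : ℝ) + 1) ^ q := fun R q hq =>
    Real.one_le_rpow (by linarith [Nat.cast_nonneg (α := ℝ) R]) hq
  have down : ∀ d : ℕ, d ≤ X.K → ∃ B, 0 ≤ B ∧ Growth X B (((X.K + 1 - d : ℕ) : ℝ)) := by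
    intro d
    induction d with
    | zero =>
      intro _
      obtain ⟨B, hB, hG⟩ := growth_initial X
      exact ⟨B, hB, by simpa using hG⟩
    | succ d ih =>
      intro hd
      obtain ⟨B, hB, hG⟩ := ih (by omega)
      refine ⟨C * (1 + Real.sqrt B + B), by positivity, fun R => ?_⟩
      set q : ℝ := ((X.K + 1 - (d + 1) : ℕ) : ℝ)
      have hq1 : 1 ≤ q := by
        simp only [q]; exact_mod_cast (show 1 ≤ X.K + 1 - (d + 1) by omega)
      have hpq : ((X.K + 1 - d : ℕ) : ℝ) = q + 1 := by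
        simp only [q]; rw [show X.K + 1 - d = X.K + 1 - (d + 1) + 1 by omega]; push_cast; ring
      rw [hpq] at hG
      have hqK : q + 1 ≤ (X.K : ℝ) + 1 := by
        rw [← hpq]; exact_mod_cast (show X.K + 1 - d ≤ X.K + 1 by omega)
      refine (step B (q + 1) hB (by linarith) hqK hG R).trans ?_
      rw [add_sub_cancel_right, mul_assoc C]
      refine mul_le_mul_of_nonneg_left ?_ hC.le
      have h1 := one_le R q (by linarith)
      have h2 : ((R : ℝ) + 1) ^ ((q + 1) / 2) ≤ ((R : ℝ) + 1) ^ q :=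
        Real.rpow_le_rpow_of_exponent_le (by linarith [Nat.cast_nonneg (α := ℝ) R]) (by linarith)
      nlinarith [mul_le_mul_of_nonneg_left h2 (Real.sqrt_nonneg B)]
  obtain ⟨B1, hB1, hG1⟩ := down X.K le_rfl
  rw [Nat.add_sub_cancel_left, Nat.cast_one] at hG1
  obtain ⟨R0, hR0⟩ := exists_nat_ge (4 * C ^ 2)
  set B := max (max B1 (16 * C ^ 2 + 4 * C + 1)) (2 * F X R0) with hBdef
  have hB : 0 ≤ B := le_trans hB1 ((le_max_left _ _).trans (le_max_left _ _))
  have hsmall : C * (1 + Real.sqrt B) ≤ B / 2 := by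
    have h1 : 16 * C ^ 2 + 4 * C + 1 ≤ B := (le_max_right _ _).trans (le_max_left _ _)
    have h2 : 4 * C ≤ Real.sqrt B := Real.le_sqrt_of_sq_le (by nlinarith)
    nlinarith [Real.mul_self_sqrt hB, Real.sqrt_nonneg B, sq_nonneg C]
  have all : ∀ i : ℕ, Growth X B ((1 / 2 : ℝ) ^ i) := by
    intro i
    induction i with
    | zero =>
      intro R
      refine (hG1 R).trans ?_
      rw [pow_zero]
      exact mul_le_mul_of_nonneg_right ((le_max_left _ _).trans (le_max_left _ _))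
        (by positivity)
    | succ i ih =>
      intro R
      set p : ℝ := (1 / 2 : ℝ) ^ i
      have hp0 : 0 ≤ p := by positivity
      have hp1 : p ≤ 1 := pow_le_one₀ (by norm_num) (by norm_num)
      rw [pow_succ', show 1 / 2 * p = p / 2 by ring]
      have hq := one_le R (p / 2) (by positivity)
      by_cases hR : R ≤ R0
      · have h := (F_mono X hR).trans (show F X R0 ≤ B / 2 by
          linarith [le_max_right (max B1 (16 * C ^ 2 + 4 * C + 1)) (2 * F X R0)])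
        nlinarith
      · push Not at hR
        refine (step B p hB hp0 (by linarith [Nat.cast_nonneg (α := ℝ) X.K]) ih R).trans ?_
        have hR1 : (0 : ℝ) < (R : ℝ) + 1 := by positivity
        have h1 : 2 * C ≤ ((R : ℝ) + 1) ^ (1 / 2 : ℝ) := by
          rw [← Real.sqrt_eq_rpow]
          refine Real.le_sqrt_of_sq_le ?_
          have : (R0 : ℝ) + 1 ≤ R := by exact_mod_cast hR
          nlinarith
        have h2 : ((R : ℝ) + 1) ^ (1 / 2 : ℝ) * ((R : ℝ) + 1) ^ (p - 1) ≤ ((R : ℝ) + 1) ^ (p / 2) := by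
          rw [← Real.rpow_add hR1]
          exact Real.rpow_le_rpow_of_exponent_le (by linarith) (by linarith)
        have h3 : 0 ≤ ((R : ℝ) + 1) ^ (p - 1) := Real.rpow_nonneg hR1.le _
        have h4 : C * B * ((R : ℝ) + 1) ^ (p - 1) ≤ B / 2 * ((R : ℝ) + 1) ^ (p / 2) := by
          nlinarith [mul_le_mul_of_nonneg_right h1 h3, mul_le_mul_of_nonneg_left h2 hB]
        have h5 : C * (1 + Real.sqrt B * ((R : ℝ) + 1) ^ (p / 2)) ≤
            B / 2 * ((R : ℝ) + 1) ^ (p / 2) := by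
          have := mul_le_mul_of_nonneg_right hsmall (zero_le_one.trans hq)
          nlinarith
        nlinarith
  refine ⟨B, hB, fun R => ?_⟩
  have ht : Filter.Tendsto (fun i : ℕ => B * ((R : ℝ) + 1) ^ ((1 / 2 : ℝ) ^ i)) Filter.atTop
      (nhds B) := by
    have h0 := tendsto_pow_atTop_nhds_zero_of_lt_one (by norm_num : (0 : ℝ) ≤ 1 / 2) (by norm_num)
    have h1 := ((Real.continuous_const_rpow (by positivity : ((R : ℝ) + 1) ≠ 0)).tendsto 0).comp h0
    simpa using h1.const_mul B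
  exact ge_of_tendsto' ht fun i => all i R

end Vale.Agent.P204.Inv
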