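import Vale.Agent.P204.Inv.Kernel
import Vale.Agent.P204.Inv.Estimate
import Vale.Agent.P204.Inv.Phase

/-! The anti-invariant part of an exact positive current vanishes (P204). -/

namespace Vale.Agent.P204.Inv

open Vale.Agent.P229 (P2)
open Vale.Agent.P205.Fourier
open Vale.Agent.P205.Beltrami
open scoped ComplexConjugate
open Finset Filter Topology

lemma exp_freq (n : Z2) (r : P2) :
    Complex.exp (freq e1 e2 n r) = ee r.1 n.1 * ee r.2 n.2 := by
  rw [ee, ee, ← Complex.exp_add, freq_apply, m1, m2, l1, l2]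
  congr 1
  simp [Vale.Agent.P205.det2]
  ring

lemma ker1_ext {Λ : ℤ → ℝ} {M M' : ℕ} (h : M ≤ M') (hs : ∀ n, Λ n ≠ 0 → |n| ≤ (M : ℤ)) (r : ℝ) :
    ker1 Λ M' r = ker1 Λ M r := by
  rw [ker1, ker1]
  refine (sum_subset (Icc_subset_Icc (by omega) (by omega)) fun n _ hn => ?_).symm
  by_cases h0 : Λ n = 0
  · simp [h0]
  · exact absurd (mem_Icc.2 (abs_le.1 (hs n h0))) hn

lemma mem_box_supp {M : ℕ} {a b : ℤ → ℝ} (ha : ∀ n, a n ≠ 0 → |n| ≤ (M : ℤ))
    (hb : ∀ n, b n ≠ 0 → |n| ≤ (M : ℤ)) (n : Z2) (hn : n ∉ box M) : a n.1 * b n.2 = 0 := by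
  by_contra h
  exact hn (mem_box.2 ⟨ha _ (left_ne_zero_of_mul h), hb _ (right_ne_zero_of_mul h)⟩)

lemma tri_props {N : ℕ} (hN : 1 ≤ N) (a : ℤ) :
    0 ≤ tri N a ∧ tri N a ≤ 1 ∧ (tri N a ≠ 0 → |a| ≤ (N : ℤ)) ∧ tri N (-a) = tri N a ∧
      ∀ b, |tri N a - tri N b| ≤ |((a - b : ℤ) : ℝ)| / N := by
  have hN' : (0 : ℝ) < N := by exact_mod_cast hN
  refine ⟨le_max_left _ _, max_le zero_le_one (sub_le_self _ (by positivity)), fun h => ?_, ?_,
    fun b => ?_⟩
  · by_contra hc
    refine h (max_eq_left ?_)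
    rw [sub_nonpos, one_le_div hN', ← Int.cast_abs]
    exact_mod_cast (not_le.1 hc).le
  · simp [tri]
  · rw [tri, tri, max_comm (0 : ℝ), max_comm (0 : ℝ)]
    refine (abs_max_sub_max_le_abs _ _ _).trans ?_
    rw [show 1 - |(a : ℝ)| / N - (1 - |(b : ℝ)| / N) = -((|(a : ℝ)| - |(b : ℝ)|) / N) by ring,
      abs_neg, abs_div, abs_of_pos hN']
    push_cast
    exact div_le_div_of_nonneg_right (abs_abs_sub_abs_le_abs_sub _ _) hN'.le

/-- The squared triangle weight on frequencies. -/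
noncomputable def triW (N : ℕ) (n : Z2) : ℝ := tri N n.1 * tri N n.2

/-- The Jackson weight on frequencies. -/
noncomputable def jackW (j : ℕ) (n : Z2) : ℝ := jack (2 ^ j) n.1 * jack (2 ^ j) n.2

lemma sub_mul_le {a b c d A : ℝ} (hb : |b| ≤ A) (hc : |c| ≤ A) :
    |a * b - c * d| ≤ A * |a - c| + A * |b - d| := by
  rw [show a * b - c * d = (a - c) * b + c * (b - d) by ring]
  refine (abs_add_le _ _).trans (add_le_add ?_ ?_)
  · rw [abs_mul, mul_comm]
    exact mul_le_mul_of_nonneg_right hb (abs_nonneg _)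
  · rw [abs_mul]
    exact mul_le_mul_of_nonneg_right hc (abs_nonneg _)

lemma triW_lip {N : ℕ} (hN : 1 ≤ N) (n m : Z2) :
    |triW N n - triW N (n - m)| ≤ 1 / N * (w m : ℝ) := by
  have h1 := (tri_props hN n.1).2.2.2.2 (n.1 - m.1)
  have h2 := (tri_props hN n.2).2.2.2.2 (n.2 - m.2)
  rw [sub_sub_cancel] at h1 h2
  have hb : ∀ a, |tri N a| ≤ (1 : ℝ) := fun a => by
    rw [abs_of_nonneg (tri_props hN a).1]; exact (tri_props hN a).2.1
  refine (sub_mul_le (hb _) (hb _)).trans ?_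
  simp only [Prod.fst_sub, Prod.snd_sub, one_mul]
  refine (add_le_add h1 h2).trans ?_
  rw [← add_div, div_eq_mul_one_div, mul_comm]
  refine mul_le_mul_of_nonneg_left ?_ (by positivity)
  linarith [abs_le_w m]

lemma jack_neg (N : ℕ) (n : ℤ) : jack N (-n) = jack N n := by
  rw [jack_eq, jack_eq]
  congr 1
  have key : ∀ k, ∀ i ∈ Icc (0 : ℤ) (2 * N), conv N i * conv N (i + k) ≠ 0 →
      i + k ∈ Icc (0 : ℤ) (2 * N) := fun k i _ h => by
    obtain ⟨h1, h2⟩ := conv_supp (right_ne_zero_of_mul h)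
    exact mem_Icc.2 ⟨h1, by omega⟩
  refine sum_bij_ne_zero (fun i _ _ => i + -n) (fun i hi h => key _ i hi h)
    (fun i _ _ j _ _ h => by simpa using h) (fun i hi h => ?_) fun i _ _ => ?_
  · refine ⟨i + n, key _ i hi h, ?_, by ring⟩
    rw [add_neg_cancel_right, mul_comm]
    exact h
  · rw [show i + -n + n = i by ring, mul_comm]

lemma jackW_facts (j : ℕ) : (∀ n, 0 ≤ jackW j n ∧ jackW j n ≤ 64 ∧ jackW j (-n) = jackW j n) ∧
    (∀ n, n ∉ box (2 * 2 ^ j) → jackW j n = 0) ∧ 1 / 4 ≤ jackW j 0 ∧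
    ∀ n m, |jackW j n - jackW j (n - m)| ≤ 64 / (2 : ℝ) ^ j * (w m : ℝ) := by
  obtain ⟨hf, h0, hl⟩ := jack_facts (N := 2 ^ j) Nat.one_le_two_pow
  have hb : ∀ a, |jack (2 ^ j) a| ≤ (8 : ℝ) := fun a => by
    rw [abs_of_nonneg (hf a).1]; exact (hf a).2.1
  have hs : ∀ a, jack (2 ^ j) a ≠ 0 → |a| ≤ ((2 * 2 ^ j : ℕ) : ℤ) := fun a ha => by
    have := (hf a).2.2 ha
    push_cast at this ⊢
    exact this
  refine ⟨fun n => ⟨mul_nonneg (hf _).1 (hf _).1, ?_, ?_⟩, fun n hn => mem_box_supp hs hs n hn,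
    ?_, fun n m => ?_⟩
  · calc jackW j n ≤ 8 * 8 := mul_le_mul (hf _).2.1 (hf _).2.1 (hf _).1 (by norm_num)
      _ = 64 := by norm_num
  · simp [jackW, jack_neg]
  · calc (1 : ℝ) / 4 = 1 / 2 * (1 / 2) := by norm_num
      _ ≤ jackW j 0 := mul_le_mul h0 h0 (by norm_num) (hf _).1
  · have h1 := hl n.1 (n.1 - m.1)
    have h2 := hl n.2 (n.2 - m.2)
    rw [sub_sub_cancel] at h1 h2
    refine (sub_mul_le (hb _) (hb _)).trans ?_
    simp only [Prod.fst_sub, Prod.snd_sub]
    push_cast at h1 h2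
    calc _ ≤ 8 * (8 * |(m.1 : ℝ)| / 2 ^ j) + 8 * (8 * |(m.2 : ℝ)| / 2 ^ j) := by gcongr
      _ = 64 / 2 ^ j * (|(m.1 : ℝ)| + |(m.2 : ℝ)|) := by ring
      _ ≤ _ := mul_le_mul_of_nonneg_left (by linarith [abs_le_w m]) (by positivity)

variable {S : Str} (X : Cur S)

/-- The square sum of one frequency. -/
noncomputable def an (n : Z2) : ℝ := nsq fun k => X.φ k n

/-- The wedge square of one frequency. -/
noncomputable def bn (n : Z2) : ℝ := Bp (fun k => X.φ k n) fun k => X.φ k n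

lemma finset_box (s : Finset Z2) : ∃ M, s ⊆ box M := by
  refine ⟨s.sup fun n => n.1.natAbs + n.2.natAbs, fun n hn => mem_box.2 ?_⟩
  have := Finset.le_sup (f := fun n : Z2 => n.1.natAbs + n.2.natAbs) hn
  simp only [Int.abs_eq_natAbs]
  constructor <;> omega

lemma sum_an_le {B : ℝ} (hB : ∀ R, F X R ≤ B) (s : Finset Z2) : ∑ n ∈ s, an X n ≤ B ^ 2 := by
  obtain ⟨M, hM⟩ := finset_box s
  refine (sum_le_sum_of_subset_of_nonneg hM fun n _ _ => nsq_nonneg _).trans ?_
  have := F_sq X M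
  exact this.symm.trans_le (pow_le_pow_left₀ (F_nonneg X M) (hB M) 2)

lemma summable_an {B : ℝ} (hB : ∀ R, F X R ≤ B) : Summable (an X) :=
  summable_of_sum_le (fun _ => nsq_nonneg _) fun s => sum_an_le X hB s

lemma summable_bn {B : ℝ} (hB : ∀ R, F X R ≤ B) : Summable (bn X) :=
  Summable.of_norm_bounded (summable_an X hB) fun _ => Bp_abs_le _

lemma hB1 (a b : C6) (r : ℝ) : Bp a (fun k => (r : ℂ) * b k) = r * Bp a b := by
  simp [Bp, Finset.mul_sum, Complex.mul_re]
  exact Finset.sum_congr rfl fun k _ => by ring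

lemma hB2 (b : C6) (r : ℝ) :
    Bp (fun k => (r : ℂ) * b k) (fun k => (r : ℂ) * b k) = r ^ 2 * Bp b b := by
  simp [Bp, star', Fin.sum_univ_six, Complex.mul_re]; ring

lemma hN2 (b : C6) (r : ℝ) : (nsq fun k => (r : ℂ) * b k) = r ^ 2 * nsq b := by
  simp [nsq, Finset.mul_sum, mul_pow]

lemma triW_lim (n : Z2) : Tendsto (fun N : ℕ => triW (N + 1) n) atTop (𝓝 1) := by
  have h : ∀ a : ℤ, Tendsto (fun N : ℕ => tri (N + 1) a) atTop (𝓝 1) := fun a => by
    have h1 : Tendsto (fun N : ℕ => 1 - |(a : ℝ)| / ((N + 1 : ℕ) : ℝ)) atTop (𝓝 (1 - 0)) :=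
      ((tendsto_const_div_atTop_nhds_zero_nat _).comp (tendsto_add_atTop_nat 1)).const_sub 1
    have h2 := (tendsto_const_nhds (x := (0 : ℝ))).max h1
    simpa [tri] using h2
  simpa [triW] using (h n.1).mul (h n.2)

theorem sq_le_wedge {B : ℝ} (hB : ∀ R, F X R ≤ B) :
    ∃ c > 0, c * ∑' n, an X n ≤ S.σ * ∑' n, bn X n := by
  obtain ⟨c, hc, hpos⟩ := bp_lower S
  refine ⟨c, hc, ?_⟩
  let G : ℝ := ∑ k, ∑ l, (∑' m, aw S k l m) * ∑' m, aw S k l m * B ^ 2
  have hN : ∀ N : ℕ, c * ∑' n, triW (N + 1) n ^ 2 * an X n -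
      1 / c * (6 * (1 / ((N + 1 : ℕ) : ℝ)) ^ 2 * G) ≤
      S.σ * ∑' n, triW (N + 1) n ^ 2 * bn X n := by
    intro N
    have hN1 : 1 ≤ N + 1 := Nat.le_add_left 1 N
    have hs : ∀ n, n ∉ box (N + 1) → triW (N + 1) n = 0 :=
      mem_box_supp (fun a => (tri_props hN1 a).2.2.1) fun a => (tri_props hN1 a).2.2.1
    have hsa : ∀ k l, Summable fun m => aw S k l m := fun k l => by
      simpa using summable_aw k l 0
    have hP := hpos (fun k n => (triW (N + 1) n : ℂ) * X.φ k n)
      (fun k => rapid_fin (s := box (N + 1)) fun n hn => by simp [hs n hn])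
      (fun k n => by
        simp [triW, (tri_props hN1 _).2.2.2.1, X.φ_conj])
    simp only [hB2, hN2] at hP
    have hd := (defect_sums X hs (triW_lip hN1) (g := fun m => G1 X (N + 1 + w m))
      (f := fun _ => B ^ 2) (fun m => le_rfl)
      (fun m => (F_sq X _).symm.trans_le (pow_le_pow_left₀ (F_nonneg X _) (hB _) 2))
      (fun k l => by
        refine Summable.of_nonneg_of_le (fun m => mul_nonneg (aw_nonneg k l m)
          (sum_nonneg fun _ _ => sum_nonneg fun _ _ => norm_nonneg _)) (fun m => ?_)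
          ((summable_aw (S := S) k l 1).mul_left (3 * (2 * ((N + 1 : ℕ) : ℝ) + 3) * B))
        have hB0 : 0 ≤ B := (F_nonneg X 0).trans (hB 0)
        calc aw S k l m * G1 X (N + 1 + w m)
            ≤ aw S k l m * (3 * (2 * ((N + 1 + w m : ℕ) : ℝ) + 1) * B) :=
              mul_le_mul_of_nonneg_left ((G1_le X _).trans
                (mul_le_mul_of_nonneg_left (hB _) (by positivity))) (aw_nonneg k l m)
          _ ≤ aw S k l m * (3 * (2 * ((N + 1 : ℕ) : ℝ) + 3) * B * ((w m : ℝ) + 1) ^ 1) := by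
              refine mul_le_mul_of_nonneg_left ?_ (aw_nonneg k l m)
              have : (0 : ℝ) ≤ (w m : ℝ) * (((N + 1 : ℕ) : ℝ)) := by positivity
              have hw : (1 : ℝ) ≤ (w m : ℝ) := by
                exact_mod_cast (show 1 ≤ w m by unfold w; omega)
              push_cast at this ⊢
              nlinarith
          _ = _ := by ring)
      (fun k l => (hsa k l).mul_right _)).2
    refine le_trans ?_ hP
    refine sub_le_sub le_rfl (mul_le_mul_of_nonneg_left ?_ (by positivity))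
    simpa [G, mul_pow] using hd
  have hle : ∀ (N : ℕ) n, triW (N + 1) n ^ 2 ≤ 1 := fun N n => by
    have h := fun a => tri_props (Nat.le_add_left 1 N) a
    exact pow_le_one₀ (mul_nonneg (h _).1 (h _).1) (mul_le_one₀ (h _).2.1 (h _).1 (h _).2.1)
  have la : Tendsto (fun N : ℕ => ∑' n, triW (N + 1) n ^ 2 * an X n) atTop (𝓝 (∑' n, an X n)) :=
    tendsto_tsum_of_dominated_convergence (summable_an X hB)
      (fun n => by simpa using ((triW_lim n).pow 2).mul_const (an X n))
      (Eventually.of_forall fun N n => by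
        rw [norm_mul, Real.norm_eq_abs, Real.norm_eq_abs, abs_of_nonneg (sq_nonneg _),
          abs_of_nonneg (a := an X n) (nsq_nonneg _)]
        exact mul_le_of_le_one_left (nsq_nonneg _) (hle N n))
  have lb : Tendsto (fun N : ℕ => ∑' n, triW (N + 1) n ^ 2 * bn X n) atTop (𝓝 (∑' n, bn X n)) :=
    tendsto_tsum_of_dominated_convergence (summable_an X hB)
      (fun n => by simpa using ((triW_lim n).pow 2).mul_const (bn X n))
      (Eventually.of_forall fun N n => by
        rw [norm_mul, Real.norm_eq_abs, Real.norm_eq_abs, abs_of_nonneg (sq_nonneg _)]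
        exact (mul_le_of_le_one_left (abs_nonneg _) (hle N n)).trans (Bp_abs_le _))
  have l0 : Tendsto (fun N : ℕ => 1 / c * (6 * (1 / ((N + 1 : ℕ) : ℝ)) ^ 2 * G)) atTop (𝓝 0) := by
    have h := (((tendsto_const_div_atTop_nhds_zero_nat (1 : ℝ)).comp
      (tendsto_add_atTop_nat 1)).pow 2).const_mul 6 |>.mul_const G |>.const_mul (1 / c)
    simpa using h
  have := le_of_tendsto_of_tendsto ((la.const_mul c).sub l0) (lb.const_mul S.σ)
    (Eventually.of_forall hN)
  simpa using this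

lemma G1_lim {B : ℝ} (hB : ∀ R, F X R ≤ B) :
    Tendsto (fun R : ℕ => G1 X R / (2 * R + 1)) atTop (𝓝 0) := by
  have hG : ∀ R, 0 ≤ G1 X R := fun R => sum_nonneg fun _ _ => sum_nonneg fun _ _ => norm_nonneg _
  rw [Metric.tendsto_atTop]
  intro ε hε
  obtain ⟨s, hs⟩ := (summable_iff_vanishing_norm.1 (summable_an X hB)) ((ε / 8) ^ 2) (by positivity)
  obtain ⟨R0, hR0⟩ := finset_box s
  obtain ⟨R1, hR1⟩ := exists_nat_gt (G1 X R0 / (ε / 4))
  refine ⟨max R0 R1, fun R hR => ?_⟩
  have hp : (0 : ℝ) < 2 * R + 1 := by positivity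
  set d : ℝ := ε / 8 / (2 * R + 1) with hd
  have hd0 : 0 < d := by positivity
  have hsub : box R0 ⊆ box R := box_mono (le_of_max_le_left hR)
  have htail : ∑ n ∈ box R \ box R0, an X n ≤ (ε / 8) ^ 2 := by
    have := hs (box R \ box R0) (Finset.disjoint_left.2 fun n h1 h2 => (mem_sdiff.1 h1).2 (hR0 h2))
    rw [Real.norm_eq_abs] at this
    exact (le_abs_self _).trans this.le
  have h2 : ∑ n ∈ box R \ box R0, ∑ k, ‖X.φ k n‖ ≤
      ∑ n ∈ box R \ box R0, (an X n / (2 * d) + 3 * d) := by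
    refine sum_le_sum fun n _ => ?_
    have h6 : ∑ k, ‖X.φ k n‖ ≤ ∑ k : Fin 6, (‖X.φ k n‖ ^ 2 / (2 * d) + d / 2) :=
      sum_le_sum fun k _ => by
        rw [div_add_div _ _ (by positivity) two_ne_zero, le_div_iff₀ (by positivity)]
        nlinarith [sq_nonneg (‖X.φ k n‖ - d)]
    refine h6.trans_eq ?_
    rw [sum_add_distrib, sum_const, card_univ, Fintype.card_fin, ← sum_div, an, nsq]
    simp
    ring
  have hc : ((box R \ box R0).card : ℝ) ≤ (2 * R + 1) ^ 2 := by
    rw [← card_box]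
    exact_mod_cast card_le_card sdiff_subset
  have h3 : ∑ n ∈ box R \ box R0, ∑ k, ‖X.φ k n‖ ≤ (2 * R + 1) * (ε / 2) := by
    refine h2.trans ?_
    rw [sum_add_distrib, sum_const, nsmul_eq_mul, ← sum_div]
    calc _ ≤ (ε / 8) ^ 2 / (2 * d) + (2 * (R : ℝ) + 1) ^ 2 * (3 * d) := by gcongr
      _ = (2 * R + 1) * (ε / 16 + 3 * ε / 8) := by rw [hd]; field_simp; ring
      _ ≤ _ := mul_le_mul_of_nonneg_left (by linarith) hp.le
  have h4 : G1 X R0 ≤ (2 * R + 1) * (ε / 4) := by
    rw [div_lt_iff₀ (by positivity)] at hR1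
    have : (R1 : ℝ) ≤ R := by exact_mod_cast le_of_max_le_right hR
    nlinarith
  rw [dist_zero_right, Real.norm_eq_abs, abs_of_nonneg (div_nonneg (hG R) hp.le), div_lt_iff₀ hp]
  rw [G1, ← sum_sdiff hsub]
  rw [G1] at h4
  nlinarith

theorem wedge_nonpos (hK : KernelSpec) {B : ℝ} (hB : ∀ R, F X R ≤ B) :
    S.σ * ∑' n, bn X n ≤ 0 := by
  have hB0 : 0 ≤ B := (F_nonneg X 0).trans (hB 0)
  obtain ⟨-, -, C, hC⟩ := hK
  have hσ : |S.σ| = 1 := by rw [← Real.sqrt_sq_eq_abs, S.σ_sq, Real.sqrt_one]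
  let M : ℕ → ℕ := fun j => 2 * 2 ^ j
  let g : ℕ → Z2 → ℝ := fun j m => G1 X (M j + w m)
  -- the weighted bound of one scale
  let e : ℕ → ℝ := fun j => ∑ k, ∑ l, ∑' m, aw S k l m * (64 / (2 : ℝ) ^ j * g j m)
  have hg : ∀ j m, 0 ≤ 64 / (2 : ℝ) ^ j * g j m ∧
      64 / (2 : ℝ) ^ j * g j m ≤ 1344 * B * ((w m : ℝ) + 1) ^ 1 := by
    intro j m
    have h2 : (1 : ℝ) ≤ 2 ^ j := one_le_pow₀ (by norm_num)
    refine ⟨mul_nonneg (by positivity)
      (sum_nonneg fun _ _ => sum_nonneg fun _ _ => norm_nonneg _), ?_⟩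
    calc 64 / (2 : ℝ) ^ j * g j m
        ≤ 64 / (2 : ℝ) ^ j * (3 * (2 * ((M j + w m : ℕ) : ℝ) + 1) * B) :=
          mul_le_mul_of_nonneg_left ((G1_le X _).trans
            (mul_le_mul_of_nonneg_left (hB _) (by positivity))) (by positivity)
      _ ≤ _ := by
          rw [div_mul_eq_mul_div, div_le_iff₀ (by positivity)]
          have : (0 : ℝ) ≤ (w m : ℝ) := by positivity
          simp only [M]
          push_cast
          nlinarith [mul_nonneg hB0 (mul_nonneg this (sub_nonneg.2 h2)),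
            mul_nonneg hB0 (sub_nonneg.2 h2), mul_nonneg hB0 this]
  have sg : ∀ k l j, Summable fun m => aw S k l m * g j m := fun k l j => by
    have h := Summable.of_nonneg_of_le (fun m => mul_nonneg (aw_nonneg k l m) (hg j m).1)
      (fun m => (mul_le_mul_of_nonneg_left (hg j m).2 (aw_nonneg k l m)).trans_eq (by ring))
      ((summable_aw (S := S) k l 1).mul_left (1344 * B))
    refine (h.mul_left ((2 : ℝ) ^ j / 64)).congr fun m => ?_
    field_simp
  have he : Tendsto e atTop (𝓝 0) := by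
    have hM : ∀ m, Tendsto (fun j => M j + w m) atTop atTop := fun m =>
      tendsto_atTop_mono (fun j => by
        show j ≤ M j + w m
        simp only [M]
        have := Nat.lt_two_pow_self (n := j)
        omega)
        tendsto_id
    have hpt : ∀ m : Z2, Tendsto (fun j => 64 / (2 : ℝ) ^ j * g j m) atTop (𝓝 0) := by
      intro m
      have hu := ((G1_lim X hB).comp (hM m)).const_mul (64 * (5 + 2 * (w m : ℝ)))
      rw [mul_zero] at hu
      refine squeeze_zero (fun j => (hg j m).1) (fun j => ?_) hu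
      have h2 : (1 : ℝ) ≤ 2 ^ j := one_le_pow₀ (by norm_num)
      have hgq : 0 ≤ g j m / (2 * ((M j + w m : ℕ) : ℝ) + 1) :=
        div_nonneg (sum_nonneg fun _ _ => sum_nonneg fun _ _ => norm_nonneg _) (by positivity)
      have hb : 2 * ((M j + w m : ℕ) : ℝ) + 1 ≤ (5 + 2 * (w m : ℝ)) * 2 ^ j := by
        simp only [M]
        push_cast
        nlinarith [mul_nonneg (show (0 : ℝ) ≤ (w m : ℝ) by positivity) (sub_nonneg.2 h2)]
      simp only [Function.comp]
      calc 64 / (2 : ℝ) ^ j * g j m = 64 / (2 : ℝ) ^ j * ((2 * ((M j + w m : ℕ) : ℝ) + 1) *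
            (g j m / (2 * ((M j + w m : ℕ) : ℝ) + 1))) := by field_simp
        _ ≤ 64 / (2 : ℝ) ^ j * ((5 + 2 * (w m : ℝ)) * 2 ^ j *
            (g j m / (2 * ((M j + w m : ℕ) : ℝ) + 1))) := by gcongr
        _ = _ := by field_simp; rfl
    have : Tendsto e atTop (𝓝 (∑ k : Fin 6, ∑ l : Fin 6, ∑' _m : Z2, (0 : ℝ))) := by
      refine tendsto_finsetSum _ fun k _ => tendsto_finsetSum _ fun l _ => ?_
      refine tendsto_tsum_of_dominated_convergence ((summable_aw (S := S) k l 1).mul_left (1344 * B))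
        (fun m => by simpa using (hpt m).const_mul (aw S k l m))
        (Eventually.of_forall fun j m => ?_)
      rw [Real.norm_eq_abs, abs_of_nonneg (mul_nonneg (aw_nonneg k l m) (hg j m).1)]
      exact (mul_le_mul_of_nonneg_left (hg j m).2 (aw_nonneg k l m)).trans_eq (by ring)
    simpa using this
  -- the deviation from the value at the origin
  let δ : ℕ → ℝ := fun j => |∑' n, (jackW j n - jackW j 0) * bn X n|
  have hδ : Tendsto δ atTop (𝓝 0) := by
    have hd : ∀ j n, ‖(jackW j n - jackW j 0) * bn X n‖ ≤ 64 * an X n := fun j n => by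
      rw [norm_mul, Real.norm_eq_abs, Real.norm_eq_abs]
      refine mul_le_mul ?_ (Bp_abs_le _) (abs_nonneg _) (by norm_num)
      have := (jackW_facts j).1 n
      have := (jackW_facts j).1 0
      rw [abs_le]
      constructor <;> linarith
    have hp : ∀ n, Tendsto (fun j => (jackW j n - jackW j 0) * bn X n) atTop (𝓝 0) := fun n => by
      have h0 : Tendsto (fun j => 64 / (2 : ℝ) ^ j * (w n : ℝ)) atTop (𝓝 0) := by
        have := ((tendsto_pow_atTop_nhds_zero_of_lt_one (r := (1 / 2 : ℝ)) (by norm_num)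
          (by norm_num)).const_mul 64).mul_const (w n : ℝ)
        simpa [div_eq_mul_inv, inv_pow] using this
      have h1 : Tendsto (fun j => jackW j n - jackW j 0) atTop (𝓝 0) := by
        refine squeeze_zero_norm (fun j => ?_) h0
        simpa using (jackW_facts j).2.2.2 n n
      simpa using h1.mul_const (bn X n)
    have := (tendsto_tsum_of_dominated_convergence ((summable_an X hB).mul_left 64) hp
      (Eventually.of_forall hd)).abs
    simpa using this
  -- the identity at one scale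
  let T : ℕ → ℝ := fun j => ∑ n ∈ box (M j), jackW j n * Bp (fun k => X.t k n) fun k => X.t k n
  let ρ : ℕ → ℝ := fun j => 2 * (X.Ct * e j) + δ j
  have hone : ∀ j, S.σ * T j + jackW j 0 * (S.σ * ∑' n, bn X n) ≤ ρ j := by
    intro j
    obtain ⟨hj, hsupp, -, hlip⟩ := jackW_facts j
    have hC := X.cross (box (M j)) (fun k n => (jackW j n : ℂ) * X.φ k n)
      (fun k n hn => by simp [hsupp n hn])
      (fun k n => by simp [(hj n).2.2, X.φ_conj])
    simp only [hB1] at hC
    have hd := (defect_sums X hsupp hlip (g := g j) (f := fun _ => B ^ 2) (fun m => le_rfl)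
      (fun m => (F_sq X _).symm.trans_le (pow_le_pow_left₀ (F_nonneg X _) (hB _) 2))
      (fun k l => sg k l j) (fun k l => by
        have : Summable fun m => aw S k l m := by simpa using summable_aw k l 0
        exact this.mul_right _)).1
    have hde : 64 / (2 : ℝ) ^ j * ∑ k, ∑ l, ∑' m, aw S k l m * g j m = e j := by
      simp only [e, mul_sum, ← tsum_mul_left]
      exact sum_congr rfl fun k _ => sum_congr rfl fun l _ => tsum_congr fun m => by ring
    have h1 : |S.σ * ∑ n ∈ box (M j), jackW j n * Bp (fun k => X.t k n) (fun k => X.φ k n)| ≤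
        X.Ct * e j := by
      rw [abs_mul, hσ, one_mul]
      exact hC.trans (mul_le_mul_of_nonneg_left (hd.trans_eq hde) X.Ct_nonneg)
    have hsum : ∑ n ∈ box (M j), jackW j n * bn X n =
        jackW j 0 * ∑' n, bn X n + ∑' n, (jackW j n - jackW j 0) * bn X n := by
      rw [show ∑ n ∈ box (M j), jackW j n * bn X n = ∑' n, jackW j n * bn X n from
        (tsum_eq_sum fun n hn => by simp [hsupp n hn]).symm, ← tsum_mul_left]
      have s1 : Summable fun n => jackW j n * bn X n :=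
        summable_of_ne_finset_zero (s := box (M j)) fun n hn => by simp [hsupp n hn]
      have s0 : Summable fun n => jackW j 0 * bn X n := (summable_bn X hB).mul_left _
      rw [← s0.tsum_add (by simpa [sub_mul] using s1.sub s0)]
      exact tsum_congr fun n => by ring
    have hE : T j + 2 * ∑ n ∈ box (M j), jackW j n * Bp (fun k => X.t k n) (fun k => X.φ k n) +
        ∑ n ∈ box (M j), jackW j n * bn X n = 0 := by
      rw [mul_sum, ← sum_add_distrib, ← sum_add_distrib]
      refine sum_eq_zero fun n _ => ?_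
      have h := X.exact n
      rw [Bp_add] at h
      simp only [bn]
      linear_combination jackW j n * h
    rw [hsum] at hE
    have h2 : |S.σ * ∑' n, (jackW j n - jackW j 0) * bn X n| = δ j := by
      rw [abs_mul, hσ, one_mul]
    have hE' := congrArg (S.σ * ·) hE
    simp only [mul_add, mul_zero] at hE'
    simp only [ρ]
    nlinarith [abs_le.1 h1, abs_le.1 h2.le]
  -- all scales together
  have hall : ∀ J, (∑ j ∈ range J, jackW j 0) * (S.σ * ∑' n, bn X n) ≤
      X.Ct * C + ∑ j ∈ range J, ρ j := by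
    intro J
    have hext : ∀ j ∈ range J, ∀ f : Z2 → ℝ,
        ∑ n ∈ box (M J), jackW j n * f n = ∑ n ∈ box (M j), jackW j n * f n := by
      intro j hj f
      refine (sum_subset (box_mono ?_) fun n _ hn => by simp [(jackW_facts j).2.1 n hn]).symm
      simp only [M]
      exact Nat.mul_le_mul_left 2 (Nat.pow_le_pow_right (by norm_num) (mem_range.1 hj).le)
    have hS := X.self (box (M J)) (fun n => ∑ j ∈ range J, jackW j n) C fun r => by
      obtain ⟨x, hx, hsum⟩ := hC r.1 r.2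
      refine ⟨∑ j ∈ range J, x j, sum_nonneg fun j _ => (hx j).1, ?_, hsum J⟩
      rw [Complex.ofReal_sum]
      simp only [Complex.ofReal_sum, sum_mul]
      rw [sum_comm]
      refine sum_congr rfl fun j hj => ?_
      have hle : 2 * 2 ^ j ≤ M J :=
        Nat.mul_le_mul_left 2 (Nat.pow_le_pow_right (by norm_num) (mem_range.1 hj).le)
      have hs : ∀ a, jack (2 ^ j) a ≠ 0 → |a| ≤ ((2 * 2 ^ j : ℕ) : ℤ) := fun a ha => by
        have := ((jack_facts (N := 2 ^ j) Nat.one_le_two_pow).1 a).2.2 ha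
        push_cast at this ⊢
        exact this
      rw [← (hx j).2, ← ker1_ext hle hs, ← ker1_ext hle hs, ← ker_box]
      rfl
    simp only [sum_mul] at hS
    rw [sum_comm, sum_congr rfl fun j hj => hext j hj _, mul_sum] at hS
    have h := sum_le_sum (s := range J) fun j _ => hone j
    rw [sum_add_distrib, ← sum_mul] at h
    linarith
  by_contra hlt
  rw [not_le] at hlt
  have hρ : Tendsto ρ atTop (𝓝 0) := by
    simpa using ((he.const_mul X.Ct).const_mul 2).add hδ
  have hces : Tendsto (fun J : ℕ => (J : ℝ)⁻¹ * (X.Ct * C) + (J : ℝ)⁻¹ * ∑ j ∈ range J, ρ j)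
      atTop (𝓝 0) := by
    have h1 := (tendsto_inv_atTop_nhds_zero_nat (𝕜 := ℝ)).mul_const (X.Ct * C)
    simpa using h1.add hρ.cesaro
  obtain ⟨J, hJ1, hJ⟩ := ((eventually_gt_atTop 0).and
    (hces.eventually_lt_const (show (0 : ℝ) < 1 / 4 * (S.σ * ∑' n, bn X n) by linarith))).exists
  have hJ' : (0 : ℝ) < J := by exact_mod_cast hJ1
  have h14 : (J : ℝ) * (1 / 4) ≤ ∑ j ∈ range J, jackW j 0 := by
    calc (J : ℝ) * (1 / 4) = ∑ _j ∈ range J, (1 / 4 : ℝ) := by simp
      _ ≤ _ := sum_le_sum fun j _ => (jackW_facts j).2.2.1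
  rw [← mul_add, inv_mul_lt_iff₀ hJ'] at hJ
  nlinarith [hall J, mul_le_mul_of_nonneg_right h14 hlt.le]

/-- The anti-invariant part vanishes once its square sums are bounded. -/
theorem phi_zero_of_bound (hK : KernelSpec) (X : Cur S) (hG : ∃ B, 0 ≤ B ∧ ∀ R, F X R ≤ B) :
    ∀ k n, X.φ k n = 0 := by
  obtain ⟨B, -, hB⟩ := hG
  obtain ⟨c, hc, h1⟩ := sq_le_wedge X hB
  have h2 := wedge_nonpos X hK hB
  have h0 : ∑' n, an X n ≤ 0 := nonpos_of_mul_nonpos_right (h1.trans h2) hc
  intro k n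
  have h3 : an X n ≤ 0 := ((summable_an X hB).le_tsum n fun m _ => nsq_nonneg _).trans h0
  have h4 : ‖X.φ k n‖ ^ 2 ≤ an X n :=
    single_le_sum (f := fun k => ‖X.φ k n‖ ^ 2) (fun _ _ => sq_nonneg _) (mem_univ k)
  simpa using sq_nonpos_iff _ |>.1 (h4.trans h3)

/-- The anti-invariant part of an exact positive current vanishes. -/
theorem phi_zero {S : Str} (hK : KernelSpec) (X : Cur S) : ∀ k n, X.φ k n = 0 :=
  phi_zero_of_bound hK X (growth_zero X hK)

end Vale.Agent.P204.Inv
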