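import Vale.Agent.P204.ComplexFibre
import Vale.Agent.P204.Inv.Algebra

/-! Assembly: on the four-torus, a tamed almost complex structure depending on two coordinates has
a compatible symplectic form (P204). -/

namespace Vale.Agent.P204.Inv

open Vale.Agent.P229 (P2)
open Vale.Agent.P205 (Periodic2)
open scoped ContDiff Matrix

lemma formOf_eq_mat (w : P2 → V6) (c : ℝ) (hc : ∀ u, w u 1 = c) (x : Fin 4 → ℝ) :
    formOf (fun u => w u 0) (fun u => ![w u 2, w u 5]) (fun u => ![w u 4, w u 3]) c x =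
      mat (w (base x)) := by
  ext a b
  fin_cases a <;> fin_cases b <;> simp [formOf, mat, hc]

/-- The form on the torus given by a compatible field. -/
theorem form_of_kahler {S : Str} {w : P2 → V6} (hw : Kahler S w) :
    IsClosedForm (fun x => mat (w (base x))) ∧
      (∀ x v, v ≠ 0 → 0 < v ⬝ᵥ mat (w (base x)) *ᵥ (S.J (base x) *ᵥ v)) ∧
      ∀ x, (S.J (base x))ᵀ * mat (w (base x)) * S.J (base x) = mat (w (base x)) := by
  obtain ⟨⟨⟨sw, pw⟩, hc, c2, c4⟩, ha, hp⟩ := hw
  refine ⟨?_, fun x v hv => by rw [← dot_biv]; exact hp _ v hv, fun x => ?_⟩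
  · rw [show (fun x => mat (w (base x))) = formOf (fun u => w u 0) (fun u => ![w u 2, w u 5])
      (fun u => ![w u 4, w u 3]) (w 0 1) from
        funext fun x => (formOf_eq_mat w _ (fun u => hc u 0) x).symm]
    refine isClosedForm_formOf _ (sw 0) (fun a => ?_) (fun a => ?_)
      (fun u => ⟨by simp only [(pw u).1], by simp only [(pw u).2]⟩)
      (fun u => ⟨by simp only [(pw u).1], by simp only [(pw u).2]⟩)
      (fun u => ⟨by simp only [(pw u).1], by simp only [(pw u).2]⟩) (fun u => ?_) (fun u => ?_)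
    · fin_cases a <;> simp [sw]
    · fin_cases a <;> simp [sw]
    · simpa using c2 u
    · simpa using c4 u
  · set J := S.J (base x)
    set W := mat (w (base x))
    have hW : ∀ a b, W b a = -W a b := fun a b => by
      simp only [W]; fin_cases a <;> fin_cases b <;> simp [mat]
    have hs : ∀ a b, (Jᵀ * W * J) b a = -(Jᵀ * W * J) a b := fun a b => by
      have e : (Jᵀ * W * J)ᵀ = -(Jᵀ * W * J) := by
        have hm : Wᵀ = -W := by ext p q; exact hW p q
        simp [Matrix.transpose_mul, hm, Matrix.mul_assoc]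
      exact congrFun (congrFun e a) b
    have h := ha (base x)
    rw [anti_eq, smul_eq_zero] at h
    rcases h with h | h
    · norm_num at h
    · rw [← mat_crd hs, ← sub_eq_zero.1 h]

/-- The reduction of the theorem to a compatible field. -/
theorem tamed_of_exists (J : (Fin 4 → ℝ) → M4) (hsm : ∀ a b, ContDiff ℝ ∞ fun x => J x a b)
    (hJ : ∀ x, J x * J x = -1) (hper : ∀ x k, J (x + Pi.single k 1) = J x)
    (hdep : ∀ x y, x 0 = y 0 → x 1 = y 1 → J x = J y)
    (W : (Fin 4 → ℝ) → M4) (hW : IsClosedForm W)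
    (htame : ∀ x v, v ≠ 0 → 0 < v ⬝ᵥ W x *ᵥ (J x *ᵥ v))
    (key : ∀ S : Str, (∀ x v, v ≠ 0 → 0 < v ⬝ᵥ W x *ᵥ (S.J (x 0, x 1) *ᵥ v)) →
      ∃ w, Kahler S w) :
    ∃ W' : (Fin 4 → ℝ) → M4, IsClosedForm W' ∧
      (∀ x v, v ≠ 0 → 0 < v ⬝ᵥ W' x *ᵥ (J x *ᵥ v)) ∧ ∀ x, (J x)ᵀ * W' x * J x = W' x := by
  let lift : P2 → Fin 4 → ℝ := fun u => ![u.1, u.2, 0, 0]
  let S : Str :=
    { J := fun u => J (lift u)
      smooth := fun a b => (hsm a b).comp (by
        refine contDiff_pi.2 fun i => ?_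
        fin_cases i <;> simp [lift] <;> fun_prop)
      per := fun u => ⟨(hdep _ (lift u + Pi.single 0 1) (by simp [lift]) (by simp [lift])).trans (hper _ 0),
        (hdep _ (lift u + Pi.single 1 1) (by simp [lift]) (by simp [lift])).trans (hper _ 1)⟩
      sq := fun u => hJ _ }
  have e : ∀ x, S.J (x 0, x 1) = J x := fun x => hdep _ _ (by simp [lift]) (by simp [lift])
  obtain ⟨w, hw⟩ := key S fun x v hv => by rw [e]; exact htame x v hv
  obtain ⟨h1, h2, h3⟩ := form_of_kahler hw
  have eb : ∀ x, S.J (base x) = J x := fun x => e x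
  exact ⟨_, h1, fun x v hv => eb x ▸ h2 x v hv, fun x => eb x ▸ h3 x⟩

end Vale.Agent.P204.Inv
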