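import Vale.Agent.P204.Inv.Algebra
import Vale.Agent.P205.Beltrami

/-! Coefficient families of six components, and the positivity of the wedge square on almost
anti-invariant ones (P204). -/

namespace Vale.Agent.P204.Inv

open Vale.Agent.P229 (P2)
open Vale.Agent.P205 (Periodic2)
open Vale.Agent.P205.Fourier
open Vale.Agent.P205.Beltrami
open MeasureTheory
open scoped ComplexConjugate ContDiff Matrix

abbrev C6 := Fin 6 → ℂ

/-- The Hermitian wedge pairing. -/
def Bp (a b : C6) : ℝ := ∑ k, (star' a k * conj (b k)).re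

/-- The Hermitian square. -/
noncomputable def nsq (a : C6) : ℝ := ∑ k, ‖a k‖ ^ 2

lemma Bp_symm (a b : C6) : Bp a b = Bp b a := by
  simp [Bp, star', Fin.sum_univ_six, Complex.mul_re]; ring

lemma Bp_add (a b : C6) : Bp (a + b) (a + b) = Bp a a + 2 * Bp a b + Bp b b := by
  simp [Bp, star', Fin.sum_univ_six, Complex.mul_re]; ring

lemma nsq_nonneg (a : C6) : 0 ≤ nsq a := Finset.sum_nonneg fun _ _ => sq_nonneg _

lemma Bp_abs_le (a : C6) : |Bp a a| ≤ nsq a := by
  simp only [Bp, nsq, star', Fin.sum_univ_six, Complex.sq_norm, Complex.normSq_apply,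
    Complex.mul_re, Complex.conj_re, Complex.conj_im]
  simp
  rw [abs_le]
  constructor <;>
    nlinarith [sq_nonneg ((a 0).re + (a 1).re), sq_nonneg ((a 0).im + (a 1).im),
      sq_nonneg ((a 0).re - (a 1).re), sq_nonneg ((a 0).im - (a 1).im),
      sq_nonneg ((a 2).re + (a 3).re), sq_nonneg ((a 2).im + (a 3).im),
      sq_nonneg ((a 2).re - (a 3).re), sq_nonneg ((a 2).im - (a 3).im),
      sq_nonneg ((a 4).re + (a 5).re), sq_nonneg ((a 4).im + (a 5).im),
      sq_nonneg ((a 4).re - (a 5).re), sq_nonneg ((a 4).im - (a 5).im)]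

namespace Str

variable (S : Str)

lemma continuous_J : Continuous S.J :=
  continuous_pi fun a => continuous_pi fun b => (S.smooth a b).continuous

/-- The transposed anti-invariant projection as a field. -/
noncomputable def proj (k l : Fin 6) (u : P2) : ℝ := antiC (S.J u) l k

lemma proj_smooth (k l : Fin 6) : ContDiff ℝ ∞ (S.proj k l) := by
  have h := S.smooth
  unfold proj antiC anti
  fin_cases l <;>
    (simp [crd, mat, Matrix.mul_apply, Fin.sum_univ_four]; fun_prop)

lemma proj_per (k l : Fin 6) : Periodic2 (1, 0) (0, 1) (S.proj k l) :=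
  fun u => ⟨by simp only [proj, (S.per u).1], by simp only [proj, (S.per u).2]⟩

lemma antiT_eq (u : P2) (b : V6) : antiT (S.J u) b = fun k => ∑ l, S.proj k l u * b l := rfl

lemma orient_const (u u' : P2) : orient (S.J u) = orient (S.J u') := by
  have hc : Continuous fun v => wed (refForm (S.J v)) (refForm (S.J v)) := by
    have hJ := S.continuous_J
    simp only [wed, dot, star', refForm, crd, Fin.sum_univ_six]
    simp [Matrix.mul_apply, Fin.sum_univ_four]
    fun_prop
  have hne := fun v => wed_ref_ne (S.sq v)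
  by_contra h
  simp only [orient] at h
  rcases lt_or_gt_of_ne (hne u) with a | a <;> rcases lt_or_gt_of_ne (hne u') with b | b <;>
    simp [not_lt.2 a.le, not_lt.2 b.le, a, b] at h
  · obtain ⟨c, hc0⟩ := intermediate_value_univ u u' hc ⟨a.le, b.le⟩
    exact hne c hc0
  · obtain ⟨c, hc0⟩ := intermediate_value_univ u' u hc ⟨b.le, a.le⟩
    exact hne c hc0

/-- The orientation of the structure. -/
noncomputable def σ : ℝ := orient (S.J (0, 0))

lemma σ_eq (u : P2) : orient (S.J u) = S.σ := S.orient_const _ _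

lemma σ_sq : S.σ ^ 2 = 1 := (orient_mul (S.sq _)).2

/-- Almost anti-invariant bivectors have positive square. -/
theorem wed_lower : ∃ c > 0, ∀ u b,
    c * (∑ k, b k ^ 2) - (1 / c) * ∑ k, (b k - antiT (S.J u) b k) ^ 2 ≤ S.σ * wed b b := by
  let K : Set (P2 × V6) := (Set.Icc (0, 0) (1, 1)) ×ˢ {z | ∑ k, z k ^ 2 = 1}
  have hS : IsCompact {z : V6 | ∑ k, z k ^ 2 = 1} := by
    refine (isCompact_Icc (a := fun _ => (-1 : ℝ)) (b := fun _ => (1 : ℝ))).of_isClosed_subset
      (isClosed_eq (by fun_prop) continuous_const) fun z hz => ?_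
    have h1 : ∀ k, z k ^ 2 ≤ 1 := fun k => hz ▸
      Finset.single_le_sum (f := fun k => z k ^ 2) (fun j _ => sq_nonneg _) (Finset.mem_univ k)
    exact ⟨fun k => (abs_le.1 ((sq_le_one_iff_abs_le_one _).1 (h1 k))).1,
      fun k => (abs_le.1 ((sq_le_one_iff_abs_le_one _).1 (h1 k))).2⟩
  have hK : IsCompact K := isCompact_Icc.prod hS
  have hF : ∀ l k, Continuous fun x : P2 × V6 => S.proj l k x.1 := fun l k =>
    (S.proj_smooth l k).continuous.comp continuous_fst
  -- the defect
  let D : P2 × V6 → ℝ := fun x => ∑ k, (x.2 k - antiT (S.J x.1) x.2 k) ^ 2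
  have hD : Continuous D := by
    simp only [D, antiT_eq]
    fun_prop
  have hW : Continuous fun x : P2 × V6 => S.σ * wed x.2 x.2 := by
    simp only [wed, dot, star', Fin.sum_univ_six]; simp; fun_prop
  have key : ∀ u b, D (u, b) = 0 → b ≠ 0 → 0 < S.σ * wed b b := by
    intro u b h hb
    have e : antiT (S.J u) b = b := by
      funext k
      have h' := (Finset.sum_eq_zero_iff_of_nonneg fun j _ => sq_nonneg _).1 h k (Finset.mem_univ k)
      linarith [pow_eq_zero_iff (n := 2) two_ne_zero |>.1 h']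
    have h2 : anti (S.J u) (star' b) = star' b := by rw [← star_antiT (S.sq u), e]
    have hne : star' b ≠ 0 := fun h0 => hb (by
      have := congrArg star' h0
      rw [star_star] at this
      rw [this]; funext k; fin_cases k <;> simp [star'])
    have := anti_pos (S.sq u) h2 hne
    rw [S.σ_eq] at this
    have e2 : wed (star' b) (star' b) = wed b b := by
      simp [wed, dot, star', Fin.sum_univ_six]; ring
    linarith [e2 ▸ this]
  obtain ⟨n, hn⟩ : ∃ n : ℕ, ∀ x ∈ K, 1 / ((n : ℝ) + 1) < S.σ * wed x.2 x.2 + ((n : ℝ) + 1) * D x := by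
    have hcover : K ⊆ ⋃ n : ℕ,
        {x | 1 / ((n : ℝ) + 1) < S.σ * wed x.2 x.2 + ((n : ℝ) + 1) * D x} := by
      intro x hx
      have hz : x.2 ≠ 0 := fun h => by
        have := hx.2
        simp [h] at this
      have hD0 : 0 ≤ D x := Finset.sum_nonneg fun k _ => sq_nonneg _
      simp only [Set.mem_iUnion, Set.mem_ofPred_eq]
      rcases hD0.eq_or_lt with h | h
      · obtain ⟨n, hn⟩ := exists_nat_one_div_lt (key x.1 x.2 h.symm hz)
        exact ⟨n, hn.trans_le (by rw [← h]; simp)⟩
      · obtain ⟨n, hn⟩ := exists_nat_gt ((1 + |S.σ * wed x.2 x.2|) / D x)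
        refine ⟨n, ?_⟩
        rw [div_lt_iff₀ h] at hn
        have : 1 / ((n : ℝ) + 1) ≤ 1 := by
          rw [div_le_one (by positivity)]; linarith [Nat.cast_nonneg (α := ℝ) n]
        nlinarith [neg_abs_le (S.σ * wed x.2 x.2)]
    refine hK.elim_directed_cover _ (fun n => ?_) hcover ?_ |>.imp fun n h x hx => h hx
    · exact isOpen_lt continuous_const (hW.add (continuous_const.mul hD))
    · have mono : ∀ {i j : ℕ}, i ≤ j →
          {x | 1 / ((i : ℝ) + 1) < S.σ * wed x.2 x.2 + ((i : ℝ) + 1) * D x} ⊆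
          {x | 1 / ((j : ℝ) + 1) < S.σ * wed x.2 x.2 + ((j : ℝ) + 1) * D x} := by
        intro i j hij x hx
        simp only [Set.mem_ofPred_eq] at hx ⊢
        have hle : (i : ℝ) + 1 ≤ (j : ℝ) + 1 := by exact_mod_cast Nat.succ_le_succ hij
        have h1 := one_div_le_one_div_of_le (by positivity : (0 : ℝ) < (i : ℝ) + 1) hle
        have h2 := mul_le_mul_of_nonneg_right hle
          (Finset.sum_nonneg fun k _ => sq_nonneg (x.2 k - antiT (S.J x.1) x.2 k) : 0 ≤ D x)
        linarith
      exact fun i j => ⟨max i j, mono (le_max_left i j), mono (le_max_right i j)⟩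
  refine ⟨1 / ((n : ℝ) + 1), by positivity, fun u b => ?_⟩
  rw [one_div_one_div]
  by_cases hb : b = 0
  · subst hb; simp [antiT, wed, dot, star', Fin.sum_univ_six]
  set r := ∑ k, b k ^ 2
  have hr : 0 < r := by
    obtain ⟨k, hk⟩ := Function.ne_iff.1 hb
    exact lt_of_lt_of_le (by have : b k ≠ 0 := hk; positivity) (Finset.single_le_sum
      (f := fun j => b j ^ 2) (fun j _ => sq_nonneg _) (Finset.mem_univ k))
  set u' : P2 := (Int.fract u.1, Int.fract u.2)
  have hu : S.J u = S.J u' := by
    have h1 : ∀ (a : ℤ) v, S.J (v + ((a : ℝ), 0)) = S.J v := fun a v => by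
      have hp : Function.Periodic (fun t : ℝ => S.J (v + (t, 0))) 1 := fun t => by
        dsimp only
        rw [← (S.per (v + (t, 0))).1]
        congr 1
        ext <;> simp; ring
      have := hp.int_mul a 0
      simpa [← Prod.zero_eq_mk] using this
    have h2 : ∀ (a : ℤ) v, S.J (v + (0, (a : ℝ))) = S.J v := fun a v => by
      have hp : Function.Periodic (fun t : ℝ => S.J (v + (0, t))) 1 := fun t => by
        dsimp only
        rw [← (S.per (v + (0, t))).2]
        congr 1
        ext <;> simp; ring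
      have := hp.int_mul a 0
      simpa [← Prod.zero_eq_mk] using this
    rw [← h1 ⌊u.1⌋ u', ← h2 ⌊u.2⌋ (u' + ((⌊u.1⌋ : ℝ), 0))]
    congr 1
    ext <;> simp [u', Int.fract_add_floor]
  have hx : (u', (Real.sqrt r)⁻¹ • b) ∈ K := by
    refine ⟨⟨⟨Int.fract_nonneg _, Int.fract_nonneg _⟩,
      ⟨(Int.fract_lt_one _).le, (Int.fract_lt_one _).le⟩⟩, ?_⟩
    simp only [Set.mem_ofPred_eq, Pi.smul_apply, smul_eq_mul, mul_pow, ← Finset.mul_sum]
    rw [inv_pow, Real.sq_sqrt hr.le]
    exact inv_mul_cancel₀ hr.ne'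
  have h := (hn _ hx).le
  have e1 : wed ((Real.sqrt r)⁻¹ • b) ((Real.sqrt r)⁻¹ • b) = r⁻¹ * wed b b := by
    rw [show r⁻¹ = (Real.sqrt r)⁻¹ ^ 2 by rw [inv_pow, Real.sq_sqrt hr.le]]
    simp [wed, dot, star', Fin.sum_univ_six]; ring
  have e2 : D (u', (Real.sqrt r)⁻¹ • b) = r⁻¹ * ∑ k, (b k - antiT (S.J u) b k) ^ 2 := by
    rw [Finset.mul_sum]
    refine Finset.sum_congr rfl fun k _ => ?_
    simp only [antiT, ← hu, Pi.smul_apply, smul_eq_mul]
    rw [show r⁻¹ = (Real.sqrt r)⁻¹ ^ 2 by rw [inv_pow, Real.sq_sqrt hr.le], ← mul_pow]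
    congr 1
    rw [mul_sub, Finset.mul_sum]
    congr 1
    exact Finset.sum_congr rfl fun l _ => by ring
  rw [e1, e2] at h
  have := mul_le_mul_of_nonneg_left h hr.le
  rw [mul_add, show r * (S.σ * (r⁻¹ * wed b b)) = S.σ * wed b b by field_simp,
    show r * (((n : ℝ) + 1) * (r⁻¹ * ∑ k, (b k - antiT (S.J u) b k) ^ 2)) =
      ((n : ℝ) + 1) * ∑ k, (b k - antiT (S.J u) b k) ^ 2 by field_simp] at this
  nlinarith

/-- The coefficient families of the projection. -/
noncomputable def projC (k l : Fin 6) : Cf :=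
  (exists_coeff_complex (Complex.ofRealCLM.contDiff.comp (S.proj_smooth k l))
    (fun u => ⟨congrArg Complex.ofReal (S.proj_per k l u).1,
      congrArg Complex.ofReal (S.proj_per k l u).2⟩)).choose

lemma projC_spec (k l : Fin 6) : Rapid (S.projC k l) ∧ ∀ u, evS (S.projC k l) u = S.proj k l u := by
  have h := (exists_coeff_complex (Complex.ofRealCLM.contDiff.comp (S.proj_smooth k l))
    (fun u => ⟨congrArg Complex.ofReal (S.proj_per k l u).1,
      congrArg Complex.ofReal (S.proj_per k l u).2⟩)).choose_spec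
  exact ⟨h.1, fun u => congrFun h.2 u⟩

end Str

/-- The defect of a family. -/
noncomputable def defect (S : Str) (z : Fin 6 → Cf) (k : Fin 6) : Cf :=
  z k - ∑ l, conv (S.projC k l) (z l)

lemma rapid_sum {ι : Type*} (s : Finset ι) {f : ι → Cf} (h : ∀ i ∈ s, Rapid (f i)) :
    Rapid (∑ i ∈ s, f i) := by
  classical
  induction s using Finset.induction_on with
  | empty => intro k; simp [N]
  | insert i s hi ih =>
    rw [Finset.sum_insert hi]
    exact rapid_add (h i (Finset.mem_insert_self i s))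
      (ih fun j hj => h j (Finset.mem_insert_of_mem hj))

lemma rapid_defect (S : Str) {z : Fin 6 → Cf} (hz : ∀ k, Rapid (z k)) (k : Fin 6) :
    Rapid (defect S z k) := by
  rw [defect, sub_eq_add_neg, ← neg_one_smul ℂ (∑ l, _)]
  exact rapid_add (hz k) (rapid_smul _ (rapid_sum _ fun l _ => rapid_conv (S.projC_spec k l).1 (hz l)))

lemma evS_sum {ι : Type*} (s : Finset ι) {f : ι → Cf} (h : ∀ i ∈ s, Rapid (f i)) (y : P2) :
    evS (∑ i ∈ s, f i) y = ∑ i ∈ s, evS (f i) y := by
  classical
  induction s using Finset.induction_on with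
  | empty => simp [evS, ev_eq]
  | insert i s hi ih =>
    have h' : ∀ j ∈ s, Rapid (f j) := fun j hj => h j (Finset.mem_insert_of_mem hj)
    rw [Finset.sum_insert hi, Finset.sum_insert hi, evS_add (h i (Finset.mem_insert_self i s) 0)
      (rapid_sum s h' 0), ih h']

/-- The positivity of the wedge square on the Fourier side. -/
theorem bp_lower (S : Str) : ∃ c > 0, ∀ z : Fin 6 → Cf, (∀ k, Rapid (z k)) →
    (∀ k n, z k (-n) = conj (z k n)) →
    c * (∑' n, nsq fun k => z k n) - (1 / c) * (∑' n, nsq fun k => defect S z k n) ≤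
      S.σ * ∑' n, Bp (fun k => z k n) fun k => z k n := by
  obtain ⟨c, hc, h⟩ := S.wed_lower
  refine ⟨c, hc, fun z hz hs => ?_⟩
  have par : ∀ {x : Cf}, Rapid x → ∫ y, ‖evS x y‖ ^ 2 ∂square = ∑' n, ‖x n‖ ^ 2 :=
    fun hx => parseval (hx 0)
  have hint : ∀ {x : Cf}, Rapid x → Integrable (fun y => ‖evS x y‖ ^ 2) square := fun {x} hx =>
    Integrable.of_bound ((contDiff_evS hx).continuous.norm.pow 2).aestronglyMeasurable
      ((N 0 x).toReal ^ 2) (Filter.Eventually.of_forall fun y => by
        rw [norm_pow, norm_norm]; exact pow_le_pow_left₀ (norm_nonneg _) (norm_evS_le (hx 0) y) 2)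
  have real : ∀ k y, evS (z k) y = ((evS (z k) y).re : ℂ) := by
    intro k y
    have e : cc (z k) = z k := funext fun n => by simp [cc, hs k n]
    have h1 := evS_cc (z k) y
    rw [e] at h1
    exact (Complex.conj_eq_iff_re.1 h1.symm).symm
  set f : Fin 6 → P2 → ℝ := fun k y => (evS (z k) y).re
  have hD : ∀ k y, evS (defect S z k) y =
      ((f k y - antiT (S.J y) (fun l => f l y) k : ℝ) : ℂ) := by
    intro k y
    have hc' : Rapid (∑ l, conv (S.projC k l) (z l)) :=
      rapid_sum _ fun l _ => rapid_conv (S.projC_spec k l).1 (hz l)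
    rw [defect, sub_eq_add_neg, ← neg_one_smul ℂ (∑ l, _), evS_add (hz k 0)
      (rapid_smul _ hc' 0), evS_smul, evS_sum _ (fun l _ => rapid_conv (S.projC_spec k l).1 (hz l))]
    simp only [evS_conv ((S.projC_spec k _).1 0) (hz _ 0), (S.projC_spec k _).2, S.antiT_eq]
    push_cast
    rw [real k y]
    simp only [f, ← real]
    ring
  have hn : ∀ k y, ‖evS (z k) y‖ ^ 2 = f k y ^ 2 := fun k y => by
    conv_lhs => rw [real k y]
    rw [Complex.norm_real, Real.norm_eq_abs, sq_abs]
  have pol : ∀ (i j : Fin 6) (n : Z2), 2 * (z i n * conj (z j n)).re =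
      ‖(z i + z j) n‖ ^ 2 - ‖z i n‖ ^ 2 - ‖z j n‖ ^ 2 := fun i j n => by
    simp [Complex.sq_norm, Complex.normSq_apply, Complex.mul_re]; ring
  have sm : ∀ {x : Cf}, Rapid x → Summable fun n => ‖x n‖ ^ 2 := fun hx => summable_sq (hx 0)
  have prod : ∀ i j : Fin 6, Summable (fun n => 2 * (z i n * conj (z j n)).re) ∧
      ∫ y, 2 * (f i y * f j y) ∂square = ∑' n, 2 * (z i n * conj (z j n)).re := by
    intro i j
    have hij := rapid_add (hz i) (hz j)
    simp only [pol]
    refine ⟨((sm hij).sub (sm (hz i))).sub (sm (hz j)), ?_⟩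
    rw [((sm hij).sub (sm (hz i))).tsum_sub (sm (hz j)), (sm hij).tsum_sub (sm (hz i)), ← par hij,
      ← par (hz i), ← par (hz j), ← integral_sub (hint hij) (hint (hz i)),
      ← integral_sub (f := fun y => ‖evS (z i + z j) y‖ ^ 2 - ‖evS (z i) y‖ ^ 2)
        ((hint hij).sub (hint (hz i))) (hint (hz j))]
    refine integral_congr_ae (Filter.Eventually.of_forall fun y => ?_)
    dsimp only
    rw [hn, hn, evS_add (hz i 0) (hz j 0), real i y, real j y, ← Complex.ofReal_add,
      Complex.norm_real, Real.norm_eq_abs, sq_abs]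
    simp only [f]
    ring
  have e : ∀ n, Bp (fun k => z k n) (fun k => z k n) = 2 * (z 0 n * conj (z 1 n)).re
      - 2 * (z 2 n * conj (z 3 n)).re + 2 * (z 4 n * conj (z 5 n)).re := fun n => by
    simp [Bp, star', Fin.sum_univ_six, Complex.mul_re]; ring
  simp only [e]
  rw [((prod 0 1).1.sub (prod 2 3).1).tsum_add (prod 4 5).1, (prod 0 1).1.tsum_sub (prod 2 3).1,
    ← (prod 0 1).2, ← (prod 2 3).2, ← (prod 4 5).2]
  have cont : ∀ k, Continuous (f k) := fun k =>
    Complex.continuous_re.comp (contDiff_evS (hz k)).continuous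
  have bdd : ∀ k y, |f k y| ≤ (N 0 (z k)).toReal := fun k y =>
    (Complex.abs_re_le_norm _).trans (norm_evS_le (hz k 0) y)
  have hi2 : ∀ i j, Integrable (fun y => 2 * (f i y * f j y)) square := fun i j =>
    Integrable.of_bound (continuous_const.mul ((cont i).mul (cont j))).aestronglyMeasurable
      (2 * ((N 0 (z i)).toReal * (N 0 (z j)).toReal)) (Filter.Eventually.of_forall fun y => by
        rw [Real.norm_eq_abs, abs_mul, abs_mul, abs_two]
        have := bdd i y; have := bdd j y
        gcongr)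
  have hA : ∑' n, nsq (fun k => z k n) = ∫ y, ∑ k, f k y ^ 2 ∂square := by
    simp only [nsq, ← hn]
    rw [integral_finsetSum _ fun k _ => hint (hz k), Summable.tsum_finsetSum fun k _ => sm (hz k)]
    exact Finset.sum_congr rfl fun k _ => (par (hz k)).symm
  have hB : ∑' n, nsq (fun k => defect S z k n) =
      ∫ y, ∑ k, (f k y - antiT (S.J y) (fun l => f l y) k) ^ 2 ∂square := by
    simp only [nsq]
    rw [Summable.tsum_finsetSum fun k _ => sm (rapid_defect S hz k)]
    have hr : ∀ k y, (f k y - antiT (S.J y) (fun l => f l y) k) ^ 2 = ‖evS (defect S z k) y‖ ^ 2 :=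
      fun k y => by rw [hD, Complex.norm_real, Real.norm_eq_abs, sq_abs]
    simp only [hr]
    rw [integral_finsetSum _ fun k _ => hint (rapid_defect S hz k)]
    exact Finset.sum_congr rfl fun k _ => (par (rapid_defect S hz k)).symm
  have iA : Integrable (fun y => ∑ k, f k y ^ 2) square := by
    simp only [← hn]; exact integrable_finsetSum _ fun k _ => hint (hz k)
  have iB : Integrable (fun y => ∑ k, (f k y - antiT (S.J y) (fun l => f l y) k) ^ 2) square := by
    refine (integrable_finsetSum _ fun k _ => hint (rapid_defect S hz k)).congr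
      (Filter.Eventually.of_forall fun y => Finset.sum_congr rfl fun k _ => ?_)
    rw [hD, Complex.norm_real, Real.norm_eq_abs, sq_abs]
  rw [hA, hB, ← integral_const_mul, ← integral_const_mul, ← integral_sub (iA.const_mul _)
    (iB.const_mul _), ← integral_sub (hi2 0 1) (hi2 2 3), ← integral_add
    (f := fun y => 2 * (f 0 y * f 1 y) - 2 * (f 2 y * f 3 y))
    ((hi2 0 1).sub (hi2 2 3)) (hi2 4 5), ← integral_const_mul]
  refine integral_mono ((iA.const_mul _).sub (iB.const_mul _))
    ((((hi2 0 1).sub (hi2 2 3)).add (hi2 4 5)).const_mul _) fun y => ?_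
  refine (h y (fun k => f k y)).trans_eq ?_
  simp [wed, dot, star', Fin.sum_univ_six]; left; ring

end Vale.Agent.P204.Inv
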