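import Vale.Agent.P204.Inv.Algebra
import Vale.Agent.P204.CxAlgebra

/-! A right inverse of the anti-invariant part on closed invariant forms, affinely bounded (P204). -/

namespace Vale.Agent.P204.Inv

open Vale.Agent.P229 (P2)
open Vale.Agent.P205 (Periodic2 exists_max_periodic2)
open Vale.Agent.P205.Fourier
open Vale.Agent.P204.Cx
open Vale.Agent.P205.Beltrami hiding term rapid_term leibniz_bound term_decay exists_solution
open Vale.Agent.P204.LinBeltrami
open scoped ENNReal ContDiff ComplexConjugate Matrix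
open Finset

abbrev R2 := Matrix (Fin 2) (Fin 2) ℝ

abbrev Idx := Fin 6 ⊕ Fin 4

/-! ### Pointwise algebra -/

/-- The mixed part, with the last coordinate reflected by `s`. -/
def refl (s : ℝ) (z : V6) : R2 := !![z 2, z 5; s * z 4, s * z 3]

/-- The equations determining a form: anti part, fibre part, trace and conformal mixed part. -/
noncomputable def eqs (J : M4) (s : ℝ) : Matrix Idx (Fin 6) ℝ :=
  Matrix.of fun i l => Sum.elim (fun k => antiC J k l)
    ![if l = 1 then 1 else 0, star' (refForm J) l,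
      (aof (refl s (Pi.single l 1))).re, (aof (refl s (Pi.single l 1))).im] i

def rhs (a : V6) (ζ : ℂ) : Idx → ℝ := Sum.elim a ![0, 0, ζ.re, ζ.im]

/-- The solution of the equations, by the normal equations. -/
noncomputable def solMat (J : M4) (s : ℝ) : Matrix (Fin 6) Idx ℝ :=
  ((eqs J s)ᵀ * eqs J s)⁻¹ * (eqs J s)ᵀ

noncomputable def sol (J : M4) (s : ℝ) (a : V6) (ζ : ℂ) : V6 := solMat J s *ᵥ rhs a ζ

noncomputable def coefB (J : M4) (s : ℝ) (ζ : ℂ) : ℂ := bof (refl s (sol J s 0 ζ))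

noncomputable def coefMu (J : M4) : ℂ :=
  (coefB J (orient J) 1 - Complex.I * coefB J (orient J) Complex.I) / 2

noncomputable def coefNu (J : M4) : ℂ :=
  (coefB J (orient J) 1 + Complex.I * coefB J (orient J) Complex.I) / 2

noncomputable def coefH (J : M4) (j : Fin 6) : ℂ :=
  bof (refl (orient J) (sol J (orient J) (Pi.single j 1) 0))

lemma eqs_apply (J : M4) (s : ℝ) (η : V6) : eqs J s *ᵥ η =
    Sum.elim (anti J η) ![η 1, wed (refForm J) η, (aof (refl s η)).re, (aof (refl s η)).im] := by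
  funext i
  rcases i with k | k
  · rw [anti_sum]; rfl
  · fin_cases k <;>
      simp [eqs, Matrix.mulVec, dotProduct, wed, dot, aof, refl, Fin.sum_univ_six] <;> ring

lemma refl_det (s : ℝ) (z : V6) (h : z 1 = 0) : s * wed z z = -2 * (refl s z).det := by
  simp [wed, dot, star', Fin.sum_univ_six, refl, Matrix.det_fin_two, h]; ring

lemma anti_zero_of_frame {J : M4} (hJ : J * J = -1) {v w : Fin 4 → ℝ}
    (hd : wed (biv v (J *ᵥ v)) (biv w (J *ᵥ w)) ≠ 0) {z : V6} (t : Typ J (-1) z)
    (hA : dot z (biv v w) = 0) (hB : dot z (biv v (J *ᵥ w)) = 0) : z = 0 :=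
  eq_zero_of_frame hd ⟨anti_line hJ t v, anti_line hJ t w, hA, by rw [t v w, hA, mul_zero], hB,
    by rw [t.swap hJ v w, hB]; ring⟩

lemma prim_zero {J : M4} (hJ : J * J = -1) {η : V6} (h1 : anti J η = 0) (h2 : η 1 = 0)
    (h3 : wed (refForm J) η = 0) (h4 : aof (refl (orient J) η) = 0) : η = 0 := by
  by_contra hne
  have h := prim_neg hJ h1 (by rw [wed_comm]; exact h3) hne
  rw [refl_det _ _ h2, det_eq, h4, norm_zero] at h
  nlinarith [sq_nonneg ‖bof (refl (orient J) η)‖]

lemma eqs_inj {J : M4} (hJ : J * J = -1) {η : V6} (h : eqs J (orient J) *ᵥ η = 0) : η = 0 := by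
  rw [eqs_apply] at h
  have hk := fun k => congrFun h (Sum.inl k)
  have h1 := congrFun h (Sum.inr 0)
  have h2 := congrFun h (Sum.inr 1)
  have h3 := congrFun h (Sum.inr 2)
  have h4 := congrFun h (Sum.inr 3)
  simp at hk h1 h2 h3 h4
  exact prim_zero hJ (funext hk) h1 h2 (Complex.ext h3 h4)

lemma exists_preimage {J : M4} (hJ : J * J = -1) {a : V6} (ha : anti J a = a) (ζ : ℂ) :
    ∃ η, eqs J (orient J) *ᵥ η = rhs a ζ := by
  obtain ⟨v, w, hv, hw, -, -, e⟩ := exists_frame hJ
  have hd : wed (biv v (J *ᵥ v)) (biv w (J *ᵥ w)) ≠ 0 := fun h0 => by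
    rw [h0, zero_mul] at e; nlinarith [mul_pos hv hw]
  obtain ⟨hadd, hsmul⟩ := anti_linear J
  let g : V6 →ₗ[ℝ] V6 :=
    { toFun := fun η => ![dot (anti J η) (biv v w), dot (anti J η) (biv v (J *ᵥ w)), η 1,
        wed (refForm J) η, (aof (refl (orient J) η)).re, (aof (refl (orient J) η)).im]
      map_add' := fun x y => by
        funext k
        fin_cases k <;> simp [hadd, dot, wed, aof, refl, Fin.sum_univ_six] <;> ring
      map_smul' := fun c x => by
        funext k
        fin_cases k <;> simp [hsmul, dot, wed, aof, refl, Fin.sum_univ_six] <;> ring }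
  have hg : Function.Injective g := by
    rw [injective_iff_map_eq_zero]
    intro η h
    have k0 := congrFun h 0
    have k1 := congrFun h 1
    have k2 := congrFun h 2
    have k3 := congrFun h 3
    have k4 := congrFun h 4
    have k5 := congrFun h 5
    simp [g] at k0 k1 k2 k3 k4 k5
    exact prim_zero hJ (anti_zero_of_frame hJ hd (anti_typ hJ η) k0 k1) k2 k3 (Complex.ext k4 k5)
  obtain ⟨η, hη⟩ := LinearMap.injective_iff_surjective.1 hg
    ![dot a (biv v w), dot a (biv v (J *ᵥ w)), 0, 0, ζ.re, ζ.im]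
  have k0 := congrFun hη 0
  have k1 := congrFun hη 1
  have k2 := congrFun hη 2
  have k3 := congrFun hη 3
  have k4 := congrFun hη 4
  have k5 := congrFun hη 5
  simp [g] at k0 k1 k2 k3 k4 k5
  have hanti : anti J η = a := by
    refine sub_eq_zero.1 (anti_zero_of_frame hJ hd ?_ ?_ ?_)
    · have : anti J η - a = anti J (η + (-1 : ℝ) • a) := by
        rw [hadd, hsmul, ha]; simp [sub_eq_add_neg]
      rw [this]; exact anti_typ hJ _
    · have : dot (anti J η - a) (biv v w) = dot (anti J η) (biv v w) - dot a (biv v w) := by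
        simp [dot, Fin.sum_univ_six]; ring
      rw [this, k0, sub_self]
    · have : dot (anti J η - a) (biv v (J *ᵥ w))
          = dot (anti J η) (biv v (J *ᵥ w)) - dot a (biv v (J *ᵥ w)) := by
        simp [dot, Fin.sum_univ_six]; ring
      rw [this, k1, sub_self]
  refine ⟨η, ?_⟩
  rw [eqs_apply, hanti, k2, k3, k4, k5]
  rfl

lemma sol_spec {J : M4} (hJ : J * J = -1) {a : V6} (ha : anti J a = a) (ζ : ℂ) :
    anti J (sol J (orient J) a ζ) = a ∧ sol J (orient J) a ζ 1 = 0 ∧
      wed (refForm J) (sol J (orient J) a ζ) = 0 ∧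
      aof (refl (orient J) (sol J (orient J) a ζ)) = ζ := by
  obtain ⟨η, hη⟩ := exists_preimage hJ ha ζ
  set P := eqs J (orient J) with hP
  have hdet : IsUnit (Pᵀ * P).det := by
    rw [isUnit_iff_ne_zero]
    intro h0
    obtain ⟨x, hx, hx0⟩ := Matrix.exists_mulVec_eq_zero_iff.2 h0
    refine hx (eqs_inj hJ ?_)
    have h2 : (P *ᵥ x) ⬝ᵥ (P *ᵥ x) = 0 := by
      rw [Matrix.dotProduct_mulVec, ← Matrix.mulVec_transpose, Matrix.mulVec_mulVec, hx0,
        zero_dotProduct]
    exact dotProduct_self_eq_zero.1 h2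
  have e : sol J (orient J) a ζ = η := by
    rw [sol, ← hη, solMat, Matrix.mulVec_mulVec, Matrix.mul_assoc, ← hP,
      Matrix.nonsing_inv_mul _ hdet, Matrix.one_mulVec]
  rw [e]
  rw [hP, eqs_apply] at hη
  have h1 := congrFun hη (Sum.inr 0)
  have h2 := congrFun hη (Sum.inr 1)
  have h3 := congrFun hη (Sum.inr 2)
  have h4 := congrFun hη (Sum.inr 3)
  simp [rhs] at h1 h2 h3 h4
  refine ⟨funext fun k => ?_, h1, h2, Complex.ext h3 h4⟩
  simpa [rhs] using congrFun hη (Sum.inl k)

lemma bof_refl_sol (J : M4) (s : ℝ) (a : V6) (ζ : ℂ) :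
    bof (refl s (sol J s a ζ)) = ∑ j, (a j : ℂ) * bof (refl s (sol J s (Pi.single j 1) 0))
      + ((ζ.re : ℂ) * coefB J s 1 + (ζ.im : ℂ) * coefB J s Complex.I) := by
  have e : rhs a ζ = (∑ j, a j • rhs (Pi.single j 1) 0) + (ζ.re • rhs 0 1 + ζ.im • rhs 0 Complex.I) := by
    funext i
    rcases i with k | k
    · simp [rhs, Finset.sum_apply, Pi.single_apply]
    · fin_cases k <;> simp [rhs, Finset.sum_apply]
  have lin : ∀ (x y : V6), bof (refl s (x + y)) = bof (refl s x) + bof (refl s y) := fun x y => by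
    apply Complex.ext <;> simp [bof, refl] <;> ring
  have hom : ∀ (c : ℝ) (x : V6), bof (refl s (c • x)) = (c : ℂ) * bof (refl s x) := fun c x => by
    apply Complex.ext <;> simp [bof, refl] <;> ring
  have sum : ∀ (f : Fin 6 → V6), bof (refl s (∑ j, f j)) = ∑ j, bof (refl s (f j)) := fun f => by
    simp only [Fin.sum_univ_six, lin]
  simp only [coefB, sol]
  rw [e, Matrix.mulVec_add, Matrix.mulVec_add, Matrix.mulVec_sum]
  simp only [Matrix.mulVec_smul, lin, sum, hom]

lemma bof_sol_eq (J : M4) (a : V6) (ζ : ℂ) :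
    bof (refl (orient J) (sol J (orient J) a ζ)) =
      coefMu J * ζ + coefNu J * conj ζ + ∑ j, (a j : ℂ) * coefH J j := by
  rw [bof_refl_sol]
  simp only [coefMu, coefNu, coefH]
  conv_rhs => rw [← Complex.re_add_im ζ]
  simp only [map_add, map_mul, Complex.conj_ofReal, Complex.conj_I]
  linear_combination (((ζ.im : ℝ) : ℂ) * coefB J (orient J) Complex.I) * Complex.I_sq

lemma coef_lt {J : M4} (hJ : J * J = -1) : ‖coefMu J‖ + ‖coefNu J‖ < 1 := by
  set μ := coefMu J
  set ν := coefNu J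
  set b : ℂ := Complex.exp (((ν.arg - μ.arg) / 2 : ℝ) * Complex.I) with hb
  have hb1 : ‖b‖ = 1 := Complex.norm_exp_ofReal_mul_I _
  have h0 : anti J (0 : V6) = 0 := by simpa using (anti_linear J).2 0 0
  obtain ⟨s1, s2, s3, s4⟩ := sol_spec hJ h0 b
  have hne : sol J (orient J) 0 b ≠ 0 := fun h => by
    rw [h] at s4
    have : b = 0 := by rw [← s4]; apply Complex.ext <;> simp [aof, refl]
    rw [this, norm_zero] at hb1
    exact zero_ne_one hb1
  have h := prim_neg hJ s1 (by rw [wed_comm]; exact s3) hne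
  rw [refl_det _ _ s2, det_eq, s4, hb1, bof_sol_eq] at h
  simp only [Pi.zero_apply, Complex.ofReal_zero, zero_mul, Finset.sum_const_zero, add_zero] at h
  have e : μ * b + ν * conj b
      = ((‖μ‖ + ‖ν‖ : ℝ) : ℂ) * Complex.exp (((μ.arg + ν.arg) / 2 : ℝ) * Complex.I) := by
    conv_lhs => rw [← Complex.norm_mul_exp_arg_mul_I μ, ← Complex.norm_mul_exp_arg_mul_I ν, hb,
      ← Complex.exp_conj, map_mul, Complex.conj_ofReal, Complex.conj_I]
    rw [mul_assoc, mul_assoc, ← Complex.exp_add, ← Complex.exp_add, Complex.ofReal_add, add_mul]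
    congr 2 <;> push_cast <;> ring
  rw [e, norm_mul, Complex.norm_exp_ofReal_mul_I, Complex.norm_real, mul_one,
    Real.norm_of_nonneg (by positivity)] at h
  nlinarith [norm_nonneg μ, norm_nonneg ν]

/-! ### Smooth dependence -/

lemma smooth_transpose_mul {l m n : Type*} [Fintype m] {A : P2 → Matrix l m ℝ} {B : P2 → Matrix m n ℝ}
    (hA : ∀ i j, ContDiff ℝ ∞ fun u => A u i j) (hB : ∀ i j, ContDiff ℝ ∞ fun u => B u i j)
    (i : l) (j : n) : ContDiff ℝ ∞ fun u => (A u * B u) i j := by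
  simp only [Matrix.mul_apply]
  exact ContDiff.sum fun k _ => (hA i k).mul (hB k j)

lemma smooth_det {n : Type*} [Fintype n] [DecidableEq n] {A : P2 → Matrix n n ℝ}
    (hA : ∀ i j, ContDiff ℝ ∞ fun u => A u i j) : ContDiff ℝ ∞ fun u => (A u).det := by
  simp only [Matrix.det_apply']
  exact ContDiff.sum fun σ _ => contDiff_const.mul (contDiff_prod fun i _ => hA (σ i) i)

lemma smooth_crd {A : P2 → M4} (hA : ∀ i j, ContDiff ℝ ∞ fun u => A u i j) (k : Fin 6) :
    ContDiff ℝ ∞ fun u => crd (A u) k := by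
  fin_cases k <;> simpa [crd] using hA _ _

lemma smooth_ref (S : Str) (k : Fin 6) : ContDiff ℝ ∞ fun u => refForm (S.J u) k := by
  refine smooth_crd (fun i j => ?_) k
  simp only [Matrix.neg_apply]
  refine ((smooth_transpose_mul (fun i j => ?_) S.smooth) i j).neg
  simp only [Matrix.add_apply]
  exact contDiff_const.add ((smooth_transpose_mul (fun i j => S.smooth j i) S.smooth) i j)

lemma smooth_antiC (S : Str) (k l : Fin 6) : ContDiff ℝ ∞ fun u => antiC (S.J u) k l := by
  simp only [antiC, anti_eq, Pi.smul_apply, Pi.sub_apply, smul_eq_mul]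
  have h1 : ∀ i j, ContDiff ℝ ∞ fun u => ((S.J u)ᵀ * mat (Pi.single l 1)) i j :=
    smooth_transpose_mul (A := fun u => (S.J u)ᵀ) (B := fun _ => mat (Pi.single l 1))
      (fun i j => S.smooth j i) (fun _ _ => contDiff_const)
  refine contDiff_const.mul (contDiff_const.sub ?_)
  exact smooth_crd (A := fun u => (S.J u)ᵀ * mat (Pi.single l 1) * S.J u)
    (smooth_transpose_mul (A := fun u => (S.J u)ᵀ * mat (Pi.single l 1)) (B := S.J) h1 S.smooth) k

lemma smooth_eqs (S : Str) (s : ℝ) (i : Idx) (l : Fin 6) :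
    ContDiff ℝ ∞ fun u => eqs (S.J u) s i l := by
  rcases i with k | k
  · exact smooth_antiC S k l
  · have h : ∀ k, ContDiff ℝ ∞ fun u => star' (refForm (S.J u)) k := fun k => by
      fin_cases k
      · exact smooth_ref S 1
      · exact smooth_ref S 0
      · exact (smooth_ref S 3).neg
      · exact (smooth_ref S 2).neg
      · exact smooth_ref S 5
      · exact smooth_ref S 4
    fin_cases k
    · exact contDiff_const (c := if l = 1 then (1 : ℝ) else 0)
    · exact h l
    · exact contDiff_const (c := (aof (refl s (Pi.single l 1))).re)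
    · exact contDiff_const (c := (aof (refl s (Pi.single l 1))).im)

lemma orient_const (S : Str) (u : P2) : orient (S.J u) = orient (S.J 0) := by
  set f := fun u => wed (refForm (S.J u)) (refForm (S.J u))
  have hf : Continuous f := by
    have := fun k => (smooth_ref S k).continuous
    simp only [f, wed, dot, star', Fin.sum_univ_six]
    simp
    fun_prop
  have hne : ∀ v, f v ≠ 0 := fun v => wed_ref_ne (S.sq v)
  have key : ∀ v v', 0 < f v → 0 < f v' := by
    intro v v' hv
    by_contra hv'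
    obtain ⟨x, hx⟩ := mem_range_of_exists_le_of_exists_ge hf (c := (0:ℝ))
      ⟨v', not_lt.1 hv'⟩ ⟨v, hv.le⟩
    exact hne x hx
  simp only [orient]
  exact if_congr ⟨key u 0, key 0 u⟩ rfl rfl

lemma smooth_solMat (S : Str) (k : Fin 6) (i : Idx) :
    ContDiff ℝ ∞ fun u => solMat (S.J u) (orient (S.J u)) k i := by
  simp only [orient_const S, solMat]
  set s := orient (S.J 0) with hs
  have hT := fun i j => smooth_eqs S s j i
  refine smooth_transpose_mul (fun a b => ?_) (fun a b => hT a b) k i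
  have hG : ∀ a b, ContDiff ℝ ∞ fun u => ((eqs (S.J u) s)ᵀ * eqs (S.J u) s) a b :=
    smooth_transpose_mul hT (smooth_eqs S s)
  have hd : ∀ u, ((eqs (S.J u) s)ᵀ * eqs (S.J u) s).det ≠ 0 := by
    intro u h0
    obtain ⟨x, hx, hx0⟩ := Matrix.exists_mulVec_eq_zero_iff.2 h0
    rw [hs, ← orient_const S u] at hx0
    refine hx (eqs_inj (S.sq u) ?_)
    refine dotProduct_self_eq_zero.1 ?_
    rw [Matrix.dotProduct_mulVec, ← Matrix.mulVec_transpose, Matrix.mulVec_mulVec, hx0,
      zero_dotProduct]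
  simp only [Matrix.inv_def, Matrix.smul_apply, smul_eq_mul, Ring.inverse_eq_inv', Matrix.adjugate_apply]
  refine ((smooth_det hG).inv hd).mul (smooth_det fun c d => ?_)
  simp only [Matrix.updateRow_apply]
  split_ifs
  · exact contDiff_const
  · exact hG c d

lemma smooth_sol (S : Str) {a : P2 → V6} {ζ : P2 → ℂ} (ha : ∀ k, ContDiff ℝ ∞ fun u => a u k)
    (hζ : ContDiff ℝ ∞ ζ) (k : Fin 6) :
    ContDiff ℝ ∞ fun u => sol (S.J u) (orient (S.J u)) (a u) (ζ u) k := by
  simp only [sol, Matrix.mulVec, dotProduct]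
  refine ContDiff.sum fun i _ => (smooth_solMat S k i).mul ?_
  rcases i with j | j
  · exact ha j
  · fin_cases j <;> simp [rhs] <;>
      first | exact contDiff_const | exact Complex.reCLM.contDiff.comp hζ |
        exact Complex.imCLM.contDiff.comp hζ

lemma smooth_bof_sol (S : Str) (a : V6) (ζ : ℂ) :
    ContDiff ℝ ∞ fun u => bof (refl (orient (S.J u)) (sol (S.J u) (orient (S.J u)) a ζ)) := by
  have h := smooth_sol S (a := fun _ => a) (ζ := fun _ => ζ) (fun _ => contDiff_const) contDiff_const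
  have hre : ContDiff ℝ ∞ fun u => (bof (refl (orient (S.J u)) (sol (S.J u) (orient (S.J u)) a ζ))).re := by
    simp only [bof, refl, orient_const S] at h ⊢
    simp
    exact ((h 2).sub (contDiff_const.mul (h 3))).div_const 2
  have him : ContDiff ℝ ∞ fun u => (bof (refl (orient (S.J u)) (sol (S.J u) (orient (S.J u)) a ζ))).im := by
    simp only [bof, refl, orient_const S] at h ⊢
    simp
    exact ((contDiff_const.mul (h 4)).add (h 5)).div_const 2
  have := (Complex.ofRealCLM.contDiff.comp hre).add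
    ((Complex.ofRealCLM.contDiff.comp him).mul (contDiff_const (c := Complex.I)))
  simpa [Function.comp_def, Complex.re_add_im] using this

/-! ### The affine bound -/

lemma L2_le_sq (c : Cf) : L2 c ≤ N 0 c ^ 2 := by
  calc L2 c ≤ ∑' n, N 0 c * ‖c n‖ₑ := ENNReal.tsum_le_tsum fun n => by
        rw [sq]; exact mul_le_mul' (enorm_le_N 0 c n) le_rfl
    _ = _ := by rw [ENNReal.tsum_mul_left, ← N_zero_eq, sq]

lemma Q_le_N {m : Z2 → ℂ} (hm : IsDeriv m) :
    ∀ j, ∃ D : ℝ≥0∞, D ≠ ⊤ ∧ ∀ c, Q m j c ≤ D * N j c ^ 2 := by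
  obtain ⟨C, hC, hb⟩ := hm.bd
  intro j
  induction j with
  | zero => exact ⟨1, ENNReal.one_ne_top, fun c => by rw [Q_zero, one_mul]; exact L2_le_sq c⟩
  | succ j ih =>
    obtain ⟨D, hD, hd⟩ := ih
    refine ⟨D * C ^ 2, ENNReal.mul_ne_top hD (ENNReal.pow_ne_top hC), fun c => ?_⟩
    rw [← Q_mult]
    calc Q m j (mult m c) ≤ D * N j (mult m c) ^ 2 := hd _
      _ ≤ D * (C * N (j + 1) c) ^ 2 := by
          gcongr
          exact N_mult_le j 1 hb c
      _ = _ := by ring

lemma term_decay_affine {m : Z2 → ℂ} (hm : IsDeriv m) (hneg : ∀ n, conj (m (-n)) = m n) {μ ν : Cf}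
    (hμ : Rapid μ) (hν : Rapid ν) {θ r : ℝ} (hθ : 0 ≤ θ) (hθr : θ < r)
    (h : OpBound2 μ ν (ENNReal.ofReal θ)) :
    ∀ j, ∃ K : ℝ≥0∞, K ≠ ⊤ ∧ ∀ g, Rapid g → ∀ i,
      Q m j (term μ ν g i) ≤ K * N j g ^ 2 * ENNReal.ofReal r ^ i := by
  intro j
  induction j using Nat.strong_induction_on with
  | _ j ih =>
    choose! K hK hdec using ih
    obtain ⟨D, hD, hQ⟩ := Q_le_N hm j
    obtain ⟨δ, hδ, hδ1, hq⟩ : ∃ δ : ℝ, 0 < δ ∧ δ ≤ 1 ∧ (1 + δ) * θ < r := by
      refine ⟨min 1 ((r - θ) / (2 * (θ + 1))), lt_min one_pos (by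
        exact div_pos (by linarith) (by linarith)), min_le_left _ _, ?_⟩
      have h1 : min 1 ((r - θ) / (2 * (θ + 1))) ≤ (r - θ) / (2 * (θ + 1)) := min_le_right _ _
      rw [le_div_iff₀ (by linarith : (0:ℝ) < 2 * (θ + 1))] at h1
      have h0 : 0 ≤ min 1 ((r - θ) / (2 * (θ + 1))) :=
        le_min zero_le_one (div_nonneg (by linarith) (by linarith))
      nlinarith
    obtain ⟨C, hC, hb⟩ := leibniz_bound hm hneg j μ ν hμ hν _ h δ hδ hδ1
    set R := ENNReal.ofReal r
    set q := ENNReal.ofReal (1 + δ) * ENNReal.ofReal θ with hq'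
    have hqR : q < R := by
      rw [hq', ← ENNReal.ofReal_mul (by positivity)]
      exact (ENNReal.ofReal_lt_ofReal_iff (lt_of_le_of_lt hθ hθr)).2 hq
    have hne : R - q ≠ 0 := (tsub_pos_iff_lt.2 hqR).ne'
    have hnt : R - q ≠ ⊤ := ne_top_of_le_ne_top ENNReal.ofReal_ne_top tsub_le_self
    set S := ∑ i ∈ range j, K i
    have hS : S ≠ ⊤ := ENNReal.sum_ne_top.2 fun i hi => hK i (Finset.mem_range.1 hi)
    refine ⟨max D (C * S / (R - q)),
      (max_lt hD.lt_top (ENNReal.div_ne_top (ENNReal.mul_ne_top hC hS) hne).lt_top).ne, fun g hg => ?_⟩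
    set M := max D (C * S / (R - q))
    set x := N j g ^ 2
    intro i
    induction i with
    | zero => simpa [term] using (hQ g).trans (mul_le_mul' (le_max_left _ _) le_rfl)
    | succ i hi =>
      have hM : C * S ≤ M * (R - q) := by
        rw [← ENNReal.div_le_iff hne hnt]
        exact le_max_right _ _
      calc Q m j (term μ ν g (i + 1))
          ≤ q * Q m j (term μ ν g i) + C * ∑ l ∈ range j, Q m l (term μ ν g i) := by
            refine (hb _ (rapid_bT (rapid_term hμ hν hg i))).trans ?_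
            simp only [Q_bT, hq', le_refl]
        _ ≤ q * (M * x * R ^ i) + C * ∑ l ∈ range j, K l * x * R ^ i := by
            gcongr with l hl
            refine (hdec l (Finset.mem_range.1 hl) g hg i).trans ?_
            gcongr
            exact pow_le_pow_left' (N_mono (Finset.mem_range.1 hl).le g) 2
        _ = (M * q + C * S) * x * R ^ i := by rw [← Finset.sum_mul, ← Finset.sum_mul]; ring
        _ ≤ (M * q + M * (R - q)) * x * R ^ i := by gcongr
        _ = M * x * R ^ (i + 1) := by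
            rw [← mul_add, add_tsub_cancel_of_le hqR.le, pow_succ]; ring

lemma exists_solution_affine {μ ν : Cf} (hμ : Rapid μ) (hν : Rapid ν) {θ : ℝ} (hθ : 0 ≤ θ) (hθ1 : θ < 1)
    (h : OpBound2 μ ν (ENNReal.ofReal θ)) :
    ∃ K : ℝ, 0 ≤ K ∧ ∀ g, Rapid g → ∃ W, Rapid W ∧ (∀ n, W n = g n + op μ ν (bT W) n) ∧
      ∀ y, ‖evS (bT W) y‖ ≤ K * (1 + (N 3 g).toReal ^ 2) := by
  set r := (θ + 1) / 2 with hr
  have hr0 : 0 < r := by rw [hr]; linarith
  have hθr : θ < r := by rw [hr]; linarith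
  set ρ := Real.sqrt r with hρ
  have hρ0 : 0 < ρ := Real.sqrt_pos.2 hr0
  have hρ1 : ρ < 1 := by rw [hρ, Real.sqrt_lt' one_pos]; linarith
  obtain ⟨K0, hK0, b0⟩ := term_decay_affine isDeriv_m1 neg_m1 hμ hν hθ hθr h 0
  obtain ⟨K1, hK1, b1⟩ := term_decay_affine isDeriv_m1 neg_m1 hμ hν hθ hθr h (0 + 3)
  obtain ⟨K2, hK2, b2⟩ := term_decay_affine isDeriv_m2 neg_m2 hμ hν hθ hθr h (0 + 3)
  set B := (ENNReal.ofReal (9 ^ (0 + 3)) * (K0 + K1 + K2) + Zw) * (1 - ENNReal.ofReal ρ)⁻¹
  have hB : B ≠ ⊤ := by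
    refine ENNReal.mul_ne_top ?_ (ENNReal.inv_ne_top.2 (tsub_pos_iff_lt.2
      (ENNReal.ofReal_lt_one.2 hρ1)).ne')
    have := Zw_ne_top
    finiteness
  refine ⟨B.toReal, ENNReal.toReal_nonneg, fun g hg => ?_⟩
  obtain ⟨W, hW, hWeq, hWle⟩ := exists_solution hμ hν hg hθ hθ1 h
  refine ⟨W, hW, hWeq, fun y => (norm_evS_le (rapid_bT hW 0) y).trans ?_⟩
  set x := N 3 g ^ 2
  have hb : ∀ i, N 0 (term μ ν g i) ≤
      (ENNReal.ofReal (9 ^ (0 + 3)) * (K0 + K1 + K2) + Zw) * (1 + x) * ENNReal.ofReal ρ ^ i := by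
    intro i
    refine (N_le_Q 0 (s := (ρ ^ i)⁻¹) (by positivity) _).trans ?_
    have h0 := (b0 g hg i).trans (mul_le_mul' (mul_le_mul' le_rfl
      (pow_le_pow_left' (N_mono (show 0 ≤ 3 by norm_num) g) 2)) le_rfl)
    rw [Q_zero] at h0
    have e : ENNReal.ofReal ((ρ ^ i)⁻¹) * ENNReal.ofReal r ^ i = ENNReal.ofReal ρ ^ i := by
      rw [← ENNReal.ofReal_pow hr0.le, ← ENNReal.ofReal_pow hρ0.le, ← ENNReal.ofReal_mul (by positivity)]
      congr 1
      rw [show r = ρ * ρ from (Real.mul_self_sqrt hr0.le).symm, mul_pow]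
      field_simp
    calc ENNReal.ofReal ((ρ ^ i)⁻¹ * 9 ^ (0 + 3)) * (L2 (term μ ν g i)
          + Q (m1 e1 e2) (0 + 3) (term μ ν g i) + Q (m2 e1 e2) (0 + 3) (term μ ν g i))
          + ENNReal.ofReal ((ρ ^ i)⁻¹)⁻¹ * Zw
        ≤ ENNReal.ofReal ((ρ ^ i)⁻¹ * 9 ^ (0 + 3)) * (K0 * x * ENNReal.ofReal r ^ i
          + K1 * x * ENNReal.ofReal r ^ i + K2 * x * ENNReal.ofReal r ^ i)
          + ENNReal.ofReal ρ ^ i * Zw := by
          rw [inv_inv, ENNReal.ofReal_pow hρ0.le]
          gcongr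
          · exact b1 g hg i
          · exact b2 g hg i
      _ = (ENNReal.ofReal (9 ^ (0 + 3)) * (K0 + K1 + K2) * x + Zw) * ENNReal.ofReal ρ ^ i := by
          rw [ENNReal.ofReal_mul (by positivity), ← e]; ring
      _ ≤ _ := by
          gcongr
          generalize ENNReal.ofReal (9 ^ (0 + 3)) * (K0 + K1 + K2) = a
          calc a * x + Zw ≤ a * x + Zw + (a + Zw * x) := le_self_add
            _ = (a + Zw) * (1 + x) := by ring
  have hN : N 0 (bT W) ≤ B * (1 + x) := by
    rw [N_bT]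
    refine hWle.trans ((ENNReal.tsum_le_tsum hb).trans (le_of_eq ?_))
    rw [ENNReal.tsum_mul_left, ENNReal.tsum_geometric]; ring
  have hx : x ≠ ⊤ := ENNReal.pow_ne_top (hg 3)
  refine (ENNReal.toReal_mono (ENNReal.mul_ne_top hB (ENNReal.add_ne_top.2 ⟨ENNReal.one_ne_top, hx⟩)) hN).trans
    (le_of_eq ?_)
  rw [ENNReal.toReal_mul, ENNReal.toReal_add ENNReal.one_ne_top hx, ENNReal.toReal_one,
    ENNReal.toReal_pow]

lemma rapid_sum_fin {ι : Type*} (t : Finset ι) (f : ι → Cf) (hf : ∀ i, Rapid (f i)) :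
    Rapid (∑ i ∈ t, f i) ∧ (∀ k, N k (∑ i ∈ t, f i) ≤ ∑ i ∈ t, N k (f i)) ∧
      ∀ y, evS (∑ i ∈ t, f i) y = ∑ i ∈ t, evS (f i) y := by
  classical
  induction t using Finset.induction_on with
  | empty =>
    refine ⟨fun k => by simp [N_zero], fun k => by simp [N_zero], fun y => ?_⟩
    have : (0 : Cf) = (0 : ℂ) • (0 : Cf) := by simp
    rw [Finset.sum_empty, Finset.sum_empty, this, evS_smul, zero_mul]
  | insert a t ha ih =>
    obtain ⟨h1, h2, h3⟩ := ih
    simp only [Finset.sum_insert ha]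
    exact ⟨rapid_add (hf a) h1, fun k => (N_add_le k _ _).trans (add_le_add le_rfl (h2 k)),
      fun y => by rw [evS_add (hf a 0) (h1 0), h3]⟩

/-! ### The right inverse -/

theorem rightInverseSpec (S : Str) : RightInverseSpec S := by
  set μ : P2 → ℂ := fun u => coefMu (S.J u) with hμdef
  set ν : P2 → ℂ := fun u => coefNu (S.J u) with hνdef
  have pJ : ∀ {β : Type} (F : M4 → β), Periodic2 (1, 0) (0, 1) fun u => F (S.J u) := fun F u =>
    ⟨congrArg F (S.per u).1, congrArg F (S.per u).2⟩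
  have sμ : ContDiff ℝ ∞ μ :=
    ((smooth_bof_sol S 0 1).sub (contDiff_const.mul (smooth_bof_sol S 0 Complex.I))).div_const 2
  have sν : ContDiff ℝ ∞ ν :=
    ((smooth_bof_sol S 0 1).add (contDiff_const.mul (smooth_bof_sol S 0 Complex.I))).div_const 2
  obtain ⟨cm, hcm, em⟩ := exists_coeff_complex sμ (pJ coefMu)
  obtain ⟨cn, hcn, en⟩ := exists_coeff_complex sν (pJ coefNu)
  have hex : ∀ j, ∃ c, Rapid c ∧ evS c = fun u => coefH (S.J u) j := fun j =>
    exists_coeff_complex (smooth_bof_sol S (Pi.single j 1) 0) (pJ fun J => coefH J j)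
  choose H hH eH using hex
  obtain ⟨u0, hu0⟩ := exists_max_periodic2 det2_std (fun u => ‖μ u‖ + ‖ν u‖)
    (sμ.continuous.norm.add sν.continuous.norm)
    (fun u => (pJ (fun J => ‖coefMu J‖ + ‖coefNu J‖) u).1)
    (fun u => (pJ (fun J => ‖coefMu J‖ + ‖coefNu J‖) u).2)
  have hop := opBound2_of_le hcm hcn (M := ‖μ u0‖ + ‖ν u0‖)
    fun y => by rw [em, en]; exact hu0 y
  obtain ⟨K, hK, hsolve⟩ := exists_solution_affine hcm hcn (sq_nonneg _)
    (pow_lt_one₀ (by positivity) (coef_lt (S.sq u0)) two_ne_zero) hop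
  obtain ⟨u1, hu1⟩ := exists_max_periodic2 det2_std
    (fun u => ∑ k, ∑ i, |solMat (S.J u) (orient (S.J u)) k i|)
    (continuous_finsetSum _ fun k _ => continuous_finsetSum _ fun i _ =>
      (smooth_solMat S k i).continuous.abs)
    (fun u => (pJ (fun J => ∑ k, ∑ i, |solMat J (orient J) k i|) u).1)
    (fun u => (pJ (fun J => ∑ k, ∑ i, |solMat J (orient J) k i|) u).2)
  set M := ∑ k, ∑ i, |solMat (S.J u1) (orient (S.J u1)) k i|
  have hM : 0 ≤ M := Finset.sum_nonneg fun _ _ => Finset.sum_nonneg fun _ _ => abs_nonneg _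
  set L : Fin 6 → ℝ≥0∞ := fun j => ∑ l ∈ range (3 + 1), ((3 : ℕ).choose l : ℝ≥0∞) * N l (H j)
  have hL : ∀ j, L j ≠ ⊤ := fun j =>
    ENNReal.sum_ne_top.2 fun l _ => ENNReal.mul_ne_top (ENNReal.natCast_ne_top _) (hH j l)
  set Λ := ∑ j, (L j).toReal
  have hΛ : 0 ≤ Λ := Finset.sum_nonneg fun _ _ => ENNReal.toReal_nonneg
  refine ⟨M * (6 + 2 * K * (1 + 6 * Λ ^ 2)), 3, fun a hsa ha c hc ec => ?_⟩
  set g : Cf := ∑ j, conv (H j) (c j)
  obtain ⟨hg, hgN, hgev⟩ := rapid_sum_fin Finset.univ (fun j => conv (H j) (c j))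
    fun j => rapid_conv (hH j) (hc j)
  obtain ⟨W, hW, hWeq, hWb⟩ := hsolve g hg
  set A := evS (bT W) with hA
  set B := evS W with hB
  have sA : ContDiff ℝ ∞ A := contDiff_evS (rapid_bT hW)
  set η : P2 → V6 := fun u => sol (S.J u) (orient (S.J u)) (a u) (A u)
  have spec : ∀ u, anti (S.J u) (η u) = a u ∧ η u 1 = 0 ∧ wed (refForm (S.J u)) (η u) = 0 ∧
      aof (refl (orient (S.J u)) (η u)) = A u := fun u => sol_spec (S.sq u) (ha u) (A u)
  have hbof : ∀ u, bof (refl (orient (S.J u)) (η u)) = B u := by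
    intro u
    rw [bof_sol_eq, hB, solution_eq hcm hcn hg hW hWeq, em, en, hgev]
    refine congrArg₂ (· + ·) rfl (Finset.sum_congr rfl fun j _ => ?_)
    rw [evS_conv (hH j 0) (hc j 0), eH, ec, mul_comm]
  set s := orient (S.J 0)
  have hlof : ∀ u, refl s (η u) = lof (A u) (B u) := fun u => by
    have h := lof_eq (refl (orient (S.J u)) (η u))
    rw [(spec u).2.2.2, hbof, orient_const S u] at h
    exact h.symm
  have hs0 : s ≠ 0 := fun h => by
    have := (orient_mul (S.sq 0)).2; rw [show orient (S.J 0) = 0 from h] at this; norm_num at this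
  have sη : ∀ k, ContDiff ℝ ∞ fun u => η u k := smooth_sol S hsa.1 sA
  refine ⟨η, ⟨⟨sη, fun u => ?_⟩, fun u u' => by rw [(spec u).2.1, (spec u').2.1], fun u => ?_, fun u => ?_⟩,
    fun u => (spec u).1, fun u i => ?_⟩
  · simp only [η, (S.per u).1, (S.per u).2, (hsa.2 u).1, (hsa.2 u).2,
      ((evS_periodic (bT W)) u).1, ((evS_periodic (bT W)) u).2, hA, and_self]
  · have h2 : (fun v => η v 2) = fun v => (A v + B v).re := funext fun v => by
      simpa [refl, lof] using congrFun (congrFun (hlof v) 0) 0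
    have h5 : (fun v => η v 5) = fun v => (Complex.I * (A v - B v)).re := funext fun v => by
      simpa [refl, lof] using congrFun (congrFun (hlof v) 0) 1
    have d1 := ((sA.add (contDiff_evS hW)).differentiable (by simp) u).hasFDerivAt
    have d2 := (((contDiff_const (c := Complex.I)).mul (sA.sub (contDiff_evS hW))).differentiable
      (by simp) u).hasFDerivAt
    have f1 := (Complex.reCLM.hasFDerivAt.comp u d1).fderiv
    have f2 := (Complex.reCLM.hasFDerivAt.comp u d2).fderiv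
    simp only [Function.comp_def, Complex.reCLM_apply] at f1 f2
    rw [h2, h5, f1, f2]
    exact congrArg Complex.reCLM (solution_closed hW u)
  · have h4 : (fun v => η v 4) = fun v => s⁻¹ * (A v + B v).im := funext fun v => by
      have := congrFun (congrFun (hlof v) 1) 0
      simp [refl, lof] at this
      rw [Complex.add_im, ← this]; field_simp
    have h3 : (fun v => η v 3) = fun v => s⁻¹ * (Complex.I * (A v - B v)).im := funext fun v => by
      have := congrFun (congrFun (hlof v) 1) 1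
      simp [refl, lof] at this
      rw [Complex.mul_im]; simp
      rw [← this]; field_simp
    have d1 := ((sA.add (contDiff_evS hW)).differentiable (by simp) u).hasFDerivAt
    have d2 := (((contDiff_const (c := Complex.I)).mul (sA.sub (contDiff_evS hW))).differentiable
      (by simp) u).hasFDerivAt
    have f1 := ((Complex.imCLM.hasFDerivAt.comp u d1).const_mul s⁻¹).fderiv
    have f2 := ((Complex.imCLM.hasFDerivAt.comp u d2).const_mul s⁻¹).fderiv
    simp only [Function.comp_def, Complex.imCLM_apply] at f1 f2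
    rw [h4, h3, f1, f2]
    exact congrArg (fun z => s⁻¹ * z.im) (solution_closed hW u)
  · set x : Fin 6 → ℝ := fun j => (N 3 (c j)).toReal with hx
    have hx0 : ∀ j, 0 ≤ x j := fun j => ENNReal.toReal_nonneg
    have haj : ∀ j, |a u j| ≤ 1 + x j ^ 2 := fun j => by
      have h1 := norm_evS_le (hc j 0) u
      rw [ec, Complex.norm_real, Real.norm_eq_abs] at h1
      have h2 := ENNReal.toReal_mono (hc j 3) (N_mono (show 0 ≤ 3 by norm_num) (c j))
      nlinarith [sq_nonneg (x j - 1), hx0 j]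
    have hgx : (N 3 g).toReal ≤ ∑ j, Λ * x j := by
      have hle : N 3 g ≤ ∑ j, L j * N 3 (c j) := by
        refine (hgN 3).trans (Finset.sum_le_sum fun j _ => (N_conv_le 3 _ _).trans ?_)
        simp only [L, Finset.sum_mul, mul_assoc]
        exact Finset.sum_le_sum fun l _ => mul_le_mul' le_rfl (mul_le_mul' le_rfl
          (N_mono (Nat.sub_le 3 l) _))
      refine (ENNReal.toReal_mono (ENNReal.sum_ne_top.2 fun j _ =>
        ENNReal.mul_ne_top (hL j) (hc j 3)) hle).trans ?_
      rw [ENNReal.toReal_sum fun j _ => ENNReal.mul_ne_top (hL j) (hc j 3)]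
      refine Finset.sum_le_sum fun j _ => ?_
      rw [ENNReal.toReal_mul]
      exact mul_le_mul_of_nonneg_right (Finset.single_le_sum
        (f := fun j => (L j).toReal) (fun _ _ => ENNReal.toReal_nonneg) (Finset.mem_univ j)) (hx0 j)
    set T := ∑ j, x j ^ 2
    have hT : 0 ≤ T := Finset.sum_nonneg fun _ _ => sq_nonneg _
    have hcs : (∑ j, x j) ^ 2 ≤ 6 * T := by
      simpa using sq_sum_le_card_mul_sum_sq (s := (Finset.univ : Finset (Fin 6))) (f := x)
    rw [← Finset.mul_sum] at hgx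
    have hgsq : (N 3 g).toReal ^ 2 ≤ 6 * Λ ^ 2 * T := by
      calc (N 3 g).toReal ^ 2 ≤ (Λ * ∑ j, x j) ^ 2 := pow_le_pow_left₀ ENNReal.toReal_nonneg hgx 2
        _ = Λ ^ 2 * (∑ j, x j) ^ 2 := by ring
        _ ≤ Λ ^ 2 * (6 * T) := mul_le_mul_of_nonneg_left hcs (sq_nonneg _)
        _ = _ := by ring
    have hAb : ‖A u‖ ≤ K * (1 + 6 * Λ ^ 2) * (1 + T) := by
      refine (hWb u).trans ?_
      rw [mul_assoc]
      refine mul_le_mul_of_nonneg_left ?_ hK
      nlinarith [mul_nonneg (sq_nonneg Λ) hT, sq_nonneg Λ]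
    set U := (6 + 2 * K * (1 + 6 * Λ ^ 2)) * (1 + T)
    have hU : ∀ e, |rhs (a u) (A u) e| ≤ U := by
      have h6 : 0 ≤ K * (1 + 6 * Λ ^ 2) * (1 + T) :=
        mul_nonneg (mul_nonneg hK (by positivity)) (by linarith)
      intro e
      rcases e with j | j
      · have := Finset.single_le_sum (f := fun j => x j ^ 2) (fun _ _ => sq_nonneg _) (Finset.mem_univ j)
        have := haj j
        simp only [rhs, Sum.elim_inl, U]
        nlinarith
      · fin_cases j <;> simp [rhs, U] <;>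
          nlinarith [Complex.abs_re_le_norm (A u), Complex.abs_im_le_norm (A u)]
    calc |η u i| ≤ ∑ e, |solMat (S.J u) (orient (S.J u)) i e * rhs (a u) (A u) e| := by
          simp only [η, sol, Matrix.mulVec, dotProduct]
          exact Finset.abs_sum_le_sum_abs _ _
      _ ≤ ∑ e, |solMat (S.J u) (orient (S.J u)) i e| * U := Finset.sum_le_sum fun e _ => by
          rw [abs_mul]; exact mul_le_mul_of_nonneg_left (hU e) (abs_nonneg _)
      _ ≤ M * U := by
          rw [← Finset.sum_mul]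
          refine mul_le_mul_of_nonneg_right ((Finset.single_le_sum
            (f := fun k => ∑ e, |solMat (S.J u) (orient (S.J u)) k e|)
            (fun _ _ => Finset.sum_nonneg fun _ _ => abs_nonneg _) (Finset.mem_univ i)).trans (hu1 u))
            ((abs_nonneg _).trans (hU (Sum.inl 0)))
      _ = _ := by simp only [U, T, x]; ring

end Vale.Agent.P204.Inv
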